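import Vale.Agent.P237.All.Small.Wide.DataAa0
import Vale.Agent.P237.All.Small.Wide.DataAa1
import Vale.Agent.P237.All.Small.Wide.DataAa2
import Vale.Agent.P237.All.Small.Wide.DataAa3
import Vale.Agent.P237.All.Small.Wide.DataAb0
import Vale.Agent.P237.All.Small.Wide.DataAb1
import Vale.Agent.P237.All.Small.Wide.DataAb2
import Vale.Agent.P237.All.Small.Wide.DataAb3
import Vale.Agent.P237.All.Small.Wide.DataAc0
import Vale.Agent.P237.All.Small.Wide.DataAc1
import Vale.Agent.P237.All.Small.Wide.DataAc2
import Vale.Agent.P237.All.Small.Wide.DataAc3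
import Vale.Agent.P237.All.Small.Wide.DataBa0
import Vale.Agent.P237.All.Small.Wide.DataBa1
import Vale.Agent.P237.All.Small.Wide.DataBb0
import Vale.Agent.P237.All.Small.Wide.DataBb1
import Vale.Agent.P237.All.Small.Wide.DataBc0
import Vale.Agent.P237.All.Small.Wide.DataBc1
import Vale.Agent.P237.All.Small.Wide.DataBd0
import Vale.Agent.P237.All.Small.Wide.DataBd1
import Vale.Agent.P237.All.Small.Wide.DataCa0
import Vale.Agent.P237.All.Small.Wide.DataCa1
import Vale.Agent.P237.All.Small.Wide.DataCb0
import Vale.Agent.P237.All.Small.Wide.DataCb1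
import Vale.Agent.P237.All.Small.Wide.DataCc0
import Vale.Agent.P237.All.Small.Wide.DataCc1
import Vale.Agent.P237.All.Small.Wide.DataCd0
import Vale.Agent.P237.All.Small.Wide.DataCd1
import Vale.Agent.P237.All.Small.Wide.DataDa0
import Vale.Agent.P237.All.Small.Wide.DataDa1
import Vale.Agent.P237.All.Small.Wide.DataDb0
import Vale.Agent.P237.All.Small.Wide.DataDb1
import Vale.Agent.P237.All.Small.Wide.DataDc0
import Vale.Agent.P237.All.Small.Wide.DataDc1
import Vale.Agent.P237.All.Small.Wide.DataDd0
import Vale.Agent.P237.All.Small.Wide.DataDd1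
import Vale.Agent.P237.All.Small.Wide.DataDe0
import Vale.Agent.P237.All.Small.Wide.DataDe1
import Vale.Agent.P237.All.Small.Wide.DataDf0
import Vale.Agent.P237.All.Small.Wide.DataDf1
import Vale.Agent.P237.All.Small.Wide.DataEa0
import Vale.Agent.P237.All.Small.Wide.DataEa1
import Vale.Agent.P237.All.Small.Wide.DataEb0
import Vale.Agent.P237.All.Small.Wide.DataEb1
import Vale.Agent.P237.All.Small.Wide.DataEc0
import Vale.Agent.P237.All.Small.Wide.DataEc1
import Vale.Agent.P237.All.Small.Wide.DataEd0
import Vale.Agent.P237.All.Small.Wide.DataEd1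
import Vale.Agent.P237.All.Small.Wide.DataEe0
import Vale.Agent.P237.All.Small.Wide.DataEe1
import Vale.Agent.P237.All.Small.Wide.DataEf0
import Vale.Agent.P237.All.Small.Wide.DataEf1
import Vale.Agent.P237.All.Small.Wide.DataEg0
import Vale.Agent.P237.All.Small.Wide.DataEg1
import Vale.Agent.P237.All.Small.Wide.DataEh0
import Vale.Agent.P237.All.Small.Wide.DataEh1

/-!
P237, every dimension from `p = 54` on: a certificate at every excess in `[67/5000, 4/5]`, from the wide
cells and slices checked by the kernel.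
-/

noncomputable section

open Real Set

namespace Vale.Agent.P237.All.Transport.Small.Wide

open Mid (rn)
open Large (Node tau)

/-- `x` lies between two numbers in units of `2 ^ -24`. -/
def In (a b : ℕ) (x : ℝ) : Prop := rn a ≤ x ∧ x ≤ rn b

theorem In.split {a b : ℕ} {x : ℝ} (h : In a b x) (c : ℕ) : In a c x ∨ In c b x :=
  (le_total x (rn c)).imp (fun h2 => ⟨h.1, h2⟩) fun h2 => ⟨h2, h.2⟩

/-- The slice covers a box of `τ` and `k`. -/
def Covers (c : Cell) (tc hh a b lo hi : ℕ) : Bool :=
  Nat.ble c.k0 a && Nat.ble b c.base.K && Nat.ble (Nat.sub tc hh) lo && Nat.ble hi (Nat.add tc hh)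

/-- The certificate at the integral with excess `k`. -/
def CertAt (p : ℕ) (k : ℝ) : Prop := HasCert p (exp (k / ((p : ℝ) + 1)) * (2 * mass (p + 1) semi 1))

theorem covers_facts {c : Cell} {tc hh a b lo hi p : ℕ} {k : ℝ} (h : Covers c tc hh a b lo hi = true)
    (ht : In lo hi (tau p)) (hk : In a b k) :
    rn (Nat.sub tc hh) ≤ tau p ∧ tau p ≤ rn (Nat.add tc hh) ∧
      exp (rn c.k0 / ((p : ℝ) + 1)) * (2 * mass (p + 1) semi 1) ≤
        exp (k / ((p : ℝ) + 1)) * (2 * mass (p + 1) semi 1) ∧
      exp (k / ((p : ℝ) + 1)) * (2 * mass (p + 1) semi 1) ≤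
        exp (rn c.base.K / ((p : ℝ) + 1)) * (2 * mass (p + 1) semi 1) := by
  simp only [Covers, Bool.and_eq_true] at h
  obtain ⟨⟨⟨h0, h1⟩, h2⟩, h3⟩ := h
  have hM : 0 ≤ 2 * mass (p + 1) semi 1 := by linarith [mass_one_pos isProfile_semi (p + 1)]
  refine ⟨(Mid.rn_le (Nat.le_of_ble_eq_true h2)).trans ht.1,
    ht.2.trans (Mid.rn_le (Nat.le_of_ble_eq_true h3)), ?_, ?_⟩
  · exact mul_le_mul_of_nonneg_right (exp_le_exp.2 (div_le_div_of_nonneg_right
      ((Mid.rn_le (Nat.le_of_ble_eq_true h0)).trans hk.1) (by positivity))) hM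
  · exact mul_le_mul_of_nonneg_right (exp_le_exp.2 (div_le_div_of_nonneg_right
      (hk.2.trans (Mid.rn_le (Nat.le_of_ble_eq_true h1))) (by positivity))) hM

theorem certAt_slice {c : Cell} {tc hh x1 zk0 zk1 p a b lo hi : ℕ} {n last : Node} {segs : List Seg} {k : ℝ}
    (hp : 54 ≤ p) (hc : cellOK c = true) (h : sliceTest c tc hh n segs last = true)
    (hfar : farOK c tc hh x1 zk0 zk1 = true) (hx1 : Nat.ble x1 (endOf n segs).x = true)
    (hcov : Covers c tc hh a b lo hi = true) (ht : In lo hi (tau p)) (hk : In a b k) : CertAt p k :=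
  have ⟨t0, t1, j0, j1⟩ := covers_facts hcov ht hk
  hasCert_slice (by omega) t0 t1 hc h hx1 hfar j0 j1

theorem certAt_bottom {c : Cell} {tc hh kap0 kap1 fac p a b lo hi : ℕ} {n last : Node} {segs : List Seg}
    {k : ℝ} (hp : 54 ≤ p) (hc : cellOK c = true) (h : sliceTest c tc hh n segs last = true)
    (hfar : farBOK c kap0 kap1 fac = true) (hx1 : Nat.ble 201326592 (endOf n segs).x = true)
    (hhi : Nat.ble (Nat.add tc hh) 4096 = true)
    (hcov : Covers c tc hh a b lo hi = true) (ht : In lo hi (tau p)) (hk : In a b k) : CertAt p k :=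
  have ⟨t0, t1, j0, j1⟩ := covers_facts hcov ht hk
  hasCert_bottom (by omega) t0 t1 hhi hc h hx1 hfar j0 j1

theorem certAt_Aa {p : ℕ} {k : ℝ} (hp : 54 ≤ p) (ht : In 0 75498 (tau p))
    (hk : In 209715 1677722 k) : CertAt p k := by
  rcases ht.split 4096 with ht1 | ht
  · exact certAt_bottom hp okCellAa sliceAa0 farAa0 (by decide +kernel) (by decide +kernel)
      (by decide +kernel) ht1 hk
  rcases ht.split 12582 with ht1 | ht
  · exact certAt_slice hp okCellAa sliceAa1 farAa1 (by decide +kernel)
      (by decide +kernel) ht1 hk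
  rcases ht.split 33554 with ht1 | ht
  · exact certAt_slice hp okCellAa sliceAa2 farAa2 (by decide +kernel)
      (by decide +kernel) ht1 hk
  exact certAt_slice hp okCellAa sliceAa3 farAa3 (by decide +kernel)
      (by decide +kernel) ht hk

theorem certAt_Ab {p : ℕ} {k : ℝ} (hp : 54 ≤ p) (ht : In 0 75498 (tau p))
    (hk : In 1677722 5033165 k) : CertAt p k := by
  rcases ht.split 4096 with ht1 | ht
  · exact certAt_bottom hp okCellAb sliceAb0 farAb0 (by decide +kernel) (by decide +kernel)
      (by decide +kernel) ht1 hk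
  rcases ht.split 12582 with ht1 | ht
  · exact certAt_slice hp okCellAb sliceAb1 farAb1 (by decide +kernel)
      (by decide +kernel) ht1 hk
  rcases ht.split 33554 with ht1 | ht
  · exact certAt_slice hp okCellAb sliceAb2 farAb2 (by decide +kernel)
      (by decide +kernel) ht1 hk
  exact certAt_slice hp okCellAb sliceAb3 farAb3 (by decide +kernel)
      (by decide +kernel) ht hk

theorem certAt_Ac {p : ℕ} {k : ℝ} (hp : 54 ≤ p) (ht : In 0 75498 (tau p))
    (hk : In 5033165 13421773 k) : CertAt p k := by
  rcases ht.split 4096 with ht1 | ht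
  · exact certAt_bottom hp okCellAc sliceAc0 farAc0 (by decide +kernel) (by decide +kernel)
      (by decide +kernel) ht1 hk
  rcases ht.split 12582 with ht1 | ht
  · exact certAt_slice hp okCellAc sliceAc1 farAc1 (by decide +kernel)
      (by decide +kernel) ht1 hk
  rcases ht.split 33554 with ht1 | ht
  · exact certAt_slice hp okCellAc sliceAc2 farAc2 (by decide +kernel)
      (by decide +kernel) ht1 hk
  exact certAt_slice hp okCellAc sliceAc3 farAc3 (by decide +kernel)
      (by decide +kernel) ht hk

theorem certAt_A {p : ℕ} {k : ℝ} (hp : 54 ≤ p) (ht : In 0 75498 (tau p))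
    (hk : In 209715 13421773 k) : CertAt p k := by
  rcases hk.split 1677722 with hk1 | hk
  · exact certAt_Aa hp ht hk1
  rcases hk.split 5033165 with hk1 | hk
  · exact certAt_Ab hp ht hk1
  exact certAt_Ac hp ht hk

theorem certAt_Ba {p : ℕ} {k : ℝ} (hp : 54 ≤ p) (ht : In 75498 150996 (tau p))
    (hk : In 209715 1677722 k) : CertAt p k := by
  rcases ht.split 109052 with ht1 | ht
  · exact certAt_slice hp okCellBa sliceBa0 farBa0 (by decide +kernel)
      (by decide +kernel) ht1 hk
  exact certAt_slice hp okCellBa sliceBa1 farBa1 (by decide +kernel)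
      (by decide +kernel) ht hk

theorem certAt_Bb {p : ℕ} {k : ℝ} (hp : 54 ≤ p) (ht : In 75498 150996 (tau p))
    (hk : In 1677722 5033165 k) : CertAt p k := by
  rcases ht.split 109052 with ht1 | ht
  · exact certAt_slice hp okCellBb sliceBb0 farBb0 (by decide +kernel)
      (by decide +kernel) ht1 hk
  exact certAt_slice hp okCellBb sliceBb1 farBb1 (by decide +kernel)
      (by decide +kernel) ht hk

theorem certAt_Bc {p : ℕ} {k : ℝ} (hp : 54 ≤ p) (ht : In 75498 150996 (tau p))
    (hk : In 5033165 9227469 k) : CertAt p k := by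
  rcases ht.split 109052 with ht1 | ht
  · exact certAt_slice hp okCellBc sliceBc0 farBc0 (by decide +kernel)
      (by decide +kernel) ht1 hk
  exact certAt_slice hp okCellBc sliceBc1 farBc1 (by decide +kernel)
      (by decide +kernel) ht hk

theorem certAt_Bd {p : ℕ} {k : ℝ} (hp : 54 ≤ p) (ht : In 75498 150996 (tau p))
    (hk : In 9227469 13421773 k) : CertAt p k := by
  rcases ht.split 109052 with ht1 | ht
  · exact certAt_slice hp okCellBd sliceBd0 farBd0 (by decide +kernel)
      (by decide +kernel) ht1 hk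
  exact certAt_slice hp okCellBd sliceBd1 farBd1 (by decide +kernel)
      (by decide +kernel) ht hk

theorem certAt_B {p : ℕ} {k : ℝ} (hp : 54 ≤ p) (ht : In 75498 150996 (tau p))
    (hk : In 209715 13421773 k) : CertAt p k := by
  rcases hk.split 1677722 with hk1 | hk
  · exact certAt_Ba hp ht hk1
  rcases hk.split 5033165 with hk1 | hk
  · exact certAt_Bb hp ht hk1
  rcases hk.split 9227469 with hk1 | hk
  · exact certAt_Bc hp ht hk1
  exact certAt_Bd hp ht hk

theorem certAt_Ca {p : ℕ} {k : ℝ} (hp : 54 ≤ p) (ht : In 150996 201328 (tau p))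
    (hk : In 209715 1677722 k) : CertAt p k := by
  rcases ht.split 176160 with ht1 | ht
  · exact certAt_slice hp okCellCa sliceCa0 farCa0 (by decide +kernel)
      (by decide +kernel) ht1 hk
  exact certAt_slice hp okCellCa sliceCa1 farCa1 (by decide +kernel)
      (by decide +kernel) ht hk

theorem certAt_Cb {p : ℕ} {k : ℝ} (hp : 54 ≤ p) (ht : In 150996 201328 (tau p))
    (hk : In 1677722 5033165 k) : CertAt p k := by
  rcases ht.split 176160 with ht1 | ht
  · exact certAt_slice hp okCellCb sliceCb0 farCb0 (by decide +kernel)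
      (by decide +kernel) ht1 hk
  exact certAt_slice hp okCellCb sliceCb1 farCb1 (by decide +kernel)
      (by decide +kernel) ht hk

theorem certAt_Cc {p : ℕ} {k : ℝ} (hp : 54 ≤ p) (ht : In 150996 201328 (tau p))
    (hk : In 5033165 9227469 k) : CertAt p k := by
  rcases ht.split 176160 with ht1 | ht
  · exact certAt_slice hp okCellCc sliceCc0 farCc0 (by decide +kernel)
      (by decide +kernel) ht1 hk
  exact certAt_slice hp okCellCc sliceCc1 farCc1 (by decide +kernel)
      (by decide +kernel) ht hk

theorem certAt_Cd {p : ℕ} {k : ℝ} (hp : 54 ≤ p) (ht : In 150996 201328 (tau p))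
    (hk : In 9227469 13421773 k) : CertAt p k := by
  rcases ht.split 176160 with ht1 | ht
  · exact certAt_slice hp okCellCd sliceCd0 farCd0 (by decide +kernel)
      (by decide +kernel) ht1 hk
  exact certAt_slice hp okCellCd sliceCd1 farCd1 (by decide +kernel)
      (by decide +kernel) ht hk

theorem certAt_C {p : ℕ} {k : ℝ} (hp : 54 ≤ p) (ht : In 150996 201328 (tau p))
    (hk : In 209715 13421773 k) : CertAt p k := by
  rcases hk.split 1677722 with hk1 | hk
  · exact certAt_Ca hp ht hk1
  rcases hk.split 5033165 with hk1 | hk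
  · exact certAt_Cb hp ht hk1
  rcases hk.split 9227469 with hk1 | hk
  · exact certAt_Cc hp ht hk1
  exact certAt_Cd hp ht hk

theorem certAt_Da {p : ℕ} {k : ℝ} (hp : 54 ≤ p) (ht : In 201328 268435 (tau p))
    (hk : In 209715 1006633 k) : CertAt p k := by
  rcases ht.split 234881 with ht1 | ht
  · exact certAt_slice hp okCellDa sliceDa0 farDa0 (by decide +kernel)
      (by decide +kernel) ht1 hk
  exact certAt_slice hp okCellDa sliceDa1 farDa1 (by decide +kernel)
      (by decide +kernel) ht hk

theorem certAt_Db {p : ℕ} {k : ℝ} (hp : 54 ≤ p) (ht : In 201328 268435 (tau p))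
    (hk : In 1006633 2348810 k) : CertAt p k := by
  rcases ht.split 234881 with ht1 | ht
  · exact certAt_slice hp okCellDb sliceDb0 farDb0 (by decide +kernel)
      (by decide +kernel) ht1 hk
  exact certAt_slice hp okCellDb sliceDb1 farDb1 (by decide +kernel)
      (by decide +kernel) ht hk

theorem certAt_Dc {p : ℕ} {k : ℝ} (hp : 54 ≤ p) (ht : In 201328 268435 (tau p))
    (hk : In 2348810 5033165 k) : CertAt p k := by
  rcases ht.split 234881 with ht1 | ht
  · exact certAt_slice hp okCellDc sliceDc0 farDc0 (by decide +kernel)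
      (by decide +kernel) ht1 hk
  exact certAt_slice hp okCellDc sliceDc1 farDc1 (by decide +kernel)
      (by decide +kernel) ht hk

theorem certAt_Dd {p : ℕ} {k : ℝ} (hp : 54 ≤ p) (ht : In 201328 268435 (tau p))
    (hk : In 5033165 8388608 k) : CertAt p k := by
  rcases ht.split 234881 with ht1 | ht
  · exact certAt_slice hp okCellDd sliceDd0 farDd0 (by decide +kernel)
      (by decide +kernel) ht1 hk
  exact certAt_slice hp okCellDd sliceDd1 farDd1 (by decide +kernel)
      (by decide +kernel) ht hk

theorem certAt_De {p : ℕ} {k : ℝ} (hp : 54 ≤ p) (ht : In 201328 268435 (tau p))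
    (hk : In 8388608 11408507 k) : CertAt p k := by
  rcases ht.split 234881 with ht1 | ht
  · exact certAt_slice hp okCellDe sliceDe0 farDe0 (by decide +kernel)
      (by decide +kernel) ht1 hk
  exact certAt_slice hp okCellDe sliceDe1 farDe1 (by decide +kernel)
      (by decide +kernel) ht hk

theorem certAt_Df {p : ℕ} {k : ℝ} (hp : 54 ≤ p) (ht : In 201328 268435 (tau p))
    (hk : In 11408507 13421773 k) : CertAt p k := by
  rcases ht.split 234881 with ht1 | ht
  · exact certAt_slice hp okCellDf sliceDf0 farDf0 (by decide +kernel)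
      (by decide +kernel) ht1 hk
  exact certAt_slice hp okCellDf sliceDf1 farDf1 (by decide +kernel)
      (by decide +kernel) ht hk

theorem certAt_D {p : ℕ} {k : ℝ} (hp : 54 ≤ p) (ht : In 201328 268435 (tau p))
    (hk : In 209715 13421773 k) : CertAt p k := by
  rcases hk.split 1006633 with hk1 | hk
  · exact certAt_Da hp ht hk1
  rcases hk.split 2348810 with hk1 | hk
  · exact certAt_Db hp ht hk1
  rcases hk.split 5033165 with hk1 | hk
  · exact certAt_Dc hp ht hk1
  rcases hk.split 8388608 with hk1 | hk
  · exact certAt_Dd hp ht hk1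
  rcases hk.split 11408507 with hk1 | hk
  · exact certAt_De hp ht hk1
  exact certAt_Df hp ht hk

theorem certAt_Ea {p : ℕ} {k : ℝ} (hp : 54 ≤ p) (ht : In 268435 301991 (tau p))
    (hk : In 209715 1006633 k) : CertAt p k := by
  rcases ht.split 285213 with ht1 | ht
  · exact certAt_slice hp okCellEa sliceEa0 farEa0 (by decide +kernel)
      (by decide +kernel) ht1 hk
  exact certAt_slice hp okCellEa sliceEa1 farEa1 (by decide +kernel)
      (by decide +kernel) ht hk

theorem certAt_Eb {p : ℕ} {k : ℝ} (hp : 54 ≤ p) (ht : In 268435 301991 (tau p))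
    (hk : In 1006633 2348810 k) : CertAt p k := by
  rcases ht.split 285213 with ht1 | ht
  · exact certAt_slice hp okCellEb sliceEb0 farEb0 (by decide +kernel)
      (by decide +kernel) ht1 hk
  exact certAt_slice hp okCellEb sliceEb1 farEb1 (by decide +kernel)
      (by decide +kernel) ht hk

theorem certAt_Ec {p : ℕ} {k : ℝ} (hp : 54 ≤ p) (ht : In 268435 301991 (tau p))
    (hk : In 2348810 3690988 k) : CertAt p k := by
  rcases ht.split 285213 with ht1 | ht
  · exact certAt_slice hp okCellEc sliceEc0 farEc0 (by decide +kernel)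
      (by decide +kernel) ht1 hk
  exact certAt_slice hp okCellEc sliceEc1 farEc1 (by decide +kernel)
      (by decide +kernel) ht hk

theorem certAt_Ed {p : ℕ} {k : ℝ} (hp : 54 ≤ p) (ht : In 268435 301991 (tau p))
    (hk : In 3690988 5033165 k) : CertAt p k := by
  rcases ht.split 285213 with ht1 | ht
  · exact certAt_slice hp okCellEd sliceEd0 farEd0 (by decide +kernel)
      (by decide +kernel) ht1 hk
  exact certAt_slice hp okCellEd sliceEd1 farEd1 (by decide +kernel)
      (by decide +kernel) ht hk

theorem certAt_Ee {p : ℕ} {k : ℝ} (hp : 54 ≤ p) (ht : In 268435 301991 (tau p))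
    (hk : In 5033165 7381975 k) : CertAt p k := by
  rcases ht.split 285213 with ht1 | ht
  · exact certAt_slice hp okCellEe sliceEe0 farEe0 (by decide +kernel)
      (by decide +kernel) ht1 hk
  exact certAt_slice hp okCellEe sliceEe1 farEe1 (by decide +kernel)
      (by decide +kernel) ht hk

theorem certAt_Ef {p : ℕ} {k : ℝ} (hp : 54 ≤ p) (ht : In 268435 301991 (tau p))
    (hk : In 7381975 9730785 k) : CertAt p k := by
  rcases ht.split 285213 with ht1 | ht
  · exact certAt_slice hp okCellEf sliceEf0 farEf0 (by decide +kernel)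
      (by decide +kernel) ht1 hk
  exact certAt_slice hp okCellEf sliceEf1 farEf1 (by decide +kernel)
      (by decide +kernel) ht hk

theorem certAt_Eg {p : ℕ} {k : ℝ} (hp : 54 ≤ p) (ht : In 268435 301991 (tau p))
    (hk : In 9730785 11744051 k) : CertAt p k := by
  rcases ht.split 285213 with ht1 | ht
  · exact certAt_slice hp okCellEg sliceEg0 farEg0 (by decide +kernel)
      (by decide +kernel) ht1 hk
  exact certAt_slice hp okCellEg sliceEg1 farEg1 (by decide +kernel)
      (by decide +kernel) ht hk

theorem certAt_Eh {p : ℕ} {k : ℝ} (hp : 54 ≤ p) (ht : In 268435 301991 (tau p))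
    (hk : In 11744051 13421773 k) : CertAt p k := by
  rcases ht.split 285213 with ht1 | ht
  · exact certAt_slice hp okCellEh sliceEh0 farEh0 (by decide +kernel)
      (by decide +kernel) ht1 hk
  exact certAt_slice hp okCellEh sliceEh1 farEh1 (by decide +kernel)
      (by decide +kernel) ht hk

theorem certAt_E {p : ℕ} {k : ℝ} (hp : 54 ≤ p) (ht : In 268435 301991 (tau p))
    (hk : In 209715 13421773 k) : CertAt p k := by
  rcases hk.split 1006633 with hk1 | hk
  · exact certAt_Ea hp ht hk1
  rcases hk.split 2348810 with hk1 | hk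
  · exact certAt_Eb hp ht hk1
  rcases hk.split 3690988 with hk1 | hk
  · exact certAt_Ec hp ht hk1
  rcases hk.split 5033165 with hk1 | hk
  · exact certAt_Ed hp ht hk1
  rcases hk.split 7381975 with hk1 | hk
  · exact certAt_Ee hp ht hk1
  rcases hk.split 9730785 with hk1 | hk
  · exact certAt_Ef hp ht hk1
  rcases hk.split 11744051 with hk1 | hk
  · exact certAt_Eg hp ht hk1
  exact certAt_Eh hp ht hk

/-- Certificates at every excess in `[67/5000, 4/5]` in every dimension from `p = 54` on. -/
theorem hasCert_wide {p : ℕ} (hp : 54 ≤ p) {k : ℝ} (h0 : 67 / 5000 ≤ k) (h1 : k ≤ 4 / 5) :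
    HasCert p (exp (k / ((p : ℝ) + 1)) * (2 * mass (p + 1) semi 1)) := by
  have hp' : (54 : ℝ) ≤ p := by exact_mod_cast hp
  have ht : In 0 301991 (tau p) := by
    refine ⟨by rw [rn]; simp only [Nat.cast_zero, zero_div]; exact (Large.tau_pos p).le, ?_⟩
    rw [tau, rn, div_le_div_iff₀ (by positivity) (by norm_num)]
    push_cast
    linarith
  have hk : In 209715 13421773 k := by
    constructor
    · rw [rn]; push_cast; linarith
    · rw [rn]; push_cast; linarith
  rcases ht.split 75498 with ht1 | ht
  · exact certAt_A hp ht1 hk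
  rcases ht.split 150996 with ht1 | ht
  · exact certAt_B hp ht1 hk
  rcases ht.split 201328 with ht1 | ht
  · exact certAt_C hp ht1 hk
  rcases ht.split 268435 with ht1 | ht
  · exact certAt_D hp ht1 hk
  exact certAt_E hp ht hk

end Vale.Agent.P237.All.Transport.Small.Wide
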