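import Vale.Agent.P237.All.Small.Wide.Cert
import Vale.Agent.P237.All.Small.Large.SoundFarB

/-!
P237, every dimension, excess `k ∈ [k₀, K]`: beyond the last segment of the slice next to `τ = 0`, the tail
form while `(k τ) ^ 5` is below `exp (-3X/4)` times a constant, absolute beyond.
-/

noncomputable section

open Real Set

namespace Vale.Agent.P237.All.Transport.Small.Wide

open Mid (Sg AF Pt XP epsP rn)
open Large (Node tau tau_facts tauOf tau_pos Co lamUp massQ cap_shift eps_eq eps_nonneg div_le_exp)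
open Middle (mills2 mills2_pos)

/-- Beyond `x₁ = 12` on a slice next to `τ = 0`; `fac` is the price of the absolute bound. -/
def farBOK (c : Cell) (kap0 kap1 fac : ℕ) : Bool :=
  Nat.ble c.base.K 16777216 && Nat.blt 0 fac &&
    Nat.ble (Nat.mul (Nat.mul 1000000 c.base.K) (Nat.mul c.base.K c.base.K))
      (Nat.mul (Nat.mul 89 (Nat.mul fac fac)) (16777216 * 16777216 * 16777216)) &&
    (Large.withEnv c.base 2048 2048 fun e =>
      Large.capZoneOK c.base e (144 * 16777216) kap0 167773 && Large.crudeZoneOK c.base e (144 * 16777216) fac) &&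
    Large.withEnv c.cK 2048 2048 fun e =>
      Large.capZoneOK c.cK e (144 * 16777216) kap1 167773 && Large.crudeZoneOK c.cK e (144 * 16777216) fac

/-- Where the tail form is used, `u ≤ 1/50`. -/
theorem wide_u {p : ℕ} {k X : ℝ} (hτ : tau p ≤ 1 / 4096) (hk0 : 1 / 128 ≤ k)
    (hz : k ^ 2 * tau p ^ 5 < exp (-(3 * X / 4))) : X * tau p ≤ 1 / 50 := by
  have h0 := tau_pos p
  have hk : 0 < k := by linarith
  have h := Real.log_lt_log (by positivity) hz
  rw [Real.log_exp, Real.log_mul (by positivity) (by positivity), Real.log_pow, Real.log_pow] at h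
  push_cast at h
  have hl := Real.log_le_log (by norm_num) hk0
  rw [show (1 : ℝ) / 128 = (2 ^ 7)⁻¹ by norm_num, Real.log_inv, Real.log_pow] at hl
  push_cast at hl
  have hlt : -(tau p * log (tau p)) ≤ 8318 / 4096000 := by
    have a := Real.log_le_sub_one_of_pos (show 0 < 1 / (4096 * tau p) by positivity)
    rw [one_div, Real.log_inv, Real.log_mul (by norm_num) h0.ne',
      show log (4096 : ℝ) = 12 * log 2 by
        rw [show (4096 : ℝ) = 2 ^ 12 by norm_num, Real.log_pow]; norm_num] at a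
    have b := mul_le_mul_of_nonneg_left a h0.le
    have e : tau p * ((4096 * tau p)⁻¹ - 1) = 1 / 4096 - tau p := by field_simp
    rw [e] at b
    have c := Real.log_two_lt_d9
    have c1 := Real.log_two_gt_d9
    nlinarith only [b, c, c1, h0, hτ]
  have c := Real.log_two_lt_d9
  have b1 := mul_le_mul_of_nonneg_left h.le h0.le
  have b2 := mul_le_mul_of_nonneg_left hl h0.le
  have b3 := mul_le_mul_of_nonneg_left c.le h0.le
  linarith

/-- Where the tail form is used, the cap from `y / 2` is `21/10`. -/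
theorem wide_cap {p : ℕ} {k y t r lam x : ℝ} (hpt : Pt p k y t r lam) (hp : 1 ≤ p) (hk : 0 < k)
    (hk1 : k ≤ 1) (hτ : tau p ≤ 1 / 4096) (hx : x ^ 2 = XP p y) (hx1 : 12 ≤ x)
    (hu : x ^ 2 * tau p ≤ 1 / 50) (hz : (k * tau p) ^ 5 ≤ 89 / 1000000 * exp (-(3 * x ^ 2 / 4))) :
    (r ^ p)⁻¹ ≤ 21 / 10 := by
  have h0 := tau_pos p
  have hX : 144 ≤ x ^ 2 := by nlinarith only [hx1]
  set X := x ^ 2 with hXd
  set u := X * tau p with hud
  have hu0 : 0 ≤ u := by positivity
  have hx0 : 0 < x := by linarith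
  have hε : epsP p = tau p / (1 - tau p) := (eps_eq rfl).symm
  have hε0 := eps_nonneg p
  have hε1 : epsP p ≤ 4096 / 4095 * tau p := by
    rw [hε, div_le_iff₀ (by linarith)]; nlinarith only [h0, hτ]
  -- the excess
  have hkτ : k * tau p ≤ 155 / 1000 * exp (-(3 * X / 20)) := by
    refine (pow_le_pow_iff_left₀ (by positivity) (by positivity) (show (5 : ℕ) ≠ 0 by norm_num)).1 ?_
    refine hz.trans ?_
    rw [mul_pow (155 / 1000 : ℝ), ← Real.exp_nat_mul,
      show ((5 : ℕ) : ℝ) * -(3 * X / 20) = -(3 * X / 4) by push_cast; ring]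
    exact mul_le_mul_of_nonneg_right (by norm_num) (exp_pos _).le
  set E := exp ((1 - tau p) * (((1 : ℝ) / 2 * x) ^ 2 / 2 *
    (1 + ((1 : ℝ) / 2 * x) ^ 2 * tau p / (2 * (1 - ((1 : ℝ) / 2 * x) ^ 2 * tau p))))) with hEd
  have e4 : ((1 : ℝ) / 2 * x) ^ 2 * tau p = u / 4 := by rw [hud, hXd]; ring
  have hE : E ≤ exp (X * (399 / 3184)) := by
    refine exp_le_exp.2 ?_
    rw [e4]
    have a : u / 4 / (2 * (1 - u / 4)) ≤ 1 / 398 := by
      rw [div_le_iff₀ (by linarith)]; linarith
    calc (1 - tau p) * (((1 : ℝ) / 2 * x) ^ 2 / 2 * (1 + u / 4 / (2 * (1 - u / 4))))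
        ≤ 1 * (((1 : ℝ) / 2 * x) ^ 2 / 2 * (1 + 1 / 398)) :=
          mul_le_mul (by linarith) (mul_le_mul_of_nonneg_left (by linarith) (by positivity))
            (mul_nonneg (by positivity) (add_nonneg zero_le_one (div_nonneg (by positivity) (by linarith))))
            zero_le_one
      _ = X * (399 / 3184) := by rw [hXd]; ring
  have hm : mills2 x ≤ x + 6 / 5 / x := by
    refine add_le_add le_rfl ?_
    rw [div_le_div_iff₀ (by positivity) hx0]
    nlinarith only [hx1]
  have hm0 := mills2_pos hx0.le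
  set sy := 1 + u / 2 + u ^ 2 / 2 with hsyd
  have hsy1 : 1 ≤ sy ^ 2 * (1 - u) := by
    rw [hsyd]; nlinarith only [hu0, hu, pow_nonneg hu0 2, pow_nonneg hu0 3, pow_nonneg hu0 4,
      mul_le_mul_of_nonneg_left hu (pow_nonneg hu0 2), mul_le_mul_of_nonneg_left hu (pow_nonneg hu0 3),
      mul_le_mul_of_nonneg_left hu (pow_nonneg hu0 4)]
  have hsy2 : sy ≤ 1011 / 1000 := by rw [hsyd]; nlinarith only [hu0, hu]
  have hu4 : ((1 : ℝ) / 2 * x) ^ 2 = X / 4 := by rw [hXd]; ring
  have hsy0 : 0 ≤ sy := by positivity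
  have hcap := cap_shift hpt hp hk.le (le_refl k) (by linarith) (θ := (1 : ℝ) / 2) (e := E) (sy := sy)
    (F := 2) (by norm_num) (by norm_num) hx hx0 le_rfl (by rw [← hx]; exact hsy1) hsy0
    (by
      rw [hu4]
      have hd : 0 < X / 4 * (1 - tau p) + 3 := by
        have := mul_nonneg (show (0 : ℝ) ≤ X / 4 by linarith) (show 0 ≤ 1 - tau p by linarith)
        linarith
      rw [← mul_div_assoc, div_le_iff₀ hd, div_mul_eq_mul_div, div_le_iff₀ (by positivity)]
      have a := mul_le_mul_of_nonneg_right hm (show (0 : ℝ) ≤ X / 4 + 2 by linarith)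
      refine a.trans (le_of_mul_le_mul_right ?_ hx0)
      have e : (x + 6 / 5 / x) * (X / 4 + 2) * x = (X + 6 / 5) * (X / 4 + 2) := by
        rw [hXd]; field_simp
      rw [e]
      nlinarith only [hX, hu, hXd, hud, mul_le_mul_of_nonneg_left hu (show (0 : ℝ) ≤ X by linarith)])
  refine hcap.trans (max_le (by norm_num) ?_)
  have hl : lamUp p k ≤ 1 + 1 / 1000000 := by
    have := mul_le_mul hk1 (pow_le_pow_left₀ hε0 hε1 2) (by positivity) (by norm_num)
    have := pow_le_pow_left₀ h0.le hτ 2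
    rw [lamUp]; linarith
  have hQ : massQ p ≤ 12535 / 10000 := by rw [massQ]; linarith
  have hQ0 : 0 ≤ massQ p := by rw [massQ]; positivity
  -- the part from the excess
  have hT : mills2 x * (epsP p * k * massQ p * E) ≤ 714 / 10000 * exp (-((X - 144) / 50)) := by
    have a1 : epsP p * k ≤ 4096 / 4095 * (155 / 1000 * exp (-(3 * X / 20))) :=
      (mul_le_mul_of_nonneg_right hε1 hk.le).trans (le_of_eq_of_le (by ring)
        (mul_le_mul_of_nonneg_left hkτ (by norm_num)))
    have a2 : mills2 x ≤ 121 / 10 * exp ((X - 144) / 288) := by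
      have b := div_le_exp (x := X) (show (0 : ℝ) < 144 by norm_num)
      have b2 : x / 12 ≤ exp ((X - 144) / 288) := by
        refine (pow_le_pow_iff_left₀ (by positivity) (exp_pos _).le two_ne_zero).1 ?_
        rw [← Real.exp_nat_mul]
        refine le_trans (le_of_eq (by rw [hXd]; ring)) (b.trans (le_of_eq ?_))
        congr 1; push_cast; ring
      have : 6 / 5 / x ≤ 1 / 120 * x := by rw [div_le_iff₀ hx0]; nlinarith only [hx1]
      linarith [exp_pos ((X - 144) / 288)]
    have a3 : exp (-(3 * X / 20)) * exp (X * (399 / 3184)) * exp ((X - 144) / 288) ≤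
        1 / 33 * exp (-((X - 144) / 50)) := by
      rw [← Real.exp_add, ← Real.exp_add]
      have e1 : (33 : ℝ) ≤ exp (71 / 20) := by
        have := Real.exp_one_gt_d9
        have h2 := Real.quadratic_le_exp_of_nonneg (show (0 : ℝ) ≤ 11 / 20 by norm_num)
        have h3 : exp (71 / 20 : ℝ) = exp 1 * exp 1 * exp 1 * exp (11 / 20) := by
          simp only [← Real.exp_add]; norm_num
        rw [h3]
        have h4 := pow_le_pow_left₀ (by norm_num) this.le 3
        nlinarith only [h4, h2]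
      calc exp (-(3 * X / 20) + X * (399 / 3184) + (X - 144) / 288)
          ≤ exp (-(71 / 20) + -((X - 144) / 50)) := exp_le_exp.2 (by linarith)
        _ ≤ _ := by
          rw [Real.exp_add, Real.exp_neg]
          exact mul_le_mul_of_nonneg_right (by rw [← one_div]; exact one_div_le_one_div_of_le (by norm_num) e1)
            (exp_pos _).le
    calc mills2 x * (epsP p * k * massQ p * E)
        ≤ 121 / 10 * exp ((X - 144) / 288) *
          (4096 / 4095 * (155 / 1000 * exp (-(3 * X / 20))) * (12535 / 10000) * exp (X * (399 / 3184))) :=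
          mul_le_mul a2 (mul_le_mul (mul_le_mul a1 hQ hQ0 (by positivity)) hE (exp_pos _).le (by positivity))
            (by positivity) (by positivity)
      _ = 121 / 10 * (4096 / 4095) * (155 / 1000) * (12535 / 10000) *
          (exp (-(3 * X / 20)) * exp (X * (399 / 3184)) * exp ((X - 144) / 288)) := by ring
      _ ≤ 121 / 10 * (4096 / 4095) * (155 / 1000) * (12535 / 10000) *
          (1 / 33 * exp (-((X - 144) / 50))) := mul_le_mul_of_nonneg_left a3 (by norm_num)
      _ ≤ _ := by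
          rw [← mul_assoc]; exact mul_le_mul_of_nonneg_right (by norm_num) (exp_pos _).le
  have hT0 : 0 ≤ mills2 x * (epsP p * k * massQ p * E) := by positivity
  have hw : 1 - ((1 : ℝ) / 2 * x) ^ 2 * tau p / 2 = 1 - u / 8 := by rw [e4]; ring
  rw [hw]
  have hw0 : 0 ≤ 1 - u / 8 := by linarith
  have hp1 : sy * (1 - u / 8) ≤ 1 + 3 * u / 8 + u ^ 2 / 2 := by
    rw [hsyd]; nlinarith only [hu0, pow_nonneg hu0 2, pow_nonneg hu0 3]
  refine (mul_le_mul_of_nonneg_right (mul_le_mul_of_nonneg_right hl hsy0)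
    (add_nonneg hT0 (mul_nonneg hw0 (by norm_num)))).trans ?_
  have he : exp (-((X - 144) / 50)) ≤ 1 := exp_le_one_iff.2 (by linarith)
  nlinarith only [hp1, hu, hu0, mul_le_mul hsy2 (hT.trans (mul_le_mul_of_nonneg_left he (by norm_num)))
    hT0 (by norm_num)]

/-- The slice next to `τ = 0` gives a certificate on the cell. -/
theorem hasCert_bottom {c : Cell} {tc hh kap0 kap1 fac p : ℕ} {n last : Node} {segs : List Seg} (hp : 29 ≤ p)
    (ht0 : rn (Nat.sub tc hh) ≤ tau p) (ht1 : tau p ≤ rn (Nat.add tc hh))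
    (hhi : Nat.ble (Nat.add tc hh) 4096 = true) (hc : cellOK c = true)
    (h : sliceTest c tc hh n segs last = true) (hx1 : Nat.ble 201326592 (endOf n segs).x = true)
    (hfar : farBOK c kap0 kap1 fac = true) {J : ℝ}
    (lower : exp (rn c.k0 / ((p : ℝ) + 1)) * (2 * mass (p + 1) semi 1) ≤ J)
    (upper : J ≤ exp (rn c.base.K / ((p : ℝ) + 1)) * (2 * mass (p + 1) semi 1)) : HasCert p J := by
  refine hasCert_beyond hp ht0 ht1 hc h (Nat.le_of_ble_eq_true hx1) ?_ lower upper
  have hτ4 : tau p ≤ 1 / 4096 := ht1.trans ((Mid.rn_le (Nat.le_of_ble_eq_true hhi)).trans (by norm_num [rn]))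
  simp only [sliceTest, Bool.and_eq_true] at h
  obtain ⟨⟨hsl, -⟩, -⟩ := h
  have hτ0 := tau_pos p
  set T := tau p * 8192 - 1 with hTd
  have hT : |T| ≤ 1 := abs_le.2 ⟨by linarith, by linarith⟩
  have hτT : tau p = tauOf 2048 2048 T := by rw [tauOf, hTd]; push_cast; ring
  have hh' : 0 < hh ∧ hh ≤ tc := by
    simp only [sliceOK, Large.sliceOK, Large.withEnv, Bool.and_eq_true] at hsl
    exact ⟨Nat.le_of_ble_eq_true hsl.1.1.1.1.1.1, Nat.le_of_ble_eq_true hsl.1.1.1.2.1⟩
  obtain ⟨T', hT', hτ'⟩ : ∃ T : ℝ, |T| ≤ 1 ∧ tauOf tc hh T = tau p := by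
    have hd : (0 : ℝ) < hh := Nat.cast_pos.2 hh'.1
    rw [rn, Nat.sub_eq, Nat.cast_sub hh'.2, div_le_iff₀ (by norm_num)] at ht0
    rw [rn, Nat.add_eq, Nat.cast_add, le_div_iff₀ (by norm_num)] at ht1
    refine ⟨(tau p * 16777216 - tc) / hh, ?_, ?_⟩
    · rw [abs_le]
      constructor
      · rw [le_div_iff₀ hd]; linarith
      · rw [div_le_one hd]; linarith
    · rw [tauOf, mul_div_cancel₀ _ hd.ne']; ring
  obtain ⟨-, -, -, hkc, hk00, hK, hok, hb, -, -⟩ := sliceOK_sound hT' hp hτ' hsl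
  simp only [farBOK, Bool.and_eq_true] at hfar
  obtain ⟨⟨⟨⟨-, hfac⟩, hK3⟩, hz0⟩, hz9⟩ := hfar
  have hfac0 : 0 < fac := Nat.le_of_ble_eq_true hfac
  intro k c2 lam y t r x hk0 hkK hpt hx hxx
  obtain ⟨hkl, -⟩ := cellOK_sound hc hp hk0
  have hk : 0 < k := hk00.trans_le hk0
  have hx1 : 12 ≤ x := le_trans (by norm_num [rn]) hxx
  have h128 : (1 : ℝ) / 128 ≤ k := by
    simp only [cellOK, Bool.and_eq_true] at hc
    exact le_trans (by norm_num [rn]) ((Mid.rn_le (Nat.le_of_ble_eq_true hc.1)).trans hk0)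
  obtain ⟨hs, -⟩ := kPos_facts hkc hk0 hkK
  have hf1 : (1 : ℝ) ≤ (fac : ℝ) := by exact_mod_cast hfac0
  rcases lt_or_ge ((fac : ℝ) ^ 2 * (k ^ 2 * tau p ^ 5)) (exp (-(3 * x ^ 2 / 4))) with hz | hz
  · have hz1 : k ^ 2 * tau p ^ 5 < exp (-(3 * x ^ 2 / 4)) :=
      lt_of_le_of_lt (le_mul_of_one_le_left (by positivity) (one_le_pow₀ hf1)) hz
    have hu := wide_u hτ4 h128 hz1
    have hz5 : (k * tau p) ^ 5 ≤ 89 / 1000000 * exp (-(3 * x ^ 2 / 4)) := by
      have a : (rn c.base.K) ^ 3 ≤ 89 / 1000000 * (fac : ℝ) ^ 2 := by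
        have h0 := Nat.cast_le (α := ℝ).2 (Nat.le_of_ble_eq_true hK3)
        simp only [Nat.mul_eq, Nat.cast_mul, Nat.cast_ofNat] at h0
        rw [rn, div_pow, div_le_iff₀ (by norm_num)]
        nlinarith only [h0]
      have b := mul_le_mul ((pow_le_pow_left₀ hk.le hkK 3).trans a) (le_refl (k ^ 2 * tau p ^ 5))
        (by positivity) (by positivity)
      have c1 := mul_le_mul_of_nonneg_left hz.le (show (0 : ℝ) ≤ 89 / 1000000 by norm_num)
      nlinarith only [b, c1]
    obtain ⟨f1, f2⟩ := Large.capZone_sound hT rfl hτ4 hτT hp hok hb hk hkK hK hpt hx hx1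
      (hu.trans (by norm_num [rn]))
      (fun _ => wide_cap hpt (by omega) hk (hkK.trans hK) hτ4 hx hx1 hu hz5) hz0 c2
    obtain ⟨g1, g2⟩ := Large.capZone_sound (c := c.cK) hT rfl hτ4 hτT hp hok hb hk hkK hK hpt hx hx1
      (hu.trans (by norm_num [rn]))
      (fun _ => wide_cap hpt (by omega) hk (hkK.trans hK) hτ4 hx hx1 hu hz5) hz9 c2
    exact ⟨fun h => (le_of_eq (total_mix ..)).trans (mix_le hs (f2 h) (g2 h)),
      fun h => (le_of_eq (total_mix ..)).trans (mix_le hs (f1 h) (g1 h))⟩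
  · obtain ⟨f1, f2⟩ := Large.crudeZone_sound hT rfl hτ4 hτT hp hok hb hk hkK hK hpt hx hx1 hfac0 hz hz0 c2
    obtain ⟨g1, g2⟩ := Large.crudeZone_sound (c := c.cK) hT rfl hτ4 hτT hp hok hb hk hkK hK hpt hx hx1
      hfac0 hz hz9 c2
    exact ⟨fun h => (le_of_eq (total_mix ..)).trans (mix_le hs (f2 h) (g2 h)),
      fun h => (le_of_eq (total_mix ..)).trans (mix_le hs (f1 h) (g1 h))⟩

end Vale.Agent.P237.All.Transport.Small.Wide
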