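import Vale.Agent.P237.All.Small.Wide.Point
import Vale.Agent.P237.All.Small.Large.Frame
import Vale.Agent.P237.All.Small.Large.SoundFar

/-!
P237, every dimension, excess `k ∈ [k₀, K]`: a certificate at every common integral of a cell on a slice,
from the tests of the slice and of what lies beyond its last segment.
-/

noncomputable section

open Real Set

namespace Vale.Agent.P237.All.Transport.Small.Wide

open Mid (Sg AF Pt XP rn)
open Large (Node Env cst one nn tau tau_facts tauOf chainP chainK piFun chainUp)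

theorem sliceTest_of {c : Cell} {tc hh : ℕ} {n last : Node} {segs : List Seg}
    (h0 : sliceOK c tc hh = true) (h1 : segsOK c tc hh n segs = true)
    (h2 : Large.budgetOK c.base tc hh n (segs.map Seg.n ++ [last]) = true) :
    sliceTest c tc hh n segs last = true := by
  rw [sliceTest, h0, h1, h2]
  rfl

/-- Whether `exp (-zk) / 5` is at most the smaller end of the cell and that end at least `1 / 128`. -/
def cellOK (c : Cell) : Bool :=
  Nat.ble 131072 c.k0 &&
    (Nat.beq c.base.zk 0 ||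
      Nat.ble (16777216 * 16777216) (Nat.mul (Nat.mul 5 c.k0) (Mid.expLo c.base.zk)))

theorem cellOK_sound {c : Cell} {p : ℕ} {k : ℝ} (h : cellOK c = true) (hp : 29 ≤ p) (hk : rn c.k0 ≤ k) :
    exp (-(5 / 4 * √((p : ℝ) + 1))) / 5 ≤ k ∧ (0 < c.base.zk → exp (-rn c.base.zk) / 5 ≤ k) := by
  simp only [cellOK, Bool.and_eq_true, Bool.or_eq_true] at h
  obtain ⟨h0, h1⟩ := h
  constructor
  · have h2 : (1 : ℝ) / 128 ≤ rn c.k0 := le_trans (by norm_num [rn]) (Mid.rn_le (Nat.le_of_ble_eq_true h0))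
    have h3 : (5 : ℝ) ≤ √((p : ℝ) + 1) := by
      rw [Real.le_sqrt (by norm_num) (by positivity)]
      have : (29 : ℝ) ≤ p := by exact_mod_cast hp
      linarith
    set z := 5 / 4 * √((p : ℝ) + 1) with hz
    have h4 := Real.quadratic_le_exp_of_nonneg (show 0 ≤ z by positivity)
    have h5 : exp (-z) * exp z = 1 := by rw [← Real.exp_add]; simp
    have h6 : (26 : ℝ) ≤ exp z := by nlinarith
    nlinarith [exp_pos (-z)]
  · intro hz
    rcases h1 with h1 | h1
    · have := Nat.eq_of_beq_eq_true h1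
      omega
    · have h2 : (16777216 : ℝ) * 16777216 ≤ 5 * c.k0 * (Mid.expLo c.base.zk : ℕ) := by
        exact_mod_cast Nat.le_of_ble_eq_true h1
      have h3 : (1 : ℝ) ≤ 5 * rn c.k0 * rn (Mid.expLo c.base.zk) := by
        rw [rn, rn, show (5 : ℝ) * (c.k0 / 16777216) * ((Mid.expLo c.base.zk : ℕ) / 16777216) =
            5 * c.k0 * (Mid.expLo c.base.zk : ℕ) / (16777216 * 16777216) by field_simp,
          one_le_div (by norm_num)]
        exact h2
      have h4 := h3.trans (mul_le_mul_of_nonneg_left (Mid.expLo_sound c.base.zk)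
        (mul_nonneg (by norm_num) (Mid.rn_nonneg _)))
      have h5 : exp (-rn c.base.zk) * exp (rn c.base.zk) = 1 := by rw [← Real.exp_add]; simp
      nlinarith [exp_pos (-rn c.base.zk)]

/-- The bound that the cell has to give beyond the last segment. -/
def BeyondLe (c : Cell) (p x1 : ℕ) : Prop :=
  ∀ k c2 lam y t r x, rn c.k0 ≤ k → k ≤ rn c.base.K → Pt p k y t r lam → x ^ 2 = XP p y → rn x1 ≤ x →
    PointLe c p (tau p) k c2 lam y t r (rn c.base.dl / (1 + x ^ 2))

/-- A slice with a bound beyond its last segment gives a certificate on the cell. -/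
theorem hasCert_beyond {c : Cell} {tc hh x1 p : ℕ} {n last : Node} {segs : List Seg} (hp : 29 ≤ p)
    (ht0 : rn (Nat.sub tc hh) ≤ tau p) (ht1 : tau p ≤ rn (Nat.add tc hh)) (hc : cellOK c = true)
    (h : sliceTest c tc hh n segs last = true) (hx1 : x1 ≤ (endOf n segs).x)
    (hfar : BeyondLe c p x1) {J : ℝ}
    (lower : exp (rn c.k0 / ((p : ℝ) + 1)) * (2 * mass (p + 1) semi 1) ≤ J)
    (upper : J ≤ exp (rn c.base.K / ((p : ℝ) + 1)) * (2 * mass (p + 1) semi 1)) : HasCert p J := by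
  simp only [sliceTest, Bool.and_eq_true] at h
  obtain ⟨⟨hsl, hsg⟩, hbu⟩ := h
  have hle : hh ≤ tc := by
    have := hbu
    simp only [Large.budgetOK, Large.withEnv, Bool.and_eq_true] at this
    exact Nat.le_of_ble_eq_true this.1
  have hh0 : 0 < hh := by
    simp only [sliceOK, Large.sliceOK, Bool.and_eq_true] at hsl
    exact Nat.le_of_ble_eq_true hsl.1.1.1.1.1.1
  obtain ⟨T, hT, hτ⟩ : ∃ T : ℝ, |T| ≤ 1 ∧ tauOf tc hh T = tau p := by
    have hd : (0 : ℝ) < hh := Nat.cast_pos.2 hh0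
    rw [rn, Nat.sub_eq, Nat.cast_sub hle, div_le_iff₀ (by norm_num)] at ht0
    rw [rn, Nat.add_eq, Nat.cast_add, le_div_iff₀ (by norm_num)] at ht1
    refine ⟨(tau p * 16777216 - tc) / hh, ?_, ?_⟩
    · rw [abs_le]
      constructor
      · rw [le_div_iff₀ hd]; linarith
      · rw [div_le_one hd]; linarith
    · rw [tauOf, mul_div_cancel₀ _ hd.ne']; ring
  obtain ⟨-, -, hhi, hkc, hk00, hK, hok, hb, hG, hell⟩ := sliceOK_sound hT hp hτ hsl
  have hu : (1 + T) / 2 ∈ Icc (0 : ℝ) 1 := Large.unit_mem hT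
  obtain ⟨e, he, hbd⟩ := Large.withEnv_sound (S := -1) (T := T) (by norm_num) hT
    (by rw [← Large.budgetOK]; exact hbu)
  simp only [AF.force_eq, Mid.forceN_eq, Bool.and_eq_true] at hbd
  obtain ⟨⟨⟨⟨⟨⟨hx0, hup⟩, -⟩, -⟩, -⟩, -⟩, -⟩ := hbd
  have hn0 : n.x = 0 := Nat.eq_of_beq_eq_true hx0
  -- the potential belongs to the excess of `J`
  have hM : 0 < 2 * mass (p + 1) semi 1 := by linarith [mass_one_pos isProfile_semi (p + 1)]
  have hQ : 0 < J / (2 * mass (p + 1) semi 1) := div_pos ((mul_pos (exp_pos _) hM).trans_le lower) hM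
  set k := ((p : ℝ) + 1) * log (J / (2 * mass (p + 1) semi 1)) with hkd
  have hkJ : exp (k / ((p : ℝ) + 1)) * (2 * mass (p + 1) semi 1) = J := by
    rw [hkd, mul_div_cancel_left₀ _ (by positivity), Real.exp_log hQ, div_mul_cancel₀ _ hM.ne']
  have hk : k ∈ Icc (rn c.k0) (rn c.base.K) := by
    rw [← hkJ] at lower upper
    constructor
    · exact (div_le_div_iff_of_pos_right (by positivity)).1 (exp_le_exp.1 (le_of_mul_le_mul_right lower hM))
    · exact (div_le_div_iff_of_pos_right (by positivity)).1 (exp_le_exp.1 (le_of_mul_le_mul_right upper hM))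
  refine Large.hasCert_frame hok hell (R := c.mixR k (tau p)) (R' := c.mixD k (tau p))
    (fun X => ((c.base.R.hasDerivAt (tau p) X).const_mul _).add ((c.R1.hasDerivAt (tau p) X).const_mul _))
    (fun X => c.base.Vp.hasDerivAt (tau p) X) (fun X => c.base.Vm.hasDerivAt (tau p) X)
    (ka := k) (kb := k) (hk00.trans_le hk.1) ?_ hkJ.le hkJ.ge
  intro k' hk'
  obtain rfl : k' = k := le_antisymm hk'.2 hk'.1
  obtain ⟨hkl, hzc⟩ := cellOK_sound hc hp hk.1
  obtain ⟨hs, -⟩ := kPos_facts hkc hk.1 hk.2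
  refine ⟨piFun p (rn c.base.dl) ((1 + T) / 2) (kPos c k) n (segs.map Seg.n ++ [last]),
    Large.piFun_continuous hup, Large.budgetOK_sound hT hp hle hτ hhi hs hbu he hG, ?_⟩
  intro c2 lam y t r hpt hfwd
  have hy := hpt.hy
  set x := √((p : ℝ) + 2) * y with hxd
  have hx : x ^ 2 = XP p y := by rw [hxd, mul_pow, Real.sq_sqrt (by positivity), XP]
  have hxpos : 0 < x := mul_pos (Real.sqrt_pos.2 (by positivity)) hy.1
  have hF : piFun p (rn c.base.dl) ((1 + T) / 2) (kPos c k) n (segs.map Seg.n ++ [last]) y =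
      semi y ^ (p + 1) * chainK ((1 + T) / 2) (kPos c k) n (segs.map Seg.n ++ [last]) x +
        rn c.base.dl / (1 + x ^ 2) := by
    rw [piFun, ← hxd, hx, XP]
  rw [hF]
  rcases le_or_gt x (rn (endOf n segs).x) with hx' | hx'
  · exact segs_sound hT hh0 hle rfl hτ hp hok hb (hk00.trans_le hk.1) hk.1 hk.2 hK hkc hkl hzc hpt hfwd hx
      c2 hsg (by simpa [hn0, rn] using hxpos) hx'
  · obtain ⟨f1, f2⟩ := hfar k c2 lam y t r x hk.1 hk.2 hpt hx ((Mid.rn_le hx1).trans hx'.le)
    have hxn : rn n.x ≤ x := by simpa [hn0, rn] using hxpos.le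
    have hP : 0 ≤ k * tau p ^ 3 * (semi y ^ (p + 1) *
        chainK ((1 + T) / 2) (kPos c k) n (segs.map Seg.n ++ [last]) x) :=
      mul_nonneg (mul_nonneg (hk00.trans_le hk.1).le (pow_nonneg (Large.tau_pos p).le 3))
        (mul_nonneg (pow_nonneg (show (0 : ℝ) ≤ semi y from Real.sqrt_nonneg _) _)
          (add_nonneg (mul_nonneg (sub_nonneg.2 hs.2) (Large.chainP_nonneg hu hup x hxn))
            (mul_nonneg hs.1 (Large.chainP_nonneg hu hup x hxn))))
    constructor
    · intro hyt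
      have := f1 hyt
      linarith
    · intro hty
      have := f2 hty
      linarith

/-- A slice away from `τ = 0` gives a certificate on the cell. -/
theorem hasCert_slice {c : Cell} {tc hh x1 zk0 zk1 p : ℕ} {n last : Node} {segs : List Seg} (hp : 29 ≤ p)
    (ht0 : rn (Nat.sub tc hh) ≤ tau p) (ht1 : tau p ≤ rn (Nat.add tc hh)) (hc : cellOK c = true)
    (h : sliceTest c tc hh n segs last = true) (hx1 : Nat.ble x1 (endOf n segs).x = true)
    (hfar : farOK c tc hh x1 zk0 zk1 = true) {J : ℝ}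
    (lower : exp (rn c.k0 / ((p : ℝ) + 1)) * (2 * mass (p + 1) semi 1) ≤ J)
    (upper : J ≤ exp (rn c.base.K / ((p : ℝ) + 1)) * (2 * mass (p + 1) semi 1)) : HasCert p J := by
  refine hasCert_beyond hp ht0 ht1 hc h (Nat.le_of_ble_eq_true hx1) ?_ lower upper
  simp only [sliceTest, Bool.and_eq_true] at h
  obtain ⟨⟨hsl, -⟩, -⟩ := h
  have hh' : 0 < hh ∧ hh ≤ tc := by
    simp only [sliceOK, Large.sliceOK, Large.withEnv, Bool.and_eq_true] at hsl
    exact ⟨Nat.le_of_ble_eq_true hsl.1.1.1.1.1.1, Nat.le_of_ble_eq_true hsl.1.1.1.2.1⟩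
  obtain ⟨T, hT, hτ⟩ : ∃ T : ℝ, |T| ≤ 1 ∧ tauOf tc hh T = tau p := by
    have hd : (0 : ℝ) < hh := Nat.cast_pos.2 hh'.1
    rw [rn, Nat.sub_eq, Nat.cast_sub hh'.2, div_le_iff₀ (by norm_num)] at ht0
    rw [rn, Nat.add_eq, Nat.cast_add, le_div_iff₀ (by norm_num)] at ht1
    refine ⟨(tau p * 16777216 - tc) / hh, ?_, ?_⟩
    · rw [abs_le]
      constructor
      · rw [le_div_iff₀ hd]; linarith
      · rw [div_le_one hd]; linarith
    · rw [tauOf, mul_div_cancel₀ _ hd.ne']; ring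
  obtain ⟨-, -, -, hkc, hk00, hK, hok, hb, -, -⟩ := sliceOK_sound hT hp hτ hsl
  intro k c2 lam y t r x hk0 hkK hpt hx hxx
  obtain ⟨hkl, hzc⟩ := cellOK_sound hc hp hk0
  rw [farOK, Bool.and_eq_true] at hfar
  obtain ⟨f1, f2⟩ := Large.farOK_sound hT rfl hτ.symm hh'.2 hp hok hb (hk00.trans_le hk0) hkK hK hkl hzc
    hpt hx hxx hfar.1 c2
  obtain ⟨g1, g2⟩ := Large.farOK_sound (c := c.cK) hT rfl hτ.symm hh'.2 hp hok hb (hk00.trans_le hk0) hkK hK
    hkl hzc hpt hx hxx hfar.2 c2
  obtain ⟨hs, -⟩ := kPos_facts hkc hk0 hkK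
  exact ⟨fun h => (le_of_eq (total_mix ..)).trans (mix_le hs (f2 h) (g2 h)),
    fun h => (le_of_eq (total_mix ..)).trans (mix_le hs (f1 h) (g1 h))⟩

end Vale.Agent.P237.All.Transport.Small.Wide
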