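import Vale.Agent.P237.All.Small.Large.Check
import Vale.Agent.P237.All.Small.Large.FarCheck

/-!
P237, every dimension, excess `k ∈ [k₀, K]`: the test of a slice, as in `Small/Large/Check` with the
bracket taken at the two ends `k₀`, `K` of the cell, a multiplier affine in both parameters that may
replace the sign of `R`, and four ways to bound the quadratic in `ψ`.  The forms of a box, the caps, the
band, the tail, the crude box and the integral are those of `Small/Large`.
-/

noncomputable section

namespace Vale.Agent.P237.All.Transport.Small.Wide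

open Mid (Sg AF Spl)
open Large (cst one nn np ps withInv Lin Env Vals CapK HbK withEnv withVals withCap withHb withRho bandOK
  kapOK withMu crudeOK below Node envOK chordOK vertexOK budgetOK)

/-- The data of a cell: those of `Small/Large`, whose `K` is the greater end and whose `R` belongs to the
smaller one, the smaller end, `R` at the greater one.  Between them `R` is affine in `k`. -/
structure Cell where
  base : Large.Cell
  k0 : ℕ
  R1 : Spl

/-- The cell of `Small/Large` with `R` at the greater end. -/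
def Cell.cK (c : Cell) : Large.Cell := { c.base with R := c.R1 }

/-- Passes on the forms of a box with `R` at the greater end. -/
def withTop (c : Cell) (e : Env) (v : Vals) (xa xb : ℕ) (k : Vals → Bool) : Bool :=
  let X0 := Nat.div (Nat.mul xa xa) 16777216
  let X1 := Mid.cdiv (Nat.mul xb xb) 16777216
  Mid.knClear c.R1.kn X0 X1 && Mid.knClear c.base.R.kn X0 X1 &&
  Large.withSpl c.base.R e.t v.X X0 fun R0 Rd0 =>
  Large.withSpl c.R1 e.t v.X X0 fun R Rd =>
  ((v.L.add ((Rd.sub Rd0).scale 2 1)).add (((one.sub e.t).mul (R0.sub R)).mul v.iS)).force fun L =>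
  k { v with R := R, L := L }

/-- How a quadratic in `ψ` between `0` and `P` is bounded. -/
inductive EndK
  | chord
  | vertex
  | outer
  | inner

/-- A form with the sign turned. -/
def turn (neg : Bool) (f : AF) : AF := cond neg f.neg' f

/-- The test of a quadratic at one end of `k`; `neg` says that `P` is not positive. -/
def endTest (n0 n1 : Node) (whole kk neg : Bool) (m : EndK) (a b1 b2 P : AF) : Bool :=
  match m with
  | .chord =>
    (((P.mul P).mul (cst b2.low.negPart)).scale 1 4).force fun bm =>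
    below n0 n1 whole kk a bm && below n0 n1 whole kk ((a.add (b1.mul P)).add (b2.mul (P.mul P))) bm
  | .vertex => withInv (b2.neg'.scale 4 1) fun i => below n0 n1 whole kk (a.add ((b1.mul b1).mul i)) (cst 0)
  | .outer =>
    (b1.add (b2.mul P)).force fun g =>
    nn (turn neg g) && nn (turn neg (g.add (b2.mul P))) &&
      below n0 n1 whole kk ((a.add (b1.mul P)).add (b2.mul (P.mul P))) (cst 0)
  | .inner =>
    np (turn neg b1) && np (turn neg (b1.add (b2.mul P))) && below n0 n1 whole kk a (cst 0)

/-- What a side passes on: `M` at both ends of `k`, `1 / κ`, `a`, `base`. -/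
structure Cor where
  M0 : AF
  MK : AF
  ik : AF
  al : AF
  base : AF

/-- The bracket at the end `K` of `k`, as a quadratic in `ψ`. -/
def withEndAt (e : Env) (v : Vals) (r : Cor) (K : ℕ) (M C nu : AF) (k : AF → AF → AF → Bool) : Bool :=
  (cst K).force fun K' =>
  (K'.mul r.ik).force fun Ki =>
  ((M.mul e.eL).add ((Ki.mul (nu.mul nu)).scale 1 4)).force fun a =>
  (((v.X.mul (v.L.add (r.al.mul M)))).add ((Ki.mul (nu.mul C)).scale 1 2)).force fun b1 =>
  ((K'.mul r.base).add ((Ki.mul (C.mul C)).scale 1 4)).force fun b2 =>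
  k a b1 b2

/-- The tests at both ends of `k`. -/
def endsOK (c : Cell) (e : Env) (v w : Vals) (r : Cor) (n0 n1 : Node) (whole neg : Bool) (m0 m1 : EndK)
    (C nu P : AF) : Bool :=
  withEndAt e v r c.k0 r.M0 C nu (fun a b1 b2 => endTest n0 n1 whole false neg m0 a b1 b2 P) &&
    withEndAt e w r c.base.K r.MK C nu (fun a b1 b2 => endTest n0 n1 whole true neg m1 a b1 b2 P)

/-- The bound on what is added to `R` by a multiplier. -/
def nuUp (nu : Lin) : ℕ :=
  Nat.sub (Nat.add (Nat.add nu.s.abs' nu.t.abs') nu.c.negPart) nu.c.posPart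

/-- The left side `t ≤ y`. -/
def withMinus (c : Cell) (e : Env) (v w : Vals) (kapL nuL : Lin) (k : Cor → AF → Bool) : Bool :=
  (one.add e.eb).force fun W =>
  withInv W fun iW =>
  withRho W fun rho =>
  (e.Kt2.mul (v.S.mul e.i1)).force fun Zl =>
  (v.kp0.sub (e.gcb.mul Zl)).force fun kp =>
  nuL.af.force fun nu =>
  ((cst c.base.K).mul (cst (nuUp nuL))).force fun Kn =>
  ((v.R.add (cst (Large.posHi (w.R.sub v.R)))).add Kn).force fun Mb =>
  (v.R.sub ((cst c.k0).mul nu)).force fun M0 =>
  (w.R.sub ((cst c.base.K).mul nu)).force fun MK =>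
  (e.t.mul Mb).force fun tM =>
  kapL.af.force fun kap =>
  withInv kap fun ik =>
  (one.sub ((W.sub one).mul ((one.sub e.t).mul e.i2))).force fun qf =>
  (v.Xt.mul v.iS).force fun u =>
  ((one.sub (e.t.scale 2 1)).mul ((u.scale 1 2).add (u.mul u))).force fun be =>
  (((be.mul Mb).add v.Qm).sub ((e.bgt.mul (cst qf.low.posPart)).mul v.X)).force fun base =>
  nn kp && nn M0 && nn MK &&
    kapOK e kap kp v.kw0 iW rho tM tM (cst 0) &&
    kapOK e kap kp (v.kw0.sub (e.cth.mul Zl)) iW rho tM tM (cst 0) &&
    k ⟨M0, MK, ik, v.a0, base⟩ nu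

/-- The right side, with the band `ψ ≤ psi`. -/
def withPlus (c : Cell) (e : Env) (v w : Vals) (W psi : AF) (kapL nuL : Lin) (k : Cor → AF → Bool) : Bool :=
  withInv W fun iW =>
  withRho W fun rho =>
  (e.Kt2.mul (v.X.mul psi)).force fun zh =>
  nuL.af.force fun nu =>
  ((cst c.base.K).mul (cst (nuUp nuL))).force fun Kn =>
  ((v.R.add (cst (Large.posHi (w.R.sub v.R)))).add Kn).force fun Mb =>
  (v.R.sub ((cst c.k0).mul nu)).force fun M0 =>
  (w.R.sub ((cst c.base.K).mul nu)).force fun MK =>
  (e.t.mul Mb).force fun tM =>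
  kapL.af.force fun kap =>
  withInv kap fun ik =>
  (one.sub ((W.sub one).mul ((one.sub e.t).mul e.i2))).force fun qf =>
  ((e.t.mul (W.sub one)).scale 2 1).force fun l2 =>
  (((one.sub (e.t.scale 2 1)).add l2).mul ((v.Xt.mul v.iS).scale 1 2)).force fun be =>
  (v.a0.add (l2.mul v.iS)).force fun al =>
  (((be.mul Mb).add v.Qp).sub ((e.bgt.mul (cst qf.low.posPart)).mul v.X)).force fun base =>
  nn v.kp0 && nn M0 && nn MK &&
    kapOK e kap v.kp0 v.kw0 iW rho tM (cst 0) (cst 0) &&
    kapOK e kap v.kp0 (v.kw0.add (e.cth.mul zh)) iW rho tM (cst 0) (cst 0) &&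
    k ⟨M0, MK, ik, al, base⟩ nu

/-- The data of the left side. -/
structure Minus where
  first : Bool
  m0 : EndK
  m1 : EndK
  kap : Lin
  nu : Lin

/-- The test of the left side. -/
def minusOK (c : Cell) (e : Env) (v w : Vals) (xa : ℕ) (n0 n1 : Node) (whole : Bool) (d : Minus) : Bool :=
  withMinus c e v w d.kap d.nu fun r nu =>
  cond d.first
    (endsOK c e v w r n0 n1 whole true .vertex .vertex v.Cm nu (cst 0))
    ((v.S.mul e.i1).force fun Si =>
      (cst xa).force fun x0 =>
      withInv (((x0.mul x0).add (x0.mul (one.scale 313 100))).add (one.scale 201 50)) fun i =>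
      ((x0.mul (x0.add (one.scale 313 100))).mul i).force fun f =>
      withInv (v.X.add (v.S.mul f)) fun iden =>
      ((Si.mul iden).neg').force fun P =>
      endsOK c e v w r n0 n1 whole true d.m0 d.m1 v.Cm nu P)

/-- The data of the right side. -/
inductive Plus
  | band (cap : CapK) (hb : HbK) (psi kap nu : Lin) (m0 m1 : EndK)
  | tail (cap : CapK) (mu0 z0 : ℕ) (kap0 cl0 : Lin) (mu1 z1 : ℕ) (kap1 cl1 : Lin)

/-- `Large.tailOK` at one end of `k`. -/
def tailEnd (e : Env) (v : Vals) (n0 n1 : Node) (whole kk : Bool) (W mX mW : AF) (mu z : ℕ)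
    (kapL clL : Lin) : Bool :=
  withInv W fun iW =>
  withRho W fun rho =>
  (Nat.ble 4194304 z || np (v.Xt.sub ((cst z).mul (cst z))) ||
    np (v.S.sub (cst (Nat.mul 2 z)))) &&
  (cst mu).force fun mu' =>
  (v.R.add mu').force fun M =>
  (e.t.mul M).force fun tM =>
  (e.t.mul mu').force fun tmu =>
  withMu mu W tmu fun add =>
  kapL.af.force fun kap =>
  withInv kap fun ik =>
  (one.sub ((W.sub one).mul ((one.sub e.t).mul e.i2))).force fun qf =>
  ((e.t.mul (W.sub one)).scale 2 1).force fun l2 =>
  (((one.sub (e.t.scale 2 1)).add l2).mul ((v.Xt.mul v.iS).scale 1 2)).force fun be =>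
  (v.a0.add (l2.mul v.iS)).force fun al =>
  (((be.mul M).add v.Qp).sub ((e.bgt.mul (cst qf.low.posPart)).mul v.X)).force fun base =>
  clL.af.force fun cl =>
  (v.Cp.sub cl).force fun dC =>
  nn cl && nn v.kp0 && nn v.R &&
    kapOK e kap v.kp0 v.kw0 iW rho tM (cst 0) add &&
    kapOK e kap v.kp0 (v.kw0.add (e.cth.mul (cst z))) iW rho tM (cst 0) add &&
    (v.L.add (al.mul M)).force fun a1 =>
    ((clL.isZero && np a1) || np ((mX.mul a1).add (cl.mul mW))) &&
    np (base.add (((dC.mul dC).mul ik).scale 1 4)) &&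
    below n0 n1 whole kk (M.mul e.eL) (cst 0)

/-- The test of the right side. -/
def plusOK (c : Cell) (e : Env) (v w : Vals) (n0 n1 : Node) (whole : Bool) : Plus → Bool
  | .band cap hb psiL kap nuL m0 m1 =>
    psiL.af.force fun psi =>
    withHb e v hb fun h => bandOK c.base e v psi h &&
    withCap e v cap fun W _ _ =>
    withPlus c e v w W psi kap nuL fun r nu =>
    endsOK c e v w r n0 n1 whole false m0 m1 v.Cp nu psi
  | .tail cap mu0 z0 kap0 cl0 mu1 z1 kap1 cl1 =>
    withCap e v cap fun W mX mW =>
      tailEnd e v n0 n1 whole false W mX mW mu0 z0 kap0 cl0 &&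
        tailEnd e w n0 n1 whole true W mX mW mu1 z1 kap1 cl1

/-- What is tested on a part of a slice over a segment. -/
inductive Body
  | full (mi : Minus) (pl : Plus)
  | crude (cap : CapK) (zm iy zk : ℕ)

/-- A part `τ = tc + hh T` of a slice. -/
structure Part where
  tc : ℕ
  hh : ℕ
  body : Body

/-- A segment: its right node and its parts. -/
structure Seg where
  n : Node
  parts : List Part

/-- The test of the content of a part. -/
def bodyOK (c : Cell) (tc hh : ℕ) (e : Env) (v w : Vals) (n0 n1 : Node) (whole : Bool) : Body → Bool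
  | .full mi pl => minusOK c e v w n0.x n0 n1 whole mi && plusOK c e v w n0 n1 whole pl
  | .crude cap zm iy zk =>
    crudeOK c.base e v cap (Nat.sub tc hh) zm iy zk && crudeOK c.cK e w cap (Nat.sub tc hh) zm iy zk

/-- The test of a part. -/
def partOK (c : Cell) (tc hh : ℕ) (n0 n1 : Node) (q : Part) : Bool :=
  withEnv c.base q.tc q.hh fun e => withVals c.base e n0.x n1.x fun v => withTop c e v n0.x n1.x fun w =>
    bodyOK c q.tc q.hh e v w n0 n1 (Nat.beq q.tc tc && Nat.beq q.hh hh) q.body

/-- The parts cover the slice from `lo` to `hi`. -/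
def partsOK (c : Cell) (tc hh : ℕ) (n0 n1 : Node) : List Part → ℕ → Bool
  | [], lo => Nat.ble (Nat.add tc hh) lo
  | q :: l, lo =>
    Nat.ble (Nat.sub q.tc q.hh) lo && partOK c tc hh n0 n1 q && partsOK c tc hh n0 n1 l (Nat.add q.tc q.hh)

/-- The segments from a node on. -/
def segsOK (c : Cell) (tc hh : ℕ) : Node → List Seg → Bool
  | _, [] => true
  | n0, s :: l =>
    Nat.blt n0.x s.n.x && partsOK c tc hh n0 s.n s.parts (Nat.sub tc hh) && segsOK c tc hh s.n l

/-- Beyond the last segment on a slice away from `τ = 0`, at both ends. -/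
def farOK (c : Cell) (tc hh x1 zk0 zk1 : ℕ) : Bool :=
  Large.farOK c.base tc hh x1 zk0 && Large.farOK c.cK tc hh x1 zk1

/-- The constants of a slice: those of `Small/Large`, a cell that is not empty, and a weight on the
ellipsoid that is not negative. -/
def sliceOK (c : Cell) (tc hh : ℕ) : Bool :=
  Large.sliceOK c.base tc hh && Nat.blt 0 c.k0 && Nat.blt c.k0 c.base.K &&
    withEnv c.base tc hh fun e => nn (one.add ((Large.gaf c.base.e1 e.t).mul e.Eh))

/-- A slice: constants, segments, integral. -/
def sliceTest (c : Cell) (tc hh : ℕ) (n : Node) (segs : List Seg) (last : Node) : Bool :=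
  sliceOK c tc hh && segsOK c tc hh n segs &&
    budgetOK c.base tc hh n (segs.map Seg.n ++ [last])

end Vale.Agent.P237.All.Transport.Small.Wide
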