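import Vale.Agent.P237.All.Small.Wide.Check
import Vale.Agent.P237.All.Small.Large.SoundPlus
import Vale.Agent.P237.All.Small.Large.SoundCrude

/-!
P237, every dimension, excess `k ∈ [k₀, K]`: what both sides of a box share: the multiplier, the
quadratic at the two ends of `k`, its four bounds.
-/

noncomputable section

open Real Set

namespace Vale.Agent.P237.All.Transport.Small.Wide

open Mid (Sg AF rn)
open Large

variable {S T : ℝ}

/-- The value of data. -/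
def linVal (l : Large.Lin) (S T : ℝ) : ℝ := (l.c.v + l.s.v * S + l.t.v * T) / Mid.U

theorem has_lin' (l : Large.Lin) : l.af.Has S T (linVal l S T) := Large.has_lin l

theorem mult_bound {nu : Large.Lin} {R0 R1 d k0 K k s : ℝ} (hS : |S| ≤ 1) (hT : |T| ≤ 1) (hk : 0 ≤ k)
    (hs : s ∈ Icc (0 : ℝ) 1) (hks : k = (1 - s) * k0 + s * K) (hkK : k ≤ K)
    (h0 : 0 ≤ R0 - k0 * linVal nu S T) (h1 : 0 ≤ R1 - K * linVal nu S T) (hd0 : 0 ≤ d) (hd : R1 - R0 ≤ d) :
    0 ≤ ((1 - s) * R0 + s * R1) - k * linVal nu S T ∧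
      ((1 - s) * R0 + s * R1) - k * linVal nu S T ≤ R0 + d + K * rn (nuUp nu) := by
  set ν := linVal nu S T with hν
  have hb : -ν ≤ rn (nuUp nu) := by
    rw [hν, linVal, rn, cast_U, ← neg_div]
    refine div_le_div_of_nonneg_right (le_trans ?_ (Mid.cast_sub_ge _ _)) (by norm_num)
    have a := abs_le.1 ((AF.abs_mul_le (Sg.abs_le_abs' nu.s) hS).trans (le_of_eq (mul_one _)))
    have b := abs_le.1 ((AF.abs_mul_le (Sg.abs_le_abs' nu.t) hT).trans (le_of_eq (mul_one _)))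
    rw [Sg.v_split nu.c, Nat.add_eq, Nat.add_eq, Nat.cast_add, Nat.cast_add, Sg.negPart_def, Sg.posPart_def]
    linarith
  refine ⟨?_, ?_⟩
  · have := mul_nonneg (sub_nonneg.2 hs.2) h0
    have := mul_nonneg hs.1 h1
    rw [hks]
    linarith
  · have := mul_le_mul_of_nonneg_left hb hk
    have := mul_le_mul_of_nonneg_right hkK (Mid.rn_nonneg (nuUp nu))
    have := mul_le_mul_of_nonneg_left hd hs.1
    have := mul_le_mul_of_nonneg_right hs.2 hd0
    linarith

/-- `L` is affine in the potential. -/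
theorem L_mix (C : Co) (τ X a a' b b' s : ℝ) :
    C.L τ X ((1 - s) * a + s * b) ((1 - s) * a' + s * b') = (1 - s) * C.L τ X a a' + s * C.L τ X b b' := by
  simp only [Co.L]; ring

/-- `total` is affine in the potential. -/
theorem total_mix (p : ℕ) (C : Co) (R R' S₁ S₁' v v' : ℝ → ℝ) (c2 lam y t r s : ℝ) :
    total p C (fun X => (1 - s) * R X + s * S₁ X) (fun X => (1 - s) * R' X + s * S₁' X) v v' c2 lam y t r =
      (1 - s) * total p C R R' v v' c2 lam y t r + s * total p C S₁ S₁' v v' c2 lam y t r := by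
  simp only [total, potFY, potFT, Co.A, Co.dA]; ring

/-- At most the value at `0`. -/
theorem quad_inner {a0 b1 b2 P z Z : ℝ} (h : Btw P z) (h1 : b1 * P ≤ 0) (h2 : (b1 + b2 * P) * P ≤ 0)
    (h0 : a0 ≤ Z) : qv a0 b1 b2 z ≤ Z := by
  obtain ⟨s, ⟨hs0, hs1⟩, rfl⟩ := h
  have e : qv a0 b1 b2 (s * P) = a0 + s * ((1 - s) * (b1 * P) + s * ((b1 + b2 * P) * P)) := by
    unfold qv; ring
  have := mul_nonpos_of_nonneg_of_nonpos hs0 (add_nonpos
    (mul_nonpos_of_nonneg_of_nonpos (sub_nonneg.2 hs1) h1) (mul_nonpos_of_nonneg_of_nonpos hs0 h2))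
  linarith

/-- The sign of `P`. -/
def SignOf (neg : Bool) (P : ℝ) : Prop := cond neg (P ≤ 0) (0 ≤ P)

theorem turn_has {neg : Bool} {f : AF} {u : ℝ} (h : f.Has S T u) :
    (turn neg f).Has S T (cond neg (-u) u) := by
  cases neg
  · exact h
  · exact h.neg

theorem sign_nonneg {neg : Bool} {u P : ℝ} (hP : SignOf neg P) (h : 0 ≤ cond neg (-u) u) : 0 ≤ u * P := by
  cases neg
  · exact mul_nonneg h hP
  · exact mul_nonneg_of_nonpos_of_nonpos (neg_nonneg.1 h) hP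

theorem sign_nonpos {neg : Bool} {u P : ℝ} (hP : SignOf neg P) (h : cond neg (-u) u ≤ 0) : u * P ≤ 0 := by
  cases neg
  · exact mul_nonpos_of_nonpos_of_nonneg h hP
  · exact mul_nonpos_of_nonneg_of_nonpos (neg_nonpos.1 h) hP

theorem endTest_sound {n0 n1 : Node} {whole kk neg : Bool} {m : EndK} {a b1 b2 P : AF}
    {av b1v b2v Pv z u : ℝ} (hS : |S| ≤ 1) (hT : |T| ≤ 1) (ha : a.Has S T av) (hb1 : b1.Has S T b1v)
    (hb2 : b2.Has S T b2v) (hP : P.Has S T Pv) (hu : u ∈ Icc (0 : ℝ) 1)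
    (hwh : whole = true → u = (1 + T) / 2) (hz : m = .vertex ∨ Btw Pv z ∧ SignOf neg Pv)
    (h : endTest n0 n1 whole kk neg m a b1 b2 P = true) :
    qv av b1v b2v z ≤ segVal n0 n1 kk ((1 + S) / 2) u := by
  have hP2 := hP.mul hP hS hT
  cases m with
  | chord =>
    obtain ⟨hzb, -⟩ := hz.resolve_left (fun h => by cases h)
    simp only [endTest, AF.force_eq, Bool.and_eq_true] at h
    obtain ⟨hA, hB⟩ := h
    have hn : -b2v ≤ rn b2.low.negPart := by
      have hl := hb2.low_le hS hT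
      rw [Sg.v_split] at hl
      rw [rn, Sg.negPart_def, le_div_iff₀ (by norm_num)]
      rw [cast_U] at hl
      linarith [Nat.cast_nonneg (α := ℝ) (b2.low.pos - b2.low.neg)]
    have hbm := has_ratio hS hT (hP2.mul (has_cst b2.low.negPart) hS hT) 1 4 (by norm_num)
    have a1 := below_sound hS hT ha hbm hu hwh hA
    have a2 := below_sound hS hT ((ha.add (hb1.mul hP hS hT)).add (hb2.mul hP2 hS hT)) hbm hu hwh hB
    push_cast at a1 a2
    have := quad_chord (a0 := av) (b1 := b1v)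
      (Z := segVal n0 n1 kk ((1 + S) / 2) u - rn b2.low.negPart * Pv ^ 2 / 4) hzb hn
      (Mid.rn_nonneg _) (by linarith) (by rw [qv, pow_two Pv]; linarith)
    linarith
  | vertex =>
    simp only [endTest] at h
    obtain ⟨h0, i, hi, h⟩ := withInv_sound hS hT h (has_ratio hS hT hb2.neg 4 1 one_pos)
    have hb := below_sound hS hT (ha.add ((hb1.mul hb1 hS hT).mul hi hS hT)) has_zero hu hwh h
    push_cast at h0 hb
    refine quad_vertex (by linarith) (le_trans (le_of_eq ?_) hb)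
    rw [div_eq_mul_inv]; ring
  | outer =>
    obtain ⟨hzb, hsg⟩ := hz.resolve_left (fun h => by cases h)
    simp only [endTest, AF.force_eq, Bool.and_eq_true] at h
    obtain ⟨⟨h1, h2⟩, h3⟩ := h
    have hg := hb1.add (hb2.mul hP hS hT)
    have g1 := sign_nonneg hsg (nn_le hS hT h1 (turn_has hg))
    have g2 := sign_nonneg hsg (nn_le hS hT h2 (turn_has (hg.add (hb2.mul hP hS hT))))
    have hb := below_sound hS hT ((ha.add (hb1.mul hP hS hT)).add (hb2.mul hP2 hS hT)) has_zero hu hwh h3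
    refine quad_outer hzb (by linarith) (by linarith) ?_
    rw [qv, pow_two]
    linarith
  | inner =>
    obtain ⟨hzb, hsg⟩ := hz.resolve_left (fun h => by cases h)
    simp only [endTest, Bool.and_eq_true] at h
    obtain ⟨⟨h1, h2⟩, h3⟩ := h
    have g1 := sign_nonpos hsg (np_le hS hT h1 (turn_has hb1))
    have g2 := sign_nonpos hsg (np_le hS hT h2 (turn_has (hb1.add (hb2.mul hP hS hT))))
    have hb := below_sound hS hT ha has_zero hu hwh h3
    exact quad_inner hzb g1 g2 (by linarith)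

/-- The value of the bracket less the majorant at the end `K` of `k`. -/
def endVal (K R ν L al eL base C ik X ψ : ℝ) : ℝ :=
  qv ((R - K * ν) * eL + (1 : ℕ) / (4 : ℕ) * (K * ik * (ν * ν)))
    (X * (L + al * (R - K * ν)) + (1 : ℕ) / (2 : ℕ) * (K * ik * (ν * C)))
    (K * base + (1 : ℕ) / (4 : ℕ) * (K * ik * (C * C))) ψ

/-- The bracket is affine in `k`. -/
theorem bracket_split {R0 R1 ν L0 L1 al eL base C ik X ψ k k0 K s : ℝ} (hs : k = (1 - s) * k0 + s * K) :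
    (((1 - s) * R0 + s * R1) - k * ν) * eL + (((1 - s) * R0 + s * R1) - k * ν) * (X * al) * ψ +
        X * ((1 - s) * L0 + s * L1) * ψ + k * base * ψ ^ 2 + k * ((ν + C * ψ) ^ 2 * ik / 4) =
      (1 - s) * endVal k0 R0 ν L0 al eL base C ik X ψ + s * endVal K R1 ν L1 al eL base C ik X ψ := by
  subst hs; simp only [endVal, qv]; push_cast; ring

theorem endsOK_sound {c : Cell} {e : Env} {v w : Vals} {r : Cor} {n0 n1 : Node} {whole neg : Bool}
    {m0 m1 : EndK} {C nu P : AF} {τ x R0 R1 Cv ν al base ik Pv ψ u s : ℝ} (hS : |S| ≤ 1) (hT : |T| ≤ 1)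
    (he : EnvHas c.base e S T τ) (hv : ValsHas c.base v S T τ x) (hw : ValsHas c.cK w S T τ x)
    (hM0 : r.M0.Has S T (R0 - rn c.k0 * ν)) (hMK : r.MK.Has S T (R1 - rn c.base.K * ν))
    (hik : r.ik.Has S T ik) (hal : r.al.Has S T al) (hbase : r.base.Has S T base) (hC : C.Has S T Cv)
    (hnu : nu.Has S T ν) (hP : P.Has S T Pv) (hu : u ∈ Icc (0 : ℝ) 1)
    (hwh : whole = true → u = (1 + T) / 2) (hs : s ∈ Icc (0 : ℝ) 1)
    (hz : (m0 = .vertex ∧ m1 = .vertex) ∨ Btw Pv ψ ∧ SignOf neg Pv)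
    (h : endsOK c e v w r n0 n1 whole neg m0 m1 C nu P = true) :
    (1 - s) * endVal (rn c.k0) R0 ν ((c.base.co τ).L τ (x ^ 2) (c.base.R.val τ (x ^ 2)) (c.base.R.der τ (x ^ 2)))
          al ((1 - 2 * τ) * (1 / (1 - τ)) * (1 / (1 - τ))) base Cv ik (x ^ 2) ψ +
        s * endVal (rn c.base.K) R1 ν ((c.base.co τ).L τ (x ^ 2) (c.R1.val τ (x ^ 2)) (c.R1.der τ (x ^ 2)))
          al ((1 - 2 * τ) * (1 / (1 - τ)) * (1 / (1 - τ))) base Cv ik (x ^ 2) ψ ≤
      segPi n0 n1 ((1 + S) / 2) u s := by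
  simp only [endsOK, withEndAt, AF.force_eq, Bool.and_eq_true] at h
  have key : ∀ {K : ℕ} {M L X : AF} {Rv Lv : ℝ} {kk : Bool} {m : EndK}, X.Has S T (x ^ 2) → L.Has S T Lv →
      M.Has S T (Rv - rn K * ν) → (m = .vertex ∨ Btw Pv ψ ∧ SignOf neg Pv) →
      endTest n0 n1 whole kk neg m ((M.mul e.eL).add ((((cst K).mul r.ik).mul (nu.mul nu)).scale 1 4))
        (((X.mul (L.add (r.al.mul M)))).add ((((cst K).mul r.ik).mul (nu.mul C)).scale 1 2))
        (((cst K).mul r.base).add ((((cst K).mul r.ik).mul (C.mul C)).scale 1 4)) P = true →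
      endVal (rn K) Rv ν Lv al ((1 - 2 * τ) * (1 / (1 - τ)) * (1 / (1 - τ))) base Cv ik (x ^ 2) ψ ≤
        segVal n0 n1 kk ((1 + S) / 2) u := by
    intro K M L X Rv Lv kk m hX hL hM hz h
    have hKi := (has_cst (S := S) (T := T) K).mul hik hS hT
    exact endTest_sound hS hT
      ((hM.mul he.eL hS hT).add (has_ratio hS hT (hKi.mul (hnu.mul hnu hS hT) hS hT) 1 4 (by norm_num)))
      ((hX.mul (hL.add (hal.mul hM hS hT)) hS hT).add
        (has_ratio hS hT (hKi.mul (hnu.mul hC hS hT) hS hT) 1 2 two_pos))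
      (((has_cst K).mul hbase hS hT).add
        (has_ratio hS hT (hKi.mul (hC.mul hC hS hT) hS hT) 1 4 (by norm_num))) hP hu hwh hz h
  refine add_le_add (mul_le_mul_of_nonneg_left (key hv.X hv.L hM0 ?_ h.1) (sub_nonneg.2 hs.2))
    (mul_le_mul_of_nonneg_left (key hw.X hw.L hMK ?_ h.2) hs.1)
  · exact hz.imp And.left id
  · exact hz.imp And.right id

/-- The forms with `R` at the greater end. -/
theorem withTop_sound {c : Cell} {e : Env} {v : Vals} {τ x : ℝ} {xa xb : ℕ} {k : Vals → Bool} (hS : |S| ≤ 1)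
    (hT : |T| ≤ 1) (he : EnvHas c.base e S T τ) (hv : ValsHas c.base v S T τ x)
    (hx : x ∈ Icc (rn xa) (rn xb)) (h : withTop c e v xa xb k = true) :
    ∃ w : Vals, ValsHas c.cK w S T τ x ∧ k w = true := by
  simp only [withTop, AF.force_eq, Bool.and_eq_true] at h
  obtain ⟨⟨hc1, hc0⟩, h⟩ := h
  have hτ : |τ| ≤ 1 := abs_le.2 ⟨by linarith [he.h0], by linarith [he.h1]⟩
  have hx0 : 0 ≤ x := (Mid.rn_nonneg xa).trans hx.1
  have hX : x ^ 2 ∈ Icc (rn (Nat.div (Nat.mul xa xa) 16777216)) (rn (Mid.cdiv (Nat.mul xb xb) 16777216)) := by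
    rw [pow_two]
    constructor
    · refine le_trans (div_le_div_of_nonneg_right (Mid.cast_div_le _ _) (by norm_num)) ?_
      refine le_trans (le_of_eq ?_) (mul_le_mul hx.1 hx.1 (Mid.rn_nonneg _) hx0)
      simp only [rn, Nat.mul_eq]; push_cast; ring
    · exact (mul_le_mul hx.2 hx.2 hx0 (Mid.rn_nonneg _)).trans (Mid.rn_mul_up xb xb)
  obtain ⟨f0, d0, hf0, hd0, h⟩ := withSpl_sound hS hT hτ he.t hv.X hX hc0 h
  obtain ⟨f1, d1, hf1, hd1, h⟩ := withSpl_sound hS hT hτ he.t hv.X hX hc1 h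
  refine ⟨_, ?_, h⟩
  have hL := has_cast ((hv.L.add (has_ratio hS hT (hd1.sub hd0) 2 1 one_pos)).add
    (((has_one.sub he.t).mul (hf0.sub hf1) hS hT).mul hv.iS hS hT))
    (v := (c.base.co τ).L τ (x ^ 2) (c.R1.val τ (x ^ 2)) (c.R1.der τ (x ^ 2)))
    (by simp only [Co.L]; push_cast; ring)
  exact ⟨hv.x, hv.X, hv.Xt, hv.Sv, hv.iS, hf1, hv.kp0, hv.kw0, hL, hv.Cp, hv.Cm, hv.Qp, hv.Qm, hv.a0,
    hv.hS⟩

/-- The place of `k` in the cell. -/
def kPos (c : Cell) (k : ℝ) : ℝ := (k - rn c.k0) / (rn c.base.K - rn c.k0)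

theorem kPos_facts {c : Cell} {k : ℝ} (h : rn c.k0 < rn c.base.K) (h0 : rn c.k0 ≤ k) (h1 : k ≤ rn c.base.K) :
    kPos c k ∈ Icc (0 : ℝ) 1 ∧ k = (1 - kPos c k) * rn c.k0 + kPos c k * rn c.base.K := by
  have hd := sub_pos.2 h
  refine ⟨⟨div_nonneg (sub_nonneg.2 h0) hd.le, (div_le_one hd).2 (by linarith)⟩, ?_⟩
  rw [kPos]; field_simp; ring

theorem EnvHas_top {c : Cell} {e : Env} {τ : ℝ} (h : EnvHas c.base e S T τ) : EnvHas c.cK e S T τ :=
  ⟨h.t, h.i1, h.i2, h.ti2, h.G, h.gc, h.gcb, h.e0, h.K0, h.Ll, h.T1, h.X0c, h.cth, h.GB, h.eL, h.bgt,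
    h.Eh, h.Qm, h.eb, h.el, h.Kt2, h.Ki1, h.h0, h.h1, h.h2⟩

/-- A box with `R` at the greater end. -/
theorem InBox_top {c : Cell} {e : Env} {v w : Vals} {τ x k : ℝ} {p : ℕ} {y t r lam : ℝ}
    (B : InBox c.base e v S T τ x k p y t r lam) (hw : ValsHas c.cK w S T τ x) :
    InBox c.cK e w S T τ x k p y t r lam :=
  ⟨B.hS, B.hT, EnvHas_top B.env, hw, B.hτ, B.hx, B.hx0, B.hp, B.hok, B.hb, B.hk, B.hkK, B.hK, B.pt⟩

/-- The potential at `k`. -/
def Cell.mixR (c : Cell) (k τ : ℝ) (X : ℝ) : ℝ :=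
  (1 - kPos c k) * c.base.R.val τ X + kPos c k * c.R1.val τ X

/-- Its derivative. -/
def Cell.mixD (c : Cell) (k τ : ℝ) (X : ℝ) : ℝ :=
  (1 - kPos c k) * c.base.R.der τ X + kPos c k * c.R1.der τ X

end Vale.Agent.P237.All.Transport.Small.Wide
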