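import Vale.Agent.P237.All.Small.Wide.Cert

/-!
P237, every dimension, excess `k ≤ .8`: the constants of the cell, checked by the kernel
(`notes/P237h3/wide`).
-/

noncomputable section

namespace Vale.Agent.P237.All.Transport.Small.Wide

/-- The constants of the cell. -/
def cellAa : Cell :=
  ⟨⟨73819750,1677722,67109,46526559,⟨⟨1646314,0⟩,⟨2900664,0⟩⟩,⟨⟨32478593,0⟩,⟨159161338,0⟩⟩,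
    ⟨⟨⟨1823474,0⟩,⟨154133877,0⟩⟩,⟨⟨0,9283589⟩,⟨307292349,0⟩⟩,[⟨0,⟨⟨21767296,0⟩,⟨0,2039480832⟩⟩⟩,⟨6553600,⟨⟨0,20880256⟩,⟨2895497792,0⟩⟩⟩,⟨16777216,⟨⟨94336,0⟩,⟨0,692005888⟩⟩⟩,⟨44302336,⟨⟨3427328,0⟩,⟨0,300458432⟩⟩⟩,⟨84934656,⟨⟨0,8618688⟩,⟨0,34539200⟩⟩⟩,⟨150994944,⟨⟨4394432,0⟩,⟨382171648,0⟩⟩⟩,⟨251920384,⟨⟨1024320,0⟩,⟨0,412797248⟩⟩⟩,⟨419430400,⟨⟨0,1629376⟩,⟨271882944,0⟩⟩⟩,⟨764411904,⟨⟨420608,0⟩,⟨0,70270784⟩⟩⟩]⟩,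
    ⟨⟨⟨8706954,0⟩,⟨0,13398075⟩⟩,⟨⟨76504236,0⟩,⟨0,1693042988⟩⟩,[⟨0,⟨⟨0,274092544⟩,⟨5947571904,0⟩⟩⟩,⟨6553600,⟨⟨269422400,0⟩,⟨0,6124744384⟩⟩⟩,⟨16777216,⟨⟨52315136,0⟩,⟨0,863911360⟩⟩⟩,⟨44302336,⟨⟨0,59946752⟩,⟨993061952,0⟩⟩⟩,⟨84934656,⟨⟨7022976,0⟩,⟨332615936,0⟩⟩⟩,⟨150994944,⟨⟨5908288,0⟩,⟨0,189334720⟩⟩⟩,⟨251920384,⟨⟨0,485184⟩,⟨0,143039360⟩⟩⟩,⟨419430400,⟨⟨0,115520⟩,⟨51937536,0⟩⟩⟩,⟨764411904,⟨⟨0,28800⟩,⟨0,4157504⟩⟩⟩]⟩,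
    ⟨⟨⟨3283180,0⟩,⟨0,365415398⟩⟩,⟨⟨0,5348180⟩,⟨0,128714158⟩⟩,[⟨0,⟨⟨137576256,0⟩,⟨0,5737984320⟩⟩⟩,⟨6553600,⟨⟨0,266936640⟩,⟨14953165632,0⟩⟩⟩,⟨16777216,⟨⟨83289920,0⟩,⟨0,11162004096⟩⟩⟩,⟨44302336,⟨⟨55581504,0⟩,⟨4407855360,0⟩⟩⟩,⟨84934656,⟨⟨0,41275072⟩,⟨0,3928981632⟩⟩⟩,⟨150994944,⟨⟨30348736,0⟩,⟨1130090432,0⟩⟩⟩,⟨251920384,⟨⟨75649280,0⟩,⟨0,4226295744⟩⟩⟩,⟨419430400,⟨⟨0,99746880⟩,⟨6867911936,0⟩⟩⟩,⟨764411904,⟨⟨25512896,0⟩,⟨0,2303757568⟩⟩⟩]⟩⟩,209715,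
    ⟨⟨⟨0,145586⟩,⟨50042275,0⟩⟩,⟨⟨0,9465869⟩,⟨140706675,0⟩⟩,[⟨0,⟨⟨23247744,0⟩,⟨0,1126471104⟩⟩⟩,⟨6553600,⟨⟨0,23728128⟩,⟨1849067648,0⟩⟩⟩,⟨16777216,⟨⟨190144,0⟩,⟨0,673540672⟩⟩⟩,⟨44302336,⟨⟨5956736,0⟩,⟨0,145624640⟩⟩⟩,⟨84934656,⟨⟨0,9806656⟩,⟨0,70394112⟩⟩⟩,⟨150994944,⟨⟨4305792,0⟩,⟨367307264,0⟩⟩⟩,⟨251920384,⟨⟨954944,0⟩,⟨0,403122048⟩⟩⟩,⟨419430400,⟨⟨0,1531648⟩,⟨275201344,0⟩⟩⟩,⟨764411904,⟨⟨411072,0⟩,⟨0,72423680⟩⟩⟩]⟩⟩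

theorem okCellAa : cellOK cellAa = true := by
  decide +kernel

end Vale.Agent.P237.All.Transport.Small.Wide
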