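import Vale.Agent.P237.All.Small.Wide.Cert

/-!
P237, every dimension, excess `k ≤ .8`: the constants of the cell, checked by the kernel
(`notes/P237h3/wide`).
-/

noncomputable section

namespace Vale.Agent.P237.All.Transport.Small.Wide

/-- The constants of the cell. -/
def cellAb : Cell :=
  ⟨⟨50331648,5033165,67109,11636759,⟨⟨1909103,0⟩,⟨37050712,0⟩⟩,⟨⟨31350560,0⟩,⟨0,152010385⟩⟩,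
    ⟨⟨⟨2174297,0⟩,⟨0,228519775⟩⟩,⟨⟨0,4855326⟩,⟨938676309,0⟩⟩,[⟨0,⟨⟨0,5034624⟩,⟨0,2513257728⟩⟩⟩,⟨6553600,⟨⟨13455040,0⟩,⟨2461305856,0⟩⟩⟩,⟨16777216,⟨⟨0,1301440⟩,⟨0,50508736⟩⟩⟩,⟨44302336,⟨⟨0,9666432⟩,⟨553510592,0⟩⟩⟩,⟨84934656,⟨⟨3811904,0⟩,⟨0,1113238912⟩⟩⟩,⟨150994944,⟨⟨0,5001664⟩,⟨1669664320,0⟩⟩⟩,⟨251920384,⟨⟨7192640,0⟩,⟨0,2009181312⟩⟩⟩,⟨419430400,⟨⟨0,4467776⟩,⟨1278842368,0⟩⟩⟩,⟨764411904,⟨⟨1012352,0⟩,⟨0,277136448⟩⟩⟩]⟩,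
    ⟨⟨⟨9563429,0⟩,⟨451441160,0⟩⟩,⟨⟨9147735,0⟩,⟨0,884230299⟩⟩,[⟨0,⟨⟨0,45829952⟩,⟨1034166272,0⟩⟩⟩,⟨6553600,⟨⟨43143424,0⟩,⟨0,505254080⟩⟩⟩,⟨16777216,⟨⟨22102208,0⟩,⟨0,1122906048⟩⟩⟩,⟨44302336,⟨⟨0,26794240⟩,⟨853400640,0⟩⟩⟩,⟨84934656,⟨⟨6081024,0⟩,⟨0,124714752⟩⟩⟩,⟨150994944,⟨⟨1450752,0⟩,⟨0,101236288⟩⟩⟩,⟨251920384,⟨⟨0,98880⟩,⟨0,34367552⟩⟩⟩,⟨419430400,⟨⟨0,51776⟩,⟨0,9703616⟩⟩⟩,⟨764411904,⟨⟨0,2560⟩,⟨10615424,0⟩⟩⟩]⟩,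
    ⟨⟨⟨3126657,0⟩,⟨0,30117586⟩⟩,⟨⟨0,5386874⟩,⟨922103529,0⟩⟩,[⟨0,⟨⟨2705984,0⟩,⟨130131072,0⟩⟩⟩,⟨6553600,⟨⟨0,763968⟩,⟨0,2882799424⟩⟩⟩,⟨16777216,⟨⟨0,60284608⟩,⟨1578564032,0⟩⟩⟩,⟨44302336,⟨⟨134727744,0⟩,⟨8315139008,0⟩⟩⟩,⟨84934656,⟨⟨0,162525824⟩,⟨0,14589914048⟩⟩⟩,⟨150994944,⟨⟨139318912,0⟩,⟨12008140544,0⟩⟩⟩,⟨251920384,⟨⟨0,60065152⟩,⟨0,8126727232⟩⟩⟩,⟨419430400,⟨⟨6979776,0⟩,⟨4679107072,0⟩⟩⟩,⟨764411904,⟨⟨0,92864⟩,⟨0,1111641024⟩⟩⟩]⟩⟩,1677722,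
    ⟨⟨⟨0,626996⟩,⟨0,49686891⟩⟩,⟨⟨0,11422657⟩,⟨400351995,0⟩⟩,[⟨0,⟨⟨16267200,0⟩,⟨0,1079582720⟩⟩⟩,⟨6553600,⟨⟨0,13839104⟩,⟨909443776,0⟩⟩⟩,⟨16777216,⟨⟨0,3640896⟩,⟨145588544,0⟩⟩⟩,⟨44302336,⟨⟨7772224,0⟩,⟨498908352,0⟩⟩⟩,⟨84934656,⟨⟨0,6132416⟩,⟨0,1215745600⟩⟩⟩,⟨150994944,⟨⟨0,4185920⟩,⟨1739380608,0⟩⟩⟩,⟨251920384,⟨⟨6778496,0⟩,⟨0,1984144832⟩⟩⟩,⟨419430400,⟨⟨0,3969152⟩,⟨1267161152,0⟩⟩⟩,⟨764411904,⟨⟨949568,0⟩,⟨0,281009280⟩⟩⟩]⟩⟩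

theorem okCellAb : cellOK cellAb = true := by
  decide +kernel

end Vale.Agent.P237.All.Transport.Small.Wide
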