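import Vale.Agent.P237.All.Small.Wide.Cert

/-!
P237, every dimension, excess `k ≤ .8`: the constants of the cell, checked by the kernel
(`notes/P237h3/wide`).
-/

noncomputable section

namespace Vale.Agent.P237.All.Transport.Small.Wide

/-- The constants of the cell. -/
def cellAc : Cell :=
  ⟨⟨36909875,13421773,67109,1,⟨⟨2477220,0⟩,⟨25156395,0⟩⟩,⟨⟨31172856,0⟩,⟨78727757,0⟩⟩,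
    ⟨⟨⟨0,402126⟩,⟨0,7059370⟩⟩,⟨⟨554994,0⟩,⟨0,82816079⟩⟩,[⟨0,⟨⟨0,18216704⟩,⟨51211008,0⟩⟩⟩,⟨6553600,⟨⟨22947776,0⟩,⟨275603904,0⟩⟩⟩,⟨16777216,⟨⟨2188352,0⟩,⟨0,573454080⟩⟩⟩,⟨44302336,⟨⟨0,6071744⟩,⟨838373888,0⟩⟩⟩,⟨84934656,⟨⟨0,3903936⟩,⟨0,1421160000⟩⟩⟩,⟨150994944,⟨⟨2419456,0⟩,⟨1496597440,0⟩⟩⟩,⟨251920384,⟨⟨4117632,0⟩,⟨0,1512806528⟩⟩⟩,⟨419430400,⟨⟨0,4872512⟩,⟨1163238208,0⟩⟩⟩,⟨764411904,⟨⟨1391680,0⟩,⟨0,317603840⟩⟩⟩]⟩,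
    ⟨⟨⟨9728586,0⟩,⟨23399879,0⟩⟩,⟨⟨6467636,0⟩,⟨0,1061271520⟩⟩,[⟨0,⟨⟨0,31686656⟩,⟨3080020608,0⟩⟩⟩,⟨6553600,⟨⟨43113856,0⟩,⟨0,3948353280⟩⟩⟩,⟨16777216,⟨⟨0,6717696⟩,⟨1088283712,0⟩⟩⟩,⟨44302336,⟨⟨0,8201600⟩,⟨0,364000064⟩⟩⟩,⟨84934656,⟨⟨3274944,0⟩,⟨250026752,0⟩⟩⟩,⟨150994944,⟨⟨300736,0⟩,⟨0,115230016⟩⟩⟩,⟨251920384,⟨⟨0,108032⟩,⟨48984384,0⟩⟩⟩,⟨419430400,⟨⟨37760,0⟩,⟨0,58360128⟩⟩⟩,⟨764411904,⟨⟨0,13312⟩,⟨18628032,0⟩⟩⟩]⟩,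
    ⟨⟨⟨5717115,0⟩,⟨0,137958796⟩⟩,⟨⟨0,8585799⟩,⟨1023333742,0⟩⟩,[⟨0,⟨⟨9434240,0⟩,⟨0,3317364160⟩⟩⟩,⟨6553600,⟨⟨0,16295872⟩,⟨4286723008,0⟩⟩⟩,⟨16777216,⟨⟨0,17704128⟩,⟨0,3389632128⟩⟩⟩,⟨44302336,⟨⟨51373568,0⟩,⟨11391328000,0⟩⟩⟩,⟨84934656,⟨⟨0,78070528⟩,⟨0,18780943232⟩⟩⟩,⟨150994944,⟨⟨93795392,0⟩,⟨16703224576,0⟩⟩⟩,⟨251920384,⟨⟨0,86019328⟩,⟨0,11778071616⟩⟩⟩,⟨419430400,⟨⟨61219584,0⟩,⟨6239412224,0⟩⟩⟩,⟨764411904,⟨⟨0,17732928⟩,⟨0,1354676672⟩⟩⟩]⟩⟩,5033165,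
    ⟨⟨⟨0,929012⟩,⟨0,93254981⟩⟩,⟨⟨0,14428171⟩,⟨657606473,0⟩⟩,[⟨0,⟨⟨15889664,0⟩,⟨0,2085108608⟩⟩⟩,⟨6553600,⟨⟨0,14459520⟩,⟨2600235136,0⟩⟩⟩,⟨16777216,⟨⟨0,3145600⟩,⟨0,856493184⟩⟩⟩,⟨44302336,⟨⟨13054656,0⟩,⟨860745856,0⟩⟩⟩,⟨84934656,⟨⟨0,16611776⟩,⟨0,959012160⟩⟩⟩,⟨150994944,⟨⟨5852416,0⟩,⟨818485888,0⟩⟩⟩,⟨251920384,⟨⟨2293504,0⟩,⟨0,1211229376⟩⟩⟩,⟨419430400,⟨⟨0,4269760⟩,⟨1168325056,0⟩⟩⟩,⟨764411904,⟨⟨1396416,0⟩,⟨0,335948608⟩⟩⟩]⟩⟩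

theorem okCellAc : cellOK cellAc = true := by
  decide +kernel

end Vale.Agent.P237.All.Transport.Small.Wide
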