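import Vale.Agent.P237.All.Small.Wide.Cert

/-!
P237, every dimension, excess `k ≤ .8`: the constants of the cell, checked by the kernel
(`notes/P237h3/wide`).
-/

noncomputable section

namespace Vale.Agent.P237.All.Transport.Small.Wide

/-- The constants of the cell. -/
def cellBa : Cell :=
  ⟨⟨73819750,1677722,67109,46526559,⟨⟨1437013,0⟩,⟨16000162,0⟩⟩,⟨⟨32751172,0⟩,⟨14479878,0⟩⟩,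
    ⟨⟨⟨3435667,0⟩,⟨49625310,0⟩⟩,⟨⟨0,9033869⟩,⟨36999262,0⟩⟩,[⟨0,⟨⟨12216064,0⟩,⟨0,445610880⟩⟩⟩,⟨6553600,⟨⟨0,5413760⟩,⟨700937664,0⟩⟩⟩,⟨16777216,⟨⟨0,4348864⟩,⟨0,185080256⟩⟩⟩,⟨44302336,⟨⟨1060160,0⟩,⟨0,144767936⟩⟩⟩,⟨84934656,⟨⟨0,8461760⟩,⟨76450496,0⟩⟩⟩,⟨150994944,⟨⟨5818816,0⟩,⟨10587520,0⟩⟩⟩,⟨251920384,⟨⟨0,551680⟩,⟨0,23601536⟩⟩⟩,⟨419430400,⟨⟨0,384960⟩,⟨14707840,0⟩⟩⟩,⟨764411904,⟨⟨65984,0⟩,⟨0,3622912⟩⟩⟩]⟩,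
    ⟨⟨⟨9010073,0⟩,⟨98317422,0⟩⟩,⟨⟨68651636,0⟩,⟨52039874,0⟩⟩,[⟨0,⟨⟨0,248964032⟩,⟨0,9076096⟩⟩⟩,⟨6553600,⟨⟨243446272,0⟩,⟨0,248717952⟩⟩⟩,⟨16777216,⟨⟨49698112,0⟩,⟨242661696,0⟩⟩⟩,⟨44302336,⟨⟨0,56859904⟩,⟨6811200,0⟩⟩⟩,⟨84934656,⟨⟨8894272,0⟩,⟨12066368,0⟩⟩⟩,⟨150994944,⟨⟨4698304,0⟩,⟨3514304,0⟩⟩⟩,⟨251920384,⟨⟨0,955392⟩,⟨0,9334336⟩⟩⟩,⟨419430400,⟨⟨43456,0⟩,⟨7710144,0⟩⟩⟩,⟨764411904,⟨⟨0,1088⟩,⟨0,5635328⟩⟩⟩]⟩,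
    ⟨⟨⟨2053254,0⟩,⟨0,43309544⟩⟩,⟨⟨0,5261777⟩,⟨0,60796646⟩⟩,[⟨0,⟨⟨113424128,0⟩,⟨0,24167360⟩⟩⟩,⟨6553600,⟨⟨0,206013376⟩,⟨27462336,0⟩⟩⟩,⟨16777216,⟨⟨39513024,0⟩,⟨7564672,0⟩⟩⟩,⟨44302336,⟨⟨71547904,0⟩,⟨0,9742208⟩⟩⟩,⟨84934656,⟨⟨0,56315520⟩,⟨23113216,0⟩⟩⟩,⟨150994944,⟨⟨35069760,0⟩,⟨0,24232128⟩⟩⟩,⟨251920384,⟨⟨58578816,0⟩,⟨1344,0⟩⟩⟩,⟨419430400,⟨⟨0,71938880⟩,⟨0,2319232⟩⟩⟩,⟨764411904,⟨⟨16134144,0⟩,⟨2319360,0⟩⟩⟩]⟩⟩,209715,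
    ⟨⟨⟨0,140985⟩,⟨42264282,0⟩⟩,⟨⟨0,9475107⟩,⟨35292005,0⟩⟩,[⟨0,⟨⟨22479168,0⟩,⟨0,313802112⟩⟩⟩,⟨6553600,⟨⟨0,21218944⟩,⟨274110720,0⟩⟩⟩,⟨16777216,⟨⟨0,942080⟩,⟨140762368,0⟩⟩⟩,⟨44302336,⟨⟨4790464,0⟩,⟨0,142616896⟩⟩⟩,⟨84934656,⟨⟨0,9971136⟩,⟨41624000,0⟩⟩⟩,⟨150994944,⟨⟨5759360,0⟩,⟨13151680,0⟩⟩⟩,⟨251920384,⟨⟨0,695296⟩,⟨0,28868224⟩⟩⟩,⟨419430400,⟨⟨0,261312⟩,⟨21596928,0⟩⟩⟩,⟨764411904,⟨⟨59776,0⟩,⟨0,5958464⟩⟩⟩]⟩⟩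

theorem okCellBa : cellOK cellBa = true := by
  decide +kernel

end Vale.Agent.P237.All.Transport.Small.Wide
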