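import Vale.Agent.P237.All.Small.Wide.Cert

/-!
P237, every dimension, excess `k ≤ .8`: the constants of the cell, checked by the kernel
(`notes/P237h3/wide`).
-/

noncomputable section

namespace Vale.Agent.P237.All.Transport.Small.Wide

/-- The constants of the cell. -/
def cellBb : Cell :=
  ⟨⟨50331648,5033165,67109,11636759,⟨⟨2181199,0⟩,⟨24120696,0⟩⟩,⟨⟨32590380,0⟩,⟨0,221656048⟩⟩,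
    ⟨⟨⟨1510635,0⟩,⟨0,183183543⟩⟩,⟨⟨0,5040236⟩,⟨940433273,0⟩⟩,[⟨0,⟨⟨0,3474880⟩,⟨0,2462199488⟩⟩⟩,⟨6553600,⟨⟨11562048,0⟩,⟨2357622336,0⟩⟩⟩,⟨16777216,⟨⟨0,617664⟩,⟨42965312,0⟩⟩⟩,⟨44302336,⟨⟨0,9537856⟩,⟨503335104,0⟩⟩⟩,⟨84934656,⟨⟨3697216,0⟩,⟨0,1095889792⟩⟩⟩,⟨150994944,⟨⟨0,5009600⟩,⟨1670912896,0⟩⟩⟩,⟨251920384,⟨⟨7236096,0⟩,⟨0,2012222144⟩⟩⟩,⟨419430400,⟨⟨0,5331136⟩,⟨1263682112,0⟩⟩⟩,⟨764411904,⟨⟨1475776,0⟩,⟨0,268206336⟩⟩⟩]⟩,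
    ⟨⟨⟨10625170,0⟩,⟨451064176,0⟩⟩,⟨⟨8758326,0⟩,⟨0,903761581⟩⟩,[⟨0,⟨⟨0,47483136⟩,⟨1008973888,0⟩⟩⟩,⟨6553600,⟨⟨45747136,0⟩,⟨0,390906496⟩⟩⟩,⟨16777216,⟨⟨23422976,0⟩,⟨0,984873216⟩⟩⟩,⟨44302336,⟨⟨0,31097152⟩,⟨595968448,0⟩⟩⟩,⟨84934656,⟨⟨8120704,0⟩,⟨0,108387584⟩⟩⟩,⟨150994944,⟨⟨1844992,0⟩,⟨0,127665344⟩⟩⟩,⟨251920384,⟨⟨0,417536⟩,⟨0,12106624⟩⟩⟩,⟨419430400,⟨⟨0,215040⟩,⟨15853056,0⟩⟩⟩,⟨764411904,⟨⟨77056,0⟩,⟨3143872,0⟩⟩⟩]⟩,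
    ⟨⟨⟨3967552,0⟩,⟨0,7112617⟩⟩,⟨⟨0,7023909⟩,⟨856601213,0⟩⟩,[⟨0,⟨⟨0,2994496⟩,⟨0,113272064⟩⟩⟩,⟨6553600,⟨⟨11418944,0⟩,⟨0,2383131648⟩⟩⟩,⟨16777216,⟨⟨0,66627264⟩,⟨1334375232,0⟩⟩⟩,⟨44302336,⟨⟨134414336,0⟩,⟨8294217920,0⟩⟩⟩,⟨84934656,⟨⟨0,162311488⟩,⟨0,14578797760⟩⟩⟩,⟨150994944,⟨⟨139272128,0⟩,⟨12005830464,0⟩⟩⟩,⟨251920384,⟨⟨0,60059520⟩,⟨0,8126619264⟩⟩⟩,⟨419430400,⟨⟨6979520,0⟩,⟨4678874496,0⟩⟩⟩,⟨764411904,⟨⟨0,92160⟩,⟨0,1111477376⟩⟩⟩]⟩⟩,1677722,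
    ⟨⟨⟨0,551345⟩,⟨0,69067990⟩⟩,⟨⟨0,11846452⟩,⟨357125997,0⟩⟩,[⟨0,⟨⟨16447104,0⟩,⟨0,905104448⟩⟩⟩,⟨6553600,⟨⟨0,13939712⟩,⟨647554048,0⟩⟩⟩,⟨16777216,⟨⟨0,3884608⟩,⟨295450624,0⟩⟩⟩,⟨44302336,⟨⟨9049216,0⟩,⟨419707328,0⟩⟩⟩,⟨84934656,⟨⟨0,7048576⟩,⟨0,1194139264⟩⟩⟩,⟨150994944,⟨⟨0,3756352⟩,⟨1742010624,0⟩⟩⟩,⟨251920384,⟨⟨6570368,0⟩,⟨0,1979383680⟩⟩⟩,⟨419430400,⟨⟨0,4913728⟩,⟨1244215616,0⟩⟩⟩,⟨764411904,⟨⟨1476288,0⟩,⟨0,270310848⟩⟩⟩]⟩⟩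

theorem okCellBb : cellOK cellBb = true := by
  decide +kernel

end Vale.Agent.P237.All.Transport.Small.Wide
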