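import Vale.Agent.P237.All.Small.Wide.Cert

/-!
P237, every dimension, excess `k ≤ .8`: the constants of the cell, checked by the kernel
(`notes/P237h3/wide`).
-/

noncomputable section

namespace Vale.Agent.P237.All.Transport.Small.Wide

/-- The constants of the cell. -/
def cellBc : Cell :=
  ⟨⟨41943040,9227469,67109,1,⟨⟨2771750,0⟩,⟨1458795,0⟩⟩,⟨⟨29648310,0⟩,⟨0,3223958⟩⟩,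
    ⟨⟨⟨0,251882⟩,⟨365114,0⟩⟩,⟨⟨0,4244582⟩,⟨0,27280838⟩⟩,[⟨0,⟨⟨0,5680640⟩,⟨96091200,0⟩⟩⟩,⟨6553600,⟨⟨8302912,0⟩,⟨0,144142848⟩⟩⟩,⟨16777216,⟨⟨1750144,0⟩,⟨174532672,0⟩⟩⟩,⟨44302336,⟨⟨2590208,0⟩,⟨0,231226112⟩⟩⟩,⟨84934656,⟨⟨0,14347456⟩,⟨114678912,0⟩⟩⟩,⟨150994944,⟨⟨8863104,0⟩,⟨0,2058176⟩⟩⟩,⟨251920384,⟨⟨0,1316288⟩,⟨0,15634560⟩⟩⟩,⟨419430400,⟨⟨0,191296⟩,⟨10490816,0⟩⟩⟩,⟨764411904,⟨⟨29312,0⟩,⟨0,2731904⟩⟩⟩]⟩,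
    ⟨⟨⟨12381720,0⟩,⟨28435133,0⟩⟩,⟨⟨520086,0⟩,⟨0,14681521⟩⟩,[⟨0,⟨⟨0,23125696⟩,⟨0,88845376⟩⟩⟩,⟨6553600,⟨⟨35420736,0⟩,⟨121907584,0⟩⟩⟩,⟨16777216,⟨⟨0,5116288⟩,⟨0,13292672⟩⟩⟩,⟨44302336,⟨⟨0,11781120⟩,⟨0,93641152⟩⟩⟩,⟨84934656,⟨⟨4594240,0⟩,⟨123757056,0⟩⟩⟩,⟨150994944,⟨⟨0,34624⟩,⟨0,35632768⟩⟩⟩,⟨251920384,⟨⟨240192,0⟩,⟨0,28309760⟩⟩⟩,⟨419430400,⟨⟨0,260288⟩,⟨15705792,0⟩⟩⟩,⟨764411904,⟨⟨62848,0⟩,⟨0,1648704⟩⟩⟩]⟩,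
    ⟨⟨⟨6522987,0⟩,⟨38013967,0⟩⟩,⟨⟨0,1521190⟩,⟨14159163,0⟩⟩,[⟨0,⟨⟨0,11883456⟩,⟨0,120451072⟩⟩⟩,⟨6553600,⟨⟨2808192,0⟩,⟨0,166776320⟩⟩⟩,⟨16777216,⟨⟨0,28044352⟩,⟨658785472,0⟩⟩⟩,⟨44302336,⟨⟨119186944,0⟩,⟨0,554978816⟩⟩⟩,⟨84934656,⟨⟨0,186840256⟩,⟨197031936,0⟩⟩⟩,⟨150994944,⟨⟨177495744,0⟩,⟨0,15023872⟩⟩⟩,⟨251920384,⟨⟨0,135545344⟩,⟨1160896,0⟩⟩⟩,⟨419430400,⟨⟨85978752,0⟩,⟨250496,0⟩⟩⟩,⟨764411904,⟨⟨0,23156224⟩,⟨1280,0⟩⟩⟩]⟩⟩,5033165,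
    ⟨⟨⟨0,631165⟩,⟨0,34319574⟩⟩,⟨⟨0,10645879⟩,⟨0,15968673⟩⟩,[⟨0,⟨⟨2885568,0⟩,⟨229836544,0⟩⟩⟩,⟨6553600,⟨⟨336832,0⟩,⟨0,335164672⟩⟩⟩,⟨16777216,⟨⟨0,4215552⟩,⟨104453504,0⟩⟩⟩,⟨44302336,⟨⟨16475712,0⟩,⟨0,97307776⟩⟩⟩,⟨84934656,⟨⟨0,25349696⟩,⟨183729920,0⟩⟩⟩,⟨150994944,⟨⟨11610112,0⟩,⟨0,102846912⟩⟩⟩,⟨251920384,⟨⟨0,1733312⟩,⟨15649600,0⟩⟩⟩,⟨419430400,⟨⟨0,11712⟩,⟨2296064,0⟩⟩⟩,⟨764411904,⟨⟨2048,0⟩,⟨0,646272⟩⟩⟩]⟩⟩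

theorem okCellBc : cellOK cellBc = true := by
  decide +kernel

end Vale.Agent.P237.All.Transport.Small.Wide
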