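import Vale.Agent.P237.All.Small.Wide.Cert

/-!
P237, every dimension, excess `k ≤ .8`: the constants of the cell, checked by the kernel
(`notes/P237h3/wide`).
-/

noncomputable section

namespace Vale.Agent.P237.All.Transport.Small.Wide

/-- The constants of the cell. -/
def cellBd : Cell :=
  ⟨⟨33554432,13421773,67109,1,⟨⟨2892518,0⟩,⟨35065220,0⟩⟩,⟨⟨28506033,0⟩,⟨0,119984357⟩⟩,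
    ⟨⟨⟨0,590236⟩,⟨8299575,0⟩⟩,⟨⟨0,7890598⟩,⟨0,66599852⟩⟩,[⟨0,⟨⟨1533376,0⟩,⟨94416896,0⟩⟩⟩,⟨6553600,⟨⟨1749184,0⟩,⟨0,216661696⟩⟩⟩,⟨16777216,⟨⟨0,2614912⟩,⟨300034112,0⟩⟩⟩,⟨44302336,⟨⟨9509824,0⟩,⟨0,296593152⟩⟩⟩,⟨84934656,⟨⟨0,17139648⟩,⟨117551616,0⟩⟩⟩,⟨150994944,⟨⟨8113728,0⟩,⟨6945536,0⟩⟩⟩,⟨251920384,⟨⟨0,766208⟩,⟨0,26061376⟩⟩⟩,⟨419430400,⟨⟨0,570816⟩,⟨33707776,0⟩⟩⟩,⟨764411904,⟨⟨185472,0⟩,⟨0,13339712⟩⟩⟩]⟩,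
    ⟨⟨⟨10115138,0⟩,⟨193260945,0⟩⟩,⟨⟨0,935808⟩,⟨0,22298840⟩⟩,[⟨0,⟨⟨0,8284736⟩,⟨0,36651968⟩⟩⟩,⟨6553600,⟨⟨12897152,0⟩,⟨284425856,0⟩⟩⟩,⟨16777216,⟨⟨793472,0⟩,⟨0,380840832⟩⟩⟩,⟨44302336,⟨⟨0,8774976⟩,⟨130100544,0⟩⟩⟩,⟨84934656,⟨⟨3455872,0⟩,⟨38452480,0⟩⟩⟩,⟨150994944,⟨⟨0,45184⟩,⟨0,42034944⟩⟩⟩,⟨251920384,⟨⟨56000,0⟩,⟨2889792,0⟩⟩⟩,⟨419430400,⟨⟨0,142080⟩,⟨5960768,0⟩⟩⟩,⟨764411904,⟨⟨44480,0⟩,⟨0,2301696⟩⟩⟩]⟩,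
    ⟨⟨⟨5852962,0⟩,⟨91073775,0⟩⟩,⟨⟨0,1749206⟩,⟨27505622,0⟩⟩,[⟨0,⟨⟨0,12988928⟩,⟨0,63914624⟩⟩⟩,⟨6553600,⟨⟨14237760,0⟩,⟨0,198038016⟩⟩⟩,⟨16777216,⟨⟨0,33820416⟩,⟨547030144,0⟩⟩⟩,⟨44302336,⟨⟨109523264,0⟩,⟨0,436452608⟩⟩⟩,⟨84934656,⟨⟨0,181852736⟩,⟨167903232,0⟩⟩⟩,⟨150994944,⟨⟨177595456,0⟩,⟨0,17642624⟩⟩⟩,⟨251920384,⟨⟨0,135519744⟩,⟨878720,0⟩⟩⟩,⟨419430400,⟨⟨85981568,0⟩,⟨234496,0⟩⟩⟩,⟨764411904,⟨⟨0,23156224⟩,⟨1280,0⟩⟩⟩]⟩⟩,9227469,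
    ⟨⟨⟨0,984571⟩,⟨7011651,0⟩⟩,⟨⟨0,10587228⟩,⟨0,42159051⟩⟩,[⟨0,⟨⟨0,487424⟩,⟨0,60709952⟩⟩⟩,⟨6553600,⟨⟨7433408,0⟩,⟨0,45553536⟩⟩⟩,⟨16777216,⟨⟨0,9769472⟩,⟨352151296,0⟩⟩⟩,⟨44302336,⟨⟨20771264,0⟩,⟨0,487644992⟩⟩⟩,⟨84934656,⟨⟨0,28748224⟩,⟨335546816,0⟩⟩⟩,⟨150994944,⟨⟨12351232,0⟩,⟨0,119119488⟩⟩⟩,⟨251920384,⟨⟨0,944768⟩,⟨0,680704⟩⟩⟩,⟨419430400,⟨⟨0,856128⟩,⟨43299392,0⟩⟩⟩,⟨764411904,⟨⟨250112,0⟩,⟨0,17288832⟩⟩⟩]⟩⟩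

theorem okCellBd : cellOK cellBd = true := by
  decide +kernel

end Vale.Agent.P237.All.Transport.Small.Wide
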