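import Vale.Agent.P237.All.Small.Wide.Cert

/-!
P237, every dimension, excess `k ≤ .8`: the constants of the cell, checked by the kernel
(`notes/P237h3/wide`).
-/

noncomputable section

namespace Vale.Agent.P237.All.Transport.Small.Wide

/-- The constants of the cell. -/
def cellCa : Cell :=
  ⟨⟨73819750,1677722,67109,46526559,⟨⟨1568191,0⟩,⟨20944240,0⟩⟩,⟨⟨32647389,0⟩,⟨0,40988886⟩⟩,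
    ⟨⟨⟨3828381,0⟩,⟨84568661,0⟩⟩,⟨⟨0,8156483⟩,⟨0,48112104⟩⟩,[⟨0,⟨⟨6922432,0⟩,⟨0,317565824⟩⟩⟩,⟨6553600,⟨⟨1655552,0⟩,⟨580818496,0⟩⟩⟩,⟨16777216,⟨⟨0,3494080⟩,⟨0,216919808⟩⟩⟩,⟨44302336,⟨⟨0,4131200⟩,⟨27263936,0⟩⟩⟩,⟨84934656,⟨⟨0,5701440⟩,⟨0,100520768⟩⟩⟩,⟨150994944,⟨⟨5661888,0⟩,⟨11562432,0⟩⟩⟩,⟨251920384,⟨⟨0,538688⟩,⟨0,1574656⟩⟩⟩,⟨419430400,⟨⟨0,420992⟩,⟨23015424,0⟩⟩⟩,⟨764411904,⟨⟨46528,0⟩,⟨0,6079232⟩⟩⟩]⟩,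
    ⟨⟨⟨10666342,0⟩,⟨41713486,0⟩⟩,⟨⟨68668442,0⟩,⟨79828747,0⟩⟩,[⟨0,⟨⟨0,248523520⟩,⟨0,104235328⟩⟩⟩,⟨6553600,⟨⟨242795392,0⟩,⟨0,232338880⟩⟩⟩,⟨16777216,⟨⟨50175552,0⟩,⟨312188352,0⟩⟩⟩,⟨44302336,⟨⟨0,56778432⟩,⟨0,16278848⟩⟩⟩,⟨84934656,⟨⟨8267264,0⟩,⟨103295680,0⟩⟩⟩,⟨150994944,⟨⟨5051520,0⟩,⟨0,68006016⟩⟩⟩,⟨251920384,⟨⟨0,1400128⟩,⟨27932096,0⟩⟩⟩,⟨419430400,⟨⟨559232,0⟩,⟨0,29123008⟩⟩⟩,⟨764411904,⟨⟨0,146880⟩,⟨6565952,0⟩⟩⟩]⟩,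
    ⟨⟨⟨1489157,0⟩,⟨9939427,0⟩⟩,⟨⟨0,5737480⟩,⟨0,48510423⟩⟩,[⟨0,⟨⟨113365632,0⟩,⟨0,92360896⟩⟩⟩,⟨6553600,⟨⟨0,205995328⟩,⟨106387520,0⟩⟩⟩,⟨16777216,⟨⟨39616832,0⟩,⟨26384128,0⟩⟩⟩,⟨44302336,⟨⟨71498880,0⟩,⟨0,36856896⟩⟩⟩,⟨84934656,⟨⟨0,56137600⟩,⟨0,2997568⟩⟩⟩,⟨150994944,⟨⟨34874432,0⟩,⟨0,904256⟩⟩⟩,⟨251920384,⟨⟨58579648,0⟩,⟨347712,0⟩⟩⟩,⟨419430400,⟨⟨0,71952768⟩,⟨50880,0⟩⟩⟩,⟨764411904,⟨⟨16150272,0⟩,⟨0,50624⟩⟩⟩]⟩⟩,209715,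
    ⟨⟨⟨0,178118⟩,⟨10895309,0⟩⟩,⟨⟨0,9169764⟩,⟨18819533,0⟩⟩,[⟨0,⟨⟨20072512,0⟩,⟨0,270219328⟩⟩⟩,⟨6553600,⟨⟨0,18720192⟩,⟨340870912,0⟩⟩⟩,⟨16777216,⟨⟨0,540480⟩,⟨62627776,0⟩⟩⟩,⟨44302336,⟨⟨3625984,0⟩,⟨0,159878656⟩⟩⟩,⟨84934656,⟨⟨0,9000896⟩,⟨0,3673600⟩⟩⟩,⟨150994944,⟨⟨5718912,0⟩,⟨6119040,0⟩⟩⟩,⟨251920384,⟨⟨0,1276736⟩,⟨45212224,0⟩⟩⟩,⟨419430400,⟨⟨152320,0⟩,⟨0,23797056⟩⟩⟩,⟨764411904,⟨⟨0,31424⟩,⟨2738688,0⟩⟩⟩]⟩⟩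

theorem okCellCa : cellOK cellCa = true := by
  decide +kernel

end Vale.Agent.P237.All.Transport.Small.Wide
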