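import Vale.Agent.P237.All.Small.Wide.Cert

/-!
P237, every dimension, excess `k ≤ .8`: the constants of the cell, checked by the kernel
(`notes/P237h3/wide`).
-/

noncomputable section

namespace Vale.Agent.P237.All.Transport.Small.Wide

/-- The constants of the cell. -/
def cellCb : Cell :=
  ⟨⟨53687091,5033165,67109,11636759,⟨⟨1478971,0⟩,⟨67496233,0⟩⟩,⟨⟨31693906,0⟩,⟨0,99875270⟩⟩,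
    ⟨⟨⟨2762488,0⟩,⟨0,87448302⟩⟩,⟨⟨0,4622743⟩,⟨0,25246273⟩⟩,[⟨0,⟨⟨0,4168576⟩,⟨0,143588416⟩⟩⟩,⟨6553600,⟨⟨12014400,0⟩,⟨181522624,0⟩⟩⟩,⟨16777216,⟨⟨0,2054336⟩,⟨57838144,0⟩⟩⟩,⟨44302336,⟨⟨0,6414784⟩,⟨0,202014848⟩⟩⟩,⟨84934656,⟨⟨0,1002304⟩,⟨96989952,0⟩⟩⟩,⟨150994944,⟨⟨1728960,0⟩,⟨9126464,0⟩⟩⟩,⟨251920384,⟨⟨0,441920⟩,⟨39449728,0⟩⟩⟩,⟨419430400,⟨⟨466816,0⟩,⟨0,48905792⟩⟩⟩,⟨764411904,⟨⟨0,128256⟩,⟨9582144,0⟩⟩⟩]⟩,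
    ⟨⟨⟨9465195,0⟩,⟨366451140,0⟩⟩,⟨⟨4073897,0⟩,⟨0,34580685⟩⟩,[⟨0,⟨⟨0,38921664⟩,⟨0,164079872⟩⟩⟩,⟨6553600,⟨⟨36800448,0⟩,⟨468416576,0⟩⟩⟩,⟨16777216,⟨⟨21242368,0⟩,⟨0,431177664⟩⟩⟩,⟨44302336,⟨⟨0,27401536⟩,⟨179418624,0⟩⟩⟩,⟨84934656,⟨⟨8414272,0⟩,⟨0,51209792⟩⟩⟩,⟨150994944,⟨⟨236032,0⟩,⟨0,5200768⟩⟩⟩,⟨251920384,⟨⟨0,539712⟩,⟨233856,0⟩⟩⟩,⟨419430400,⟨⟨172160,0⟩,⟨5913280,0⟩⟩⟩,⟨764411904,⟨⟨0,2368⟩,⟨0,2314240⟩⟩⟩]⟩,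
    ⟨⟨⟨4255915,0⟩,⟨88038693,0⟩⟩,⟨⟨764224,0⟩,⟨0,87789661⟩⟩,[⟨0,⟨⟨0,9184384⟩,⟨0,217526592⟩⟩⟩,⟨6553600,⟨⟨0,499072⟩,⟨406175104,0⟩⟩⟩,⟨16777216,⟨⟨0,54570112⟩,⟨0,210550976⟩⟩⟩,⟨44302336,⟨⟨170773824,0⟩,⟨54368128,0⟩⟩⟩,⟨84934656,⟨⟨0,222191936⟩,⟨0,28594688⟩⟩⟩,⟨150994944,⟨⟨187088640,0⟩,⟨0,3887296⟩⟩⟩,⟨251920384,⟨⟨0,92573632⟩,⟨12992,0⟩⟩⟩,⟨419430400,⟨⟨25691008,0⟩,⟨3264,0⟩⟩⟩,⟨764411904,⟨⟨0,4534336⟩,⟨64,0⟩⟩⟩]⟩⟩,1677722,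
    ⟨⟨⟨0,2199943⟩,⟨103856000,0⟩⟩,⟨⟨0,8556742⟩,⟨0,133117104⟩⟩,[⟨0,⟨⟨15828096,0⟩,⟨0,388021760⟩⟩⟩,⟨6553600,⟨⟨0,15437504⟩,⟨445633472,0⟩⟩⟩,⟨16777216,⟨⟨0,2708352⟩,⟨43376704,0⟩⟩⟩,⟨44302336,⟨⟨11513216,0⟩,⟨0,91759872⟩⟩⟩,⟨84934656,⟨⟨0,13131776⟩,⟨0,28064896⟩⟩⟩,⟨150994944,⟨⟨4031104,0⟩,⟨0,4551808⟩⟩⟩,⟨251920384,⟨⟨0,547392⟩,⟨74593088,0⟩⟩⟩,⟨419430400,⟨⟨604160,0⟩,⟨0,62625728⟩⟩⟩,⟨764411904,⟨⟨0,151552⟩,⟨11420800,0⟩⟩⟩]⟩⟩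

theorem okCellCb : cellOK cellCb = true := by
  decide +kernel

end Vale.Agent.P237.All.Transport.Small.Wide
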