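import Vale.Agent.P237.All.Small.Wide.Cert

/-!
P237, every dimension, excess `k ≤ .8`: the constants of the cell, checked by the kernel
(`notes/P237h3/wide`).
-/

noncomputable section

namespace Vale.Agent.P237.All.Transport.Small.Wide

/-- The constants of the cell. -/
def cellCc : Cell :=
  ⟨⟨41943040,9227469,67109,1,⟨⟨2851266,0⟩,⟨17776727,0⟩⟩,⟨⟨28869713,0⟩,⟨0,7786916⟩⟩,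
    ⟨⟨⟨75465,0⟩,⟨0,29018972⟩⟩,⟨⟨0,5437776⟩,⟨0,15445784⟩⟩,[⟨0,⟨⟨0,4495744⟩,⟨13073152,0⟩⟩⟩,⟨6553600,⟨⟨7403904,0⟩,⟨7628672,0⟩⟩⟩,⟨16777216,⟨⟨2402176,0⟩,⟨8576000,0⟩⟩⟩,⟨44302336,⟨⟨1033344,0⟩,⟨0,50287872⟩⟩⟩,⟨84934656,⟨⟨0,13624576⟩,⟨19923840,0⟩⟩⟩,⟨150994944,⟨⟨8832320,0⟩,⟨3581632,0⟩⟩⟩,⟨251920384,⟨⟨0,1367296⟩,⟨0,13712512⟩⟩⟩,⟨419430400,⟨⟨0,240384⟩,⟨16169536,0⟩⟩⟩,⟨764411904,⟨⟨56256,0⟩,⟨0,4952448⟩⟩⟩]⟩,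
    ⟨⟨⟨12707582,0⟩,⟨147342964,0⟩⟩,⟨⟨79361,0⟩,⟨561184,0⟩⟩,[⟨0,⟨⟨0,19835136⟩,⟨4632576,0⟩⟩⟩,⟨6553600,⟨⟨30548928,0⟩,⟨148511488,0⟩⟩⟩,⟨16777216,⟨⟨0,4439104⟩,⟨0,201926016⟩⟩⟩,⟨44302336,⟨⟨0,10056128⟩,⟨0,36279168⟩⟩⟩,⟨84934656,⟨⟨3635264,0⟩,⟨155348416,0⟩⟩⟩,⟨150994944,⟨⟨458624,0⟩,⟨0,65962176⟩⟩⟩,⟨251920384,⟨⟨0,225984⟩,⟨0,51902848⟩⟩⟩,⟨419430400,⟨⟨0,191680⟩,⟨65212096,0⟩⟩⟩,⟨764411904,⟨⟨105216,0⟩,⟨0,17634368⟩⟩⟩]⟩,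
    ⟨⟨⟨7098272,0⟩,⟨3692410,0⟩⟩,⟨⟨0,1632621⟩,⟨1096338,0⟩⟩,[⟨0,⟨⟨0,18618944⟩,⟨0,19053440⟩⟩⟩,⟨6553600,⟨⟨14900096,0⟩,⟨0,35569216⟩⟩⟩,⟨16777216,⟨⟨0,27024128⟩,⟨41338112,0⟩⟩⟩,⟨44302336,⟨⟨109073152,0⟩,⟨34213760,0⟩⟩⟩,⟨84934656,⟨⟨0,183573312⟩,⟨0,18173120⟩⟩⟩,⟨150994944,⟨⟨177955584,0⟩,⟨0,2771904⟩⟩⟩,⟨251920384,⟨⟨0,135536832⟩,⟨14144,0⟩⟩⟩,⟨419430400,⟨⟨85980608,0⟩,⟨1600,0⟩⟩⟩,⟨764411904,⟨⟨0,23156224⟩,⟨64,0⟩⟩⟩]⟩⟩,5033165,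
    ⟨⟨⟨0,633048⟩,⟨0,20455738⟩⟩,⟨⟨0,10958344⟩,⟨0,28173925⟩⟩,[⟨0,⟨⟨1287104,0⟩,⟨0,6898496⟩⟩⟩,⟨6553600,⟨⟨2774336,0⟩,⟨47613184,0⟩⟩⟩,⟨16777216,⟨⟨0,3445312⟩,⟨0,25446464⟩⟩⟩,⟨44302336,⟨⟨13078080,0⟩,⟨0,20643328⟩⟩⟩,⟨84934656,⟨⟨0,22823104⟩,⟨30198336,0⟩⟩⟩,⟨150994944,⟨⟨10528064,0⟩,⟨0,39902528⟩⟩⟩,⟨251920384,⟨⟨0,1041792⟩,⟨0,4856896⟩⟩⟩,⟨419430400,⟨⟨0,466112⟩,⟨28984064,0⟩⟩⟩,⟨764411904,⟨⟨108736,0⟩,⟨0,9047872⟩⟩⟩]⟩⟩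

theorem okCellCc : cellOK cellCc = true := by
  decide +kernel

end Vale.Agent.P237.All.Transport.Small.Wide
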