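import Vale.Agent.P237.All.Small.Wide.Cert

/-!
P237, every dimension, excess `k ≤ .8`: the constants of the cell, checked by the kernel
(`notes/P237h3/wide`).
-/

noncomputable section

namespace Vale.Agent.P237.All.Transport.Small.Wide

/-- The constants of the cell. -/
def cellCd : Cell :=
  ⟨⟨31876710,13421773,67109,1,⟨⟨2852796,0⟩,⟨81924798,0⟩⟩,⟨⟨29697870,0⟩,⟨0,359165382⟩⟩,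
    ⟨⟨⟨0,982591⟩,⟨53208228,0⟩⟩,⟨⟨0,7376650⟩,⟨0,252686856⟩⟩,[⟨0,⟨⟨2749888,0⟩,⟨386671552,0⟩⟩⟩,⟨6553600,⟨⟨0,2869696⟩,⟨0,470289920⟩⟩⟩,⟨16777216,⟨⟨5005568,0⟩,⟨174347392,0⟩⟩⟩,⟨44302336,⟨⟨2228992,0⟩,⟨0,58467712⟩⟩⟩,⟨84934656,⟨⟨0,14448832⟩,⟨0,36813376⟩⟩⟩,⟨150994944,⟨⟨8886400,0⟩,⟨0,950656⟩⟩⟩,⟨251920384,⟨⟨0,1148864⟩,⟨0,25126272⟩⟩⟩,⟨419430400,⟨⟨0,566848⟩,⟨44365184,0⟩⟩⟩,⟨764411904,⟨⟨163392,0⟩,⟨0,13736192⟩⟩⟩]⟩,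
    ⟨⟨⟨9798738,0⟩,⟨407552047,0⟩⟩,⟨⟨132313,0⟩,⟨0,187959819⟩⟩,[⟨0,⟨⟨0,12543936⟩,⟨508976192,0⟩⟩⟩,⟨6553600,⟨⟨23300864,0⟩,⟨0,438748800⟩⟩⟩,⟨16777216,⟨⟨0,7990016⟩,⟨0,180624768⟩⟩⟩,⟨44302336,⟨⟨0,6005952⟩,⟨131360320,0⟩⟩⟩,⟨84934656,⟨⟨2595584,0⟩,⟨119565824,0⟩⟩⟩,⟨150994944,⟨⟨1613056,0⟩,⟨0,239236736⟩⟩⟩,⟨251920384,⟨⟨0,878080⟩,⟨78596992,0⟩⟩⟩,⟨419430400,⟨⟨0,222592⟩,⟨35573632,0⟩⟩⟩,⟨764411904,⟨⟨131072,0⟩,⟨0,15462656⟩⟩⟩]⟩,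
    ⟨⟨⟨4878489,0⟩,⟨210004691,0⟩⟩,⟨⟨0,1813366⟩,⟨81958209,0⟩⟩,[⟨0,⟨⟨0,9479104⟩,⟨96175872,0⟩⟩⟩,⟨6553600,⟨⟨3329856,0⟩,⟨0,412049536⟩⟩⟩,⟨16777216,⟨⟨0,15111040⟩,⟨687704000,0⟩⟩⟩,⟨44302336,⟨⟨92678784,0⟩,⟨0,636877824⟩⟩⟩,⟨84934656,⟨⟨0,176737536⟩,⟨295098560,0⟩⟩⟩,⟨150994944,⟨⟨177969920,0⟩,⟨0,31892416⟩⟩⟩,⟨251920384,⟨⟨0,135480896⟩,⟨1604288,0⟩⟩⟩,⟨419430400,⟨⟨85986176,0⟩,⟨234816,0⟩⟩⟩,⟨764411904,⟨⟨0,23156160⟩,⟨2240,0⟩⟩⟩]⟩⟩,9227469,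
    ⟨⟨⟨0,1487061⟩,⟨65186556,0⟩⟩,⟨⟨0,10613116⟩,⟨0,266367918⟩⟩,[⟨0,⟨⟨3024832,0⟩,⟨284292352,0⟩⟩⟩,⟨6553600,⟨⟨0,627712⟩,⟨0,389085440⟩⟩⟩,⟨16777216,⟨⟨225472,0⟩,⟨333273088,0⟩⟩⟩,⟨44302336,⟨⟨13114240,0⟩,⟨0,291000896⟩⟩⟩,⟨84934656,⟨⟨0,27713600⟩,⟨7002496,0⟩⟩⟩,⟨150994944,⟨⟨13714880,0⟩,⟨108932096,0⟩⟩⟩,⟨251920384,⟨⟨0,1165952⟩,⟨0,93310272⟩⟩⟩,⟨419430400,⟨⟨0,740160⟩,⟨54066624,0⟩⟩⟩,⟨764411904,⟨⟨168000,0⟩,⟨0,14170048⟩⟩⟩]⟩⟩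

theorem okCellCd : cellOK cellCd = true := by
  decide +kernel

end Vale.Agent.P237.All.Transport.Small.Wide
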