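import Vale.Agent.P237.All.Small.Wide.Cert

/-!
P237, every dimension, excess `k ≤ .8`: the constants of the cell, checked by the kernel
(`notes/P237h3/wide`).
-/

noncomputable section

namespace Vale.Agent.P237.All.Transport.Small.Wide

/-- The constants of the cell. -/
def cellDa : Cell :=
  ⟨⟨100663296,1006633,67109,46526559,⟨⟨369610,0⟩,⟨87502744,0⟩⟩,⟨⟨30503529,0⟩,⟨37059528,0⟩⟩,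
    ⟨⟨⟨5141586,0⟩,⟨0,20107435⟩⟩,⟨⟨0,2351158⟩,⟨0,524727842⟩⟩,[⟨0,⟨⟨0,12509696⟩,⟨1235494848,0⟩⟩⟩,⟨6553600,⟨⟨20837696,0⟩,⟨0,1023870784⟩⟩⟩,⟨16777216,⟨⟨2990208,0⟩,⟨0,211540672⟩⟩⟩,⟨44302336,⟨⟨0,12236480⟩,⟨0,52479552⟩⟩⟩,⟨84934656,⟨⟨0,3694528⟩,⟨6176000,0⟩⟩⟩,⟨150994944,⟨⟨4079808,0⟩,⟨108390720,0⟩⟩⟩,⟨251920384,⟨⟨1249792,0⟩,⟨0,77666560⟩⟩⟩,⟨419430400,⟨⟨0,715328⟩,⟨15623872,0⟩⟩⟩,⟨764411904,⟨⟨0,1472⟩,⟨0,127872⟩⟩⟩]⟩,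
    ⟨⟨⟨804017,0⟩,⟨1539087270,0⟩⟩,⟨⟨66448983,0⟩,⟨365401085,0⟩⟩,[⟨0,⟨⟨0,252948288⟩,⟨211504640,0⟩⟩⟩,⟨6553600,⟨⟨237888576,0⟩,⟨0,205500352⟩⟩⟩,⟨16777216,⟨⟨58643840,0⟩,⟨85341952,0⟩⟩⟩,⟨44302336,⟨⟨0,52442176⟩,⟨0,312809792⟩⟩⟩,⟨84934656,⟨⟨9751360,0⟩,⟨0,46084480⟩⟩⟩,⟨150994944,⟨⟨0,3518976⟩,⟨472416256,0⟩⟩⟩,⟨251920384,⟨⟨2507200,0⟩,⟨0,214207168⟩⟩⟩,⟨419430400,⟨⟨358912,0⟩,⟨2001152,0⟩⟩⟩,⟨764411904,⟨⟨0,240448⟩,⟨7337792,0⟩⟩⟩]⟩,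
    ⟨⟨⟨126487,0⟩,⟨192324190,0⟩⟩,⟨⟨0,4522247⟩,⟨0,373139135⟩⟩,[⟨0,⟨⟨110768768,0⟩,⟨0,709099840⟩⟩⟩,⟨6553600,⟨⟨0,202498176⟩,⟨752824000,0⟩⟩⟩,⟨16777216,⟨⟨39279424,0⟩,⟨195116736,0⟩⟩⟩,⟨44302336,⟨⟨70994624,0⟩,⟨0,196781056⟩⟩⟩,⟨84934656,⟨⟨0,56991360⟩,⟨23624128,0⟩⟩⟩,⟨150994944,⟨⟨35678976,0⟩,⟨0,66047744⟩⟩⟩,⟨251920384,⟨⟨58685696,0⟩,⟨0,11304064⟩⟩⟩,⟨419430400,⟨⟨0,72063040⟩,⟨11173184,0⟩⟩⟩,⟨764411904,⟨⟨16145088,0⟩,⟨494656,0⟩⟩⟩]⟩⟩,209715,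
    ⟨⟨⟨389580,0⟩,⟨0,47162205⟩⟩,⟨⟨0,11005097⟩,⟨133879982,0⟩⟩,[⟨0,⟨⟨23340160,0⟩,⟨0,779191936⟩⟩⟩,⟨6553600,⟨⟨0,18567808⟩,⟨846494592,0⟩⟩⟩,⟨16777216,⟨⟨0,4596672⟩,⟨336398976,0⟩⟩⟩,⟨44302336,⟨⟨2970752,0⟩,⟨0,506910080⟩⟩⟩,⟨84934656,⟨⟨0,6780224⟩,⟨10392384,0⟩⟩⟩,⟨150994944,⟨⟨4327872,0⟩,⟨95045376,0⟩⟩⟩,⟨251920384,⟨⟨0,520512⟩,⟨0,717184⟩⟩⟩,⟨419430400,⟨⟨0,199296⟩,⟨1117376,0⟩⟩⟩,⟨764411904,⟨⟨25728,0⟩,⟨0,2629504⟩⟩⟩]⟩⟩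

theorem okCellDa : cellOK cellDa = true := by
  decide +kernel

end Vale.Agent.P237.All.Transport.Small.Wide
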