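import Vale.Agent.P237.All.Small.Wide.Cert

/-!
P237, every dimension, excess `k ≤ .8`: the constants of the cell, checked by the kernel
(`notes/P237h3/wide`).
-/

noncomputable section

namespace Vale.Agent.P237.All.Transport.Small.Wide

/-- The constants of the cell. -/
def cellDb : Cell :=
  ⟨⟨77175194,2348810,67109,20205711,⟨⟨531636,0⟩,⟨101343780,0⟩⟩,⟨⟨32719816,0⟩,⟨0,245312594⟩⟩,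
    ⟨⟨⟨516418,0⟩,⟨114025594,0⟩⟩,⟨⟨0,8947000⟩,⟨0,34646906⟩⟩,[⟨0,⟨⟨27532672,0⟩,⟨0,1221525824⟩⟩⟩,⟨6553600,⟨⟨0,29658624⟩,⟨1795999360,0⟩⟩⟩,⟨16777216,⟨⟨4987584,0⟩,⟨0,303142272⟩⟩⟩,⟨44302336,⟨⟨0,3422848⟩,⟨0,158290880⟩⟩⟩,⟨84934656,⟨⟨0,2181120⟩,⟨0,250527616⟩⟩⟩,⟨150994944,⟨⟨4099904,0⟩,⟨93607104,0⟩⟩⟩,⟨251920384,⟨⟨0,1412480⟩,⟨64812992,0⟩⟩⟩,⟨419430400,⟨⟨22400,0⟩,⟨0,19029696⟩⟩⟩,⟨764411904,⟨⟨32512,0⟩,⟨0,1903168⟩⟩⟩]⟩,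
    ⟨⟨⟨7855302,0⟩,⟨779262425,0⟩⟩,⟨⟨68906664,0⟩,⟨74218148,0⟩⟩,[⟨0,⟨⟨0,246585920⟩,⟨0,260564736⟩⟩⟩,⟨6553600,⟨⟨213378944,0⟩,⟨2177019712,0⟩⟩⟩,⟨16777216,⟨⟨80211840,0⟩,⟨0,2383862144⟩⟩⟩,⟨44302336,⟨⟨0,50402432⟩,⟨0,197346624⟩⟩⟩,⟨84934656,⟨⟨0,3865088⟩,⟨1027333120,0⟩⟩⟩,⟨150994944,⟨⟨7517120,0⟩,⟨0,308611200⟩⟩⟩,⟨251920384,⟨⟨246528,0⟩,⟨0,109757440⟩⟩⟩,⟨419430400,⟨⟨0,460800⟩,⟨57794368,0⟩⟩⟩,⟨764411904,⟨⟨0,40192⟩,⟨0,2005056⟩⟩⟩]⟩,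
    ⟨⟨⟨0,4066547⟩,⟨492157618,0⟩⟩,⟨⟨0,3540509⟩,⟨0,553277318⟩⟩,[⟨0,⟨⟨118400256,0⟩,⟨0,1500064512⟩⟩⟩,⟨6553600,⟨⟨0,220701504⟩,⟨2685656832,0⟩⟩⟩,⟨16777216,⟨⟨51008000,0⟩,⟨0,1055082048⟩⟩⟩,⟨44302336,⟨⟨69558464,0⟩,⟨0,64714880⟩⟩⟩,⟨84934656,⟨⟨0,56147584⟩,⟨0,44321344⟩⟩⟩,⟨150994944,⟨⟨35108992,0⟩,⟨0,21846848⟩⟩⟩,⟨251920384,⟨⟨58589760,0⟩,⟨368896,0⟩⟩⟩,⟨419430400,⟨⟨0,71957376⟩,⟨0,1891264⟩⟩⟩,⟨764411904,⟨⟨16140992,0⟩,⟨1895168,0⟩⟩⟩]⟩⟩,1006633,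
    ⟨⟨⟨0,2249873⟩,⟨81039045,0⟩⟩,⟨⟨0,3632445⟩,⟨0,524770738⟩⟩,[⟨0,⟨⟨22850112,0⟩,⟨0,99808384⟩⟩⟩,⟨6553600,⟨⟨0,33374848⟩,⟨833856448,0⟩⟩⟩,⟨16777216,⟨⟨12871232,0⟩,⟨0,805841856⟩⟩⟩,⟨44302336,⟨⟨0,3465728⟩,⟨526356992,0⟩⟩⟩,⟨84934656,⟨⟨0,978688⟩,⟨0,625447488⟩⟩⟩,⟨150994944,⟨⟨5210752,0⟩,⟨26339648,0⟩⟩⟩,⟨251920384,⟨⟨0,4468928⟩,⟨229205440,0⟩⟩⟩,⟨419430400,⟨⟨1504704,0⟩,⟨0,92907008⟩⟩⟩,⟨764411904,⟨⟨0,148608⟩,⟨8246208,0⟩⟩⟩]⟩⟩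

theorem okCellDb : cellOK cellDb = true := by
  decide +kernel

end Vale.Agent.P237.All.Transport.Small.Wide
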