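import Vale.Agent.P237.All.Small.Wide.Cert

/-!
P237, every dimension, excess `k ≤ .8`: the constants of the cell, checked by the kernel
(`notes/P237h3/wide`).
-/

noncomputable section

namespace Vale.Agent.P237.All.Transport.Small.Wide

/-- The constants of the cell. -/
def cellDc : Cell :=
  ⟨⟨57042534,5033165,67109,5988364,⟨⟨1481656,0⟩,⟨78272868,0⟩⟩,⟨⟨32102179,0⟩,⟨0,212999676⟩⟩,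
    ⟨⟨⟨1049424,0⟩,⟨0,15367250⟩⟩,⟨⟨0,5057535⟩,⟨0,10119472⟩⟩,[⟨0,⟨⟨0,4428736⟩,⟨0,196719424⟩⟩⟩,⟨6553600,⟨⟨13812352,0⟩,⟨79576256,0⟩⟩⟩,⟨16777216,⟨⟨0,3947392⟩,⟨144003072,0⟩⟩⟩,⟨44302336,⟨⟨0,5892416⟩,⟨0,31837568⟩⟩⟩,⟨84934656,⟨⟨0,1222080⟩,⟨3663872,0⟩⟩⟩,⟨150994944,⟨⟨1695232,0⟩,⟨10974080,0⟩⟩⟩,⟨251920384,⟨⟨0,244480⟩,⟨9895872,0⟩⟩⟩,⟨419430400,⟨⟨326400,0⟩,⟨0,25482496⟩⟩⟩,⟨764411904,⟨⟨0,98880⟩,⟨5926336,0⟩⟩⟩]⟩,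
    ⟨⟨⟨10789701,0⟩,⟨490502546,0⟩⟩,⟨⟨5206562,0⟩,⟨0,55808201⟩⟩,[⟨0,⟨⟨0,36564160⟩,⟨0,270867840⟩⟩⟩,⟨6553600,⟨⟨33322560,0⟩,⟨861677056,0⟩⟩⟩,⟨16777216,⟨⟨22859712,0⟩,⟨0,852125696⟩⟩⟩,⟨44302336,⟨⟨0,28719104⟩,⟨326896768,0⟩⟩⟩,⟨84934656,⟨⟨9140544,0⟩,⟨0,38650624⟩⟩⟩,⟨150994944,⟨⟨490560,0⟩,⟨0,31379968⟩⟩⟩,⟨251920384,⟨⟨0,808384⟩,⟨0,12769216⟩⟩⟩,⟨419430400,⟨⟨294848,0⟩,⟨25202432,0⟩⟩⟩,⟨764411904,⟨⟨0,16576⟩,⟨0,7982912⟩⟩⟩]⟩,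
    ⟨⟨⟨4151034,0⟩,⟨183684343,0⟩⟩,⟨⟨841372,0⟩,⟨0,143309184⟩⟩,[⟨0,⟨⟨0,8938752⟩,⟨0,390459392⟩⟩⟩,⟨6553600,⟨⟨0,1081024⟩,⟨743207744,0⟩⟩⟩,⟨16777216,⟨⟨0,54188480⟩,⟨0,386137920⟩⟩⟩,⟨44302336,⟨⟨170713984,0⟩,⟨80404224,0⟩⟩⟩,⟨84934656,⟨⟨0,222179264⟩,⟨0,41434624⟩⟩⟩,⟨150994944,⟨⟨187090496,0⟩,⟨0,5602432⟩⟩⟩,⟨251920384,⟨⟨0,92573632⟩,⟨18112,0⟩⟩⟩,⟨419430400,⟨⟨25691008,0⟩,⟨4224,0⟩⟩⟩,⟨764411904,⟨⟨0,4534336⟩,⟨64,0⟩⟩⟩]⟩⟩,2348810,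
    ⟨⟨⟨0,2154864⟩,⟨67799129,0⟩⟩,⟨⟨0,8406264⟩,⟨0,187318868⟩⟩,[⟨0,⟨⟨15738624,0⟩,⟨0,490931840⟩⟩⟩,⟨6553600,⟨⟨0,14800448⟩,⟨692265472,0⟩⟩⟩,⟨16777216,⟨⟨0,3469184⟩,⟨0,94087808⟩⟩⟩,⟨44302336,⟨⟨11498688,0⟩,⟨0,59019136⟩⟩⟩,⟨84934656,⟨⟨0,13389760⟩,⟨0,55328384⟩⟩⟩,⟨150994944,⟨⟨4759232,0⟩,⟨0,21555200⟩⟩⟩,⟨251920384,⟨⟨0,582272⟩,⟨57703808,0⟩⟩⟩,⟨419430400,⟨⟨340032,0⟩,⟨0,35175104⟩⟩⟩,⟨764411904,⟨⟨0,94912⟩,⟨6128192,0⟩⟩⟩]⟩⟩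

theorem okCellDc : cellOK cellDc = true := by
  decide +kernel

end Vale.Agent.P237.All.Transport.Small.Wide
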