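import Vale.Agent.P237.All.Small.Wide.Cert

/-!
P237, every dimension, excess `k ≤ .8`: the constants of the cell, checked by the kernel
(`notes/P237h3/wide`).
-/

noncomputable section

namespace Vale.Agent.P237.All.Transport.Small.Wide

/-- The constants of the cell. -/
def cellDd : Cell :=
  ⟨⟨41943040,8388608,67109,1,⟨⟨2056784,0⟩,⟨88287667,0⟩⟩,⟨⟨35837627,0⟩,⟨0,558308000⟩⟩,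
    ⟨⟨⟨0,717603⟩,⟨34342953,0⟩⟩,⟨⟨4884859,0⟩,⟨0,887304275⟩⟩,[⟨0,⟨⟨0,39672704⟩,⟨2829860864,0⟩⟩⟩,⟨6553600,⟨⟨55804032,0⟩,⟨0,3788324032⟩⟩⟩,⟨16777216,⟨⟨0,9366464⟩,⟨870310400,0⟩⟩⟩,⟨44302336,⟨⟨0,3955136⟩,⟨335861888,0⟩⟩⟩,⟨84934656,⟨⟨0,10070528⟩,⟨0,248636544⟩⟩⟩,⟨150994944,⟨⟨8926080,0⟩,⟨2051072,0⟩⟩⟩,⟨251920384,⟨⟨0,1285120⟩,⟨0,25124480⟩⟩⟩,⟨419430400,⟨⟨0,494208⟩,⟨31158720,0⟩⟩⟩,⟨764411904,⟨⟨114048,0⟩,⟨0,7157888⟩⟩⟩]⟩,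
    ⟨⟨⟨2344680,0⟩,⟨943207534,0⟩⟩,⟨⟨0,627561⟩,⟨57863220,0⟩⟩,[⟨0,⟨⟨25685504,0⟩,⟨0,3246123584⟩⟩⟩,⟨6553600,⟨⟨0,43649408⟩,⟨5440013760,0⟩⟩⟩,⟨16777216,⟨⟨24381760,0⟩,⟨0,2300194176⟩⟩⟩,⟨44302336,⟨⟨0,10590912⟩,⟨94983808,0⟩⟩⟩,⟨84934656,⟨⟨4574016,0⟩,⟨40958720,0⟩⟩⟩,⟨150994944,⟨⟨0,210176⟩,⟨0,13479808⟩⟩⟩,⟨251920384,⟨⟨0,95232⟩,⟨0,73231424⟩⟩⟩,⟨419430400,⟨⟨0,220160⟩,⟨78033280,0⟩⟩⟩,⟨764411904,⟨⟨124608,0⟩,⟨0,20960576⟩⟩⟩]⟩,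
    ⟨⟨⟨6718347,0⟩,⟨95297775,0⟩⟩,⟨⟨0,1572259⟩,⟨0,5729524⟩⟩,[⟨0,⟨⟨0,22770816⟩,⟨95109632,0⟩⟩⟩,⟨6553600,⟨⟨24827456,0⟩,⟨0,540572736⟩⟩⟩,⟨16777216,⟨⟨0,45638656⟩,⟨1405062336,0⟩⟩⟩,⟨44302336,⟨⟨130091712,0⟩,⟨0,1544535296⟩⟩⟩,⟨84934656,⟨⟨0,191940928⟩,⟨606689152,0⟩⟩⟩,⟨150994944,⟨⟨178148544,0⟩,⟨0,22186688⟩⟩⟩,⟨251920384,⟨⟨0,135540928⟩,⟨363328,0⟩⟩⟩,⟨419430400,⟨⟨85979840,0⟩,⟨69696,0⟩⟩⟩,⟨764411904,⟨⟨0,23156224⟩,⟨576,0⟩⟩⟩]⟩⟩,5033165,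
    ⟨⟨⟨2074187,0⟩,⟨0,176563170⟩⟩,⟨⟨0,19438211⟩,⟨420972440,0⟩⟩,[⟨0,⟨⟨22383488,0⟩,⟨0,1319557504⟩⟩⟩,⟨6553600,⟨⟨0,8889152⟩,⟨799490368,0⟩⟩⟩,⟨16777216,⟨⟨0,9920320⟩,⟨463683456,0⟩⟩⟩,⟨44302336,⟨⟨6021696,0⟩,⟨363353536,0⟩⟩⟩,⟨84934656,⟨⟨0,17191360⟩,⟨0,507759488⟩⟩⟩,⟨150994944,⟨⟨6714368,0⟩,⟨371785664,0⟩⟩⟩,⟨251920384,⟨⟨1814592,0⟩,⟨0,223470848⟩⟩⟩,⟨419430400,⟨⟨0,969344⟩,⟨54728768,0⟩⟩⟩,⟨764411904,⟨⟨36032,0⟩,⟨0,2253952⟩⟩⟩]⟩⟩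

theorem okCellDd : cellOK cellDd = true := by
  decide +kernel

end Vale.Agent.P237.All.Transport.Small.Wide
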