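import Vale.Agent.P237.All.Small.Wide.Cert

/-!
P237, every dimension, excess `k ≤ .8`: the constants of the cell, checked by the kernel
(`notes/P237h3/wide`).
-/

noncomputable section

namespace Vale.Agent.P237.All.Transport.Small.Wide

/-- The constants of the cell. -/
def cellDe : Cell :=
  ⟨⟨33554432,11408507,67109,1,⟨⟨2778700,0⟩,⟨91443125,0⟩⟩,⟨⟨29171988,0⟩,⟨0,443488844⟩⟩,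
    ⟨⟨⟨278200,0⟩,⟨0,42086057⟩⟩,⟨⟨0,12150371⟩,⟨0,23714702⟩⟩,[⟨0,⟨⟨15104896,0⟩,⟨0,360540736⟩⟩⟩,⟨6553600,⟨⟨0,18677056⟩,⟨652130688,0⟩⟩⟩,⟨16777216,⟨⟨12153216,0⟩,⟨0,502501248⟩⟩⟩,⟨44302336,⟨⟨0,9020800⟩,⟨937555264,0⟩⟩⟩,⟨84934656,⟨⟨12864,0⟩,⟨0,1289779200⟩⟩⟩,⟨150994944,⟨⟨0,771648⟩,⟨718216320,0⟩⟩⟩,⟨251920384,⟨⟨1742848,0⟩,⟨0,170413120⟩⟩⟩,⟨419430400,⟨⟨0,599296⟩,⟨15845824,0⟩⟩⟩,⟨764411904,⟨⟨54976,0⟩,⟨0,513792⟩⟩⟩]⟩,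
    ⟨⟨⟨10441688,0⟩,⟨494089431,0⟩⟩,⟨⟨0,1232021⟩,⟨0,111473114⟩⟩,[⟨0,⟨⟨0,9480448⟩,⟨292498624,0⟩⟩⟩,⟨6553600,⟨⟨25323072,0⟩,⟨0,727707456⟩⟩⟩,⟨16777216,⟨⟨0,14916992⟩,⟨543429312,0⟩⟩⟩,⟨44302336,⟨⟨0,4671680⟩,⟨0,64863680⟩⟩⟩,⟨84934656,⟨⟨4958272,0⟩,⟨0,59244608⟩⟩⟩,⟨150994944,⟨⟨0,1285504⟩,⟨14918208,0⟩⟩⟩,⟨251920384,⟨⟨196160,0⟩,⟨0,20216704⟩⟩⟩,⟨419430400,⟨⟨0,255360⟩,⟨33820480,0⟩⟩⟩,⟨764411904,⟨⟨132480,0⟩,⟨0,12634176⟩⟩⟩]⟩,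
    ⟨⟨⟨2984764,0⟩,⟨355593513,0⟩⟩,⟨⟨0,2102353⟩,⟨134374917,0⟩⟩,[⟨0,⟨⟨0,10982208⟩,⟨0,5413952⟩⟩⟩,⟨6553600,⟨⟨1178368,0⟩,⟨257286656,0⟩⟩⟩,⟨16777216,⟨⟨0,7768704⟩,⟨0,21878656⟩⟩⟩,⟨44302336,⟨⟨88106944,0⟩,⟨0,697282944⟩⟩⟩,⟨84934656,⟨⟨0,176049408⟩,⟨595264576,0⟩⟩⟩,⟨150994944,⟨⟨178149632,0⟩,⟨0,130305728⟩⟩⟩,⟨251920384,⟨⟨0,135437056⟩,⟨2016960,0⟩⟩⟩,⟨419430400,⟨⟨85948288,0⟩,⟨0,568384⟩⟩⟩,⟨764411904,⟨⟨0,23145856⟩,⟨881472,0⟩⟩⟩]⟩⟩,8388608,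
    ⟨⟨⟨0,216427⟩,⟨0,38748364⟩⟩,⟨⟨0,11474005⟩,⟨0,212775470⟩⟩,[⟨0,⟨⟨7183104,0⟩,⟨0,93683520⟩⟩⟩,⟨6553600,⟨⟨0,10565120⟩,⟨566185664,0⟩⟩⟩,⟨16777216,⟨⟨9797760,0⟩,⟨0,588745920⟩⟩⟩,⟨44302336,⟨⟨13091840,0⟩,⟨0,68510464⟩⟩⟩,⟨84934656,⟨⟨0,38854400⟩,⟨507747776,0⟩⟩⟩,⟨150994944,⟨⟨25247808,0⟩,⟨0,501795072⟩⟩⟩,⟨251920384,⟨⟨0,6502976⟩,⟨218611136,0⟩⟩⟩,⟨419430400,⟨⟨584896,0⟩,⟨0,39520448⟩⟩⟩,⟨764411904,⟨⟨17088,0⟩,⟨0,289152⟩⟩⟩]⟩⟩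

theorem okCellDe : cellOK cellDe = true := by
  decide +kernel

end Vale.Agent.P237.All.Transport.Small.Wide
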