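import Vale.Agent.P237.All.Small.Wide.Cert

/-!
P237, every dimension, excess `k ≤ .8`: the constants of the cell, checked by the kernel
(`notes/P237h3/wide`).
-/

noncomputable section

namespace Vale.Agent.P237.All.Transport.Small.Wide

/-- The constants of the cell. -/
def cellDf : Cell :=
  ⟨⟨29360128,13421773,67109,1,⟨⟨3012735,0⟩,⟨103493361,0⟩⟩,⟨⟨37284594,0⟩,⟨0,1090767343⟩⟩,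
    ⟨⟨⟨150628,0⟩,⟨0,31566785⟩⟩,⟨⟨0,5713218⟩,⟨0,413103336⟩⟩,[⟨0,⟨⟨12053056,0⟩,⟨0,540954816⟩⟩⟩,⟨6553600,⟨⟨0,18456448⟩,⟨1323670784,0⟩⟩⟩,⟨16777216,⟨⟨14657664,0⟩,⟨0,930856256⟩⟩⟩,⟨44302336,⟨⟨0,20672640⟩,⟨1699172608,0⟩⟩⟩,⟨84934656,⟨⟨16955584,0⟩,⟨0,2554670208⟩⟩⟩,⟨150994944,⟨⟨0,2035264⟩,⟨949789696,0⟩⟩⟩,⟨251920384,⟨⟨0,3554944⟩,⟨138986752,0⟩⟩⟩,⟨419430400,⟨⟨1006208,0⟩,⟨0,82231232⟩⟩⟩,⟨764411904,⟨⟨46784,0⟩,⟨0,2907328⟩⟩⟩]⟩,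
    ⟨⟨⟨6808941,0⟩,⟨700352718,0⟩⟩,⟨⟨0,2343310⟩,⟨14916746,0⟩⟩,[⟨0,⟨⟨0,11808768⟩,⟨861387840,0⟩⟩⟩,⟨6553600,⟨⟨26772800,0⟩,⟨0,1712438528⟩⟩⟩,⟨16777216,⟨⟨0,11974400⟩,⟨800406848,0⟩⟩⟩,⟨44302336,⟨⟨0,6462976⟩,⟨129042432,0⟩⟩⟩,⟨84934656,⟨⟨3913024,0⟩,⟨0,38757184⟩⟩⟩,⟨150994944,⟨⟨0,383360⟩,⟨0,54234496⟩⟩⟩,⟨251920384,⟨⟨137792,0⟩,⟨0,12496256⟩⟩⟩,⟨419430400,⟨⟨0,323648⟩,⟨39860032,0⟩⟩⟩,⟨764411904,⟨⟨129536,0⟩,⟨0,12770688⟩⟩⟩]⟩,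
    ⟨⟨⟨1972140,0⟩,⟨690765798,0⟩⟩,⟨⟨0,2524140⟩,⟨194450749,0⟩⟩,[⟨0,⟨⟨13271360,0⟩,⟨0,1294910720⟩⟩⟩,⟨6553600,⟨⟨0,35405120⟩,⟨2735060864,0⟩⟩⟩,⟨16777216,⟨⟨0,17983936⟩,⟨106116544,0⟩⟩⟩,⟨44302336,⟨⟨130013376,0⟩,⟨0,3285401472⟩⟩⟩,⟨84934656,⟨⟨0,198333312⟩,⟨2030059456,0⟩⟩⟩,⟨150994944,⟨⟨181080448,0⟩,⟨0,293522048⟩⟩⟩,⟨251920384,⟨⟨0,135446144⟩,⟨2233664,0⟩⟩⟩,⟨419430400,⟨⟨85950464,0⟩,⟨0,480256⟩⟩⟩,⟨764411904,⟨⟨0,23147136⟩,⟨843968,0⟩⟩⟩]⟩⟩,11408507,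
    ⟨⟨⟨782560,0⟩,⟨0,72235629⟩⟩,⟨⟨0,5958574⟩,⟨0,546690549⟩⟩,[⟨0,⟨⟨10156288,0⟩,⟨0,365702528⟩⟩⟩,⟨6553600,⟨⟨0,12358784⟩,⟨984451776,0⟩⟩⟩,⟨16777216,⟨⟨5091200,0⟩,⟨0,391812352⟩⟩⟩,⟨44302336,⟨⟨2266560,0⟩,⟨409248768,0⟩⟩⟩,⟨84934656,⟨⟨0,10708800⟩,⟨0,1212765632⟩⟩⟩,⟨150994944,⟨⟨7100800,0⟩,⟨649793664,0⟩⟩⟩,⟨251920384,⟨⟨0,1584320⟩,⟨0,55478528⟩⟩⟩,⟨419430400,⟨⟨0,9728⟩,⟨0,15196800⟩⟩⟩,⟨764411904,⟨⟨46784,0⟩,⟨0,2538368⟩⟩⟩]⟩⟩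

theorem okCellDf : cellOK cellDf = true := by
  decide +kernel

end Vale.Agent.P237.All.Transport.Small.Wide
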