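import Vale.Agent.P237.All.Small.Wide.Cert

/-!
P237, every dimension, excess `k ≤ .8`: the constants of the cell, checked by the kernel
(`notes/P237h3/wide`).
-/

noncomputable section

namespace Vale.Agent.P237.All.Transport.Small.Wide

/-- The constants of the cell. -/
def cellEa : Cell :=
  ⟨⟨109051904,1006633,67109,46526559,⟨⟨0,286034⟩,⟨125146120,0⟩⟩,⟨⟨30202176,0⟩,⟨52394205,0⟩⟩,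
    ⟨⟨⟨5158861,0⟩,⟨0,14549445⟩⟩,⟨⟨0,2533187⟩,⟨0,491264638⟩⟩,[⟨0,⟨⟨0,12737280⟩,⟨1175351488,0⟩⟩⟩,⟨6553600,⟨⟨23068032,0⟩,⟨0,1089113600⟩⟩⟩,⟨16777216,⟨⟨386752,0⟩,⟨0,36161728⟩⟩⟩,⟨44302336,⟨⟨0,11498816⟩,⟨0,116760256⟩⟩⟩,⟨84934656,⟨⟨0,3767616⟩,⟨16539968,0⟩⟩⟩,⟨150994944,⟨⟨3953280,0⟩,⟨115582400,0⟩⟩⟩,⟨251920384,⟨⟨1263104,0⟩,⟨0,77432768⟩⟩⟩,⟨419430400,⟨⟨0,650304⟩,⟨11142656,0⟩⟩⟩,⟨764411904,⟨⟨0,17152⟩,⟨851840,0⟩⟩⟩]⟩,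
    ⟨⟨⟨1532999,0⟩,⟨1509688554,0⟩⟩,⟨⟨66768598,0⟩,⟨346354185,0⟩⟩,[⟨0,⟨⟨0,252235456⟩,⟨198720384,0⟩⟩⟩,⟨6553600,⟨⟨237747712,0⟩,⟨0,218166592⟩⟩⟩,⟨16777216,⟨⟨58194304,0⟩,⟨106264832,0⟩⟩⟩,⟨44302336,⟨⟨0,52515456⟩,⟨0,311726656⟩⟩⟩,⟨84934656,⟨⟨9720512,0⟩,⟨0,43125120⟩⟩⟩,⟨150994944,⟨⟨0,3593984⟩,⟨477136640,0⟩⟩⟩,⟨251920384,⟨⟨2534912,0⟩,⟨0,216110144⟩⟩⟩,⟨419430400,⟨⟨353472,0⟩,⟨80576,0⟩⟩⟩,⟨764411904,⟨⟨0,206016⟩,⟨6926080,0⟩⟩⟩]⟩,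
    ⟨⟨⟨48080,0⟩,⟨218554360,0⟩⟩,⟨⟨0,4533433⟩,⟨0,369470409⟩⟩,[⟨0,⟨⟨110775808,0⟩,⟨0,701293504⟩⟩⟩,⟨6553600,⟨⟨0,202511488⟩,⟨756583104,0⟩⟩⟩,⟨16777216,⟨⟨39311168,0⟩,⟨180112832,0⟩⟩⟩,⟨44302336,⟨⟨70960832,0⟩,⟨0,194750016⟩⟩⟩,⟨84934656,⟨⟨0,57000000⟩,⟨21020224,0⟩⟩⟩,⟨150994944,⟨⟨35688832,0⟩,⟨0,60974144⟩⟩⟩,⟨251920384,⟨⟨58703488,0⟩,⟨0,11555776⟩⟩⟩,⟨419430400,⟨⟨0,72074048⟩,⟨10197056,0⟩⟩⟩,⟨764411904,⟨⟨16145408,0⟩,⟨660224,0⟩⟩⟩]⟩⟩,209715,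
    ⟨⟨⟨0,161946⟩,⟨0,14896431⟩⟩,⟨⟨0,11082959⟩,⟨131634623,0⟩⟩,[⟨0,⟨⟨23653888,0⟩,⟨0,783670784⟩⟩⟩,⟨6553600,⟨⟨0,18695232⟩,⟨790054656,0⟩⟩⟩,⟨16777216,⟨⟨0,4549632⟩,⟨388802368,0⟩⟩⟩,⟨44302336,⟨⟨2601344,0⟩,⟨0,484031488⟩⟩⟩,⟨84934656,⟨⟨0,6517248⟩,⟨0,11693248⟩⟩⟩,⟨150994944,⟨⟨4175872,0⟩,⟨104574464,0⟩⟩⟩,⟨251920384,⟨⟨0,303616⟩,⟨0,10672448⟩⟩⟩,⟨419430400,⟨⟨0,511488⟩,⟨15160192,0⟩⟩⟩,⟨764411904,⟨⟨146112,0⟩,⟨0,8523712⟩⟩⟩]⟩⟩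

theorem okCellEa : cellOK cellEa = true := by
  decide +kernel

end Vale.Agent.P237.All.Transport.Small.Wide
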