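import Vale.Agent.P237.All.Small.Wide.Cert

/-!
P237, every dimension, excess `k ≤ .8`: the constants of the cell, checked by the kernel
(`notes/P237h3/wide`).
-/

noncomputable section

namespace Vale.Agent.P237.All.Transport.Small.Wide

/-- The constants of the cell. -/
def cellEb : Cell :=
  ⟨⟨80530637,2348810,67109,20205711,⟨⟨0,130854⟩,⟨142472873,0⟩⟩,⟨⟨32506007,0⟩,⟨0,196355000⟩⟩,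
    ⟨⟨⟨0,531785⟩,⟨156440157,0⟩⟩,⟨⟨0,9628069⟩,⟨0,15792744⟩⟩,[⟨0,⟨⟨26883008,0⟩,⟨0,982153600⟩⟩⟩,⟨6553600,⟨⟨0,27541312⟩,⟨1386893120,0⟩⟩⟩,⟨16777216,⟨⟨4085120,0⟩,⟨0,144719488⟩⟩⟩,⟨44302336,⟨⟨0,3596992⟩,⟨0,182533184⟩⟩⟩,⟨84934656,⟨⟨0,2495744⟩,⟨0,222373120⟩⟩⟩,⟨150994944,⟨⟨4055936,0⟩,⟨98864896,0⟩⟩⟩,⟨251920384,⟨⟨0,1478464⟩,⟨69671168,0⟩⟩⟩,⟨419430400,⟨⟨0,41088⟩,⟨0,16366720⟩⟩⟩,⟨764411904,⟨⟨129536,0⟩,⟨0,7283072⟩⟩⟩]⟩,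
    ⟨⟨⟨7763539,0⟩,⟨892996682,0⟩⟩,⟨⟨69086094,0⟩,⟨110839033,0⟩⟩,[⟨0,⟨⟨0,246688512⟩,⟨0,180987968⟩⟩⟩,⟨6553600,⟨⟨211446336,0⟩,⟨2022035456,0⟩⟩⟩,⟨16777216,⟨⟨83807488,0⟩,⟨0,2340004608⟩⟩⟩,⟨44302336,⟨⟨0,51708736⟩,⟨0,207003840⟩⟩⟩,⟨84934656,⟨⟨0,4169216⟩,⟨1072608064,0⟩⟩⟩,⟨150994944,⟨⟨7300032,0⟩,⟨0,294388608⟩⟩⟩,⟨251920384,⟨⟨547712,0⟩,⟨0,128019456⟩⟩⟩,⟨419430400,⟨⟨0,524672⟩,⟨57935168,0⟩⟩⟩,⟨764411904,⟨⟨0,10432⟩,⟨0,2174208⟩⟩⟩]⟩,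
    ⟨⟨⟨0,4080655⟩,⟨509177013,0⟩⟩,⟨⟨0,2831620⟩,⟨0,532976572⟩⟩,[⟨0,⟨⟨118404736,0⟩,⟨0,1326888192⟩⟩⟩,⟨6553600,⟨⟨0,221062144⟩,⟨2402357504,0⟩⟩⟩,⟨16777216,⟨⟨51089408,0⟩,⟨0,941631360⟩⟩⟩,⟨44302336,⟨⟨69816256,0⟩,⟨0,78844736⟩⟩⟩,⟨84934656,⟨⟨0,56131072⟩,⟨0,33558144⟩⟩⟩,⟨150994944,⟨⟨35109440,0⟩,⟨0,21806080⟩⟩⟩,⟨251920384,⟨⟨58589760,0⟩,⟨367424,0⟩⟩⟩,⟨419430400,⟨⟨0,71957376⟩,⟨0,1891584⟩⟩⟩,⟨764411904,⟨⟨16140992,0⟩,⟨1895168,0⟩⟩⟩]⟩⟩,1006633,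
    ⟨⟨⟨0,6978792⟩,⟨309399210,0⟩⟩,⟨⟨0,4284429⟩,⟨0,350121006⟩⟩,[⟨0,⟨⟨27809728,0⟩,⟨0,624538880⟩⟩⟩,⟨6553600,⟨⟨0,50281216⟩,⟨2003993856,0⟩⟩⟩,⟨16777216,⟨⟨28746112,0⟩,⟨0,1707028544⟩⟩⟩,⟨44302336,⟨⟨0,8416896⟩,⟨838743360,0⟩⟩⟩,⟨84934656,⟨⟨82752,0⟩,⟨0,681691712⟩⟩⟩,⟨150994944,⟨⟨5808192,0⟩,⟨0,936064⟩⟩⟩,⟨251920384,⟨⟨0,4922816⟩,⟨243302464,0⟩⟩⟩,⟨419430400,⟨⟨1139648,0⟩,⟨0,69974720⟩⟩⟩,⟨764411904,⟨⟨34496,0⟩,⟨0,1869760⟩⟩⟩]⟩⟩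

theorem okCellEb : cellOK cellEb = true := by
  decide +kernel

end Vale.Agent.P237.All.Transport.Small.Wide
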