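import Vale.Agent.P237.All.Small.Wide.Cert

/-!
P237, every dimension, excess `k ≤ .8`: the constants of the cell, checked by the kernel
(`notes/P237h3/wide`).
-/

noncomputable section

namespace Vale.Agent.P237.All.Transport.Small.Wide

/-- The constants of the cell. -/
def cellEc : Cell :=
  ⟨⟨63753421,3690988,67109,5988364,⟨⟨1316350,0⟩,⟨74838404,0⟩⟩,⟨⟨25111801,0⟩,⟨185912189,0⟩⟩,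
    ⟨⟨⟨0,1297887⟩,⟨78441051,0⟩⟩,⟨⟨0,8768138⟩,⟨0,104971265⟩⟩,[⟨0,⟨⟨22449536,0⟩,⟨0,354617088⟩⟩⟩,⟨6553600,⟨⟨0,17018752⟩,⟨0,62707008⟩⟩⟩,⟨16777216,⟨⟨0,5721664⟩,⟨721838592,0⟩⟩⟩,⟨44302336,⟨⟨3772480,0⟩,⟨0,238944512⟩⟩⟩,⟨84934656,⟨⟨0,8371520⟩,⟨0,92922752⟩⟩⟩,⟨150994944,⟨⟨7113984,0⟩,⟨0,33386752⟩⟩⟩,⟨251920384,⟨⟨0,2742336⟩,⟨92535296,0⟩⟩⟩,⟨419430400,⟨⟨507776,0⟩,⟨0,32037440⟩⟩⟩,⟨764411904,⟨⟨10496,0⟩,⟨241664,0⟩⟩⟩]⟩,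
    ⟨⟨⟨12188221,0⟩,⟨172878641,0⟩⟩,⟨⟨75714935,0⟩,⟨0,646507854⟩⟩,[⟨0,⟨⟨0,248421568⟩,⟨127046592,0⟩⟩⟩,⟨6553600,⟨⟨182356160,0⟩,⟨6058758784,0⟩⟩⟩,⟨16777216,⟨⟨119136320,0⟩,⟨0,8215091584⟩⟩⟩,⟨44302336,⟨⟨0,59610752⟩,⟨1761382144,0⟩⟩⟩,⟨84934656,⟨⟨4698496,0⟩,⟨432732288,0⟩⟩⟩,⟨150994944,⟨⟨2566464,0⟩,⟨0,185262464⟩⟩⟩,⟨251920384,⟨⟨0,1495680⟩,⟨42869248,0⟩⟩⟩,⟨419430400,⟨⟨816000,0⟩,⟨0,19738496⟩⟩⟩,⟨764411904,⟨⟨0,45440⟩,⟨0,2696512⟩⟩⟩]⟩,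
    ⟨⟨⟨0,6619429⟩,⟨894840498,0⟩⟩,⟨⟨1408237,0⟩,⟨0,1164951681⟩⟩,[⟨0,⟨⟨155097152,0⟩,⟨0,5664164224⟩⟩⟩,⟨6553600,⟨⟨0,282996224⟩,⟨9992827968,0⟩⟩⟩,⟨16777216,⟨⟨78353728,0⟩,⟨0,4435935744⟩⟩⟩,⟨44302336,⟨⟨65218944,0⟩,⟨455246464,0⟩⟩⟩,⟨84934656,⟨⟨0,53626880⟩,⟨0,318871040⟩⟩⟩,⟨150994944,⟨⟨35180352,0⟩,⟨0,29522112⟩⟩⟩,⟨251920384,⟨⟨58589376,0⟩,⟨406016,0⟩⟩⟩,⟨419430400,⟨⟨0,71957440⟩,⟨0,1882560⟩⟩⟩,⟨764411904,⟨⟨16140992,0⟩,⟨1895232,0⟩⟩⟩]⟩⟩,2348810,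
    ⟨⟨⟨0,5554315⟩,⟨318950143,0⟩⟩,⟨⟨1770873,0⟩,⟨0,1271122361⟩⟩,[⟨0,⟨⟨0,6868992⟩,⟨2819727168,0⟩⟩⟩,⟨6553600,⟨⟨18463424,0⟩,⟨0,3797388928⟩⟩⟩,⟨16777216,⟨⟨0,25212864⟩,⟨1860154496,0⟩⟩⟩,⟨44302336,⟨⟨20846336,0⟩,⟨0,853612032⟩⟩⟩,⟨84934656,⟨⟨0,7867136⟩,⟨0,257770432⟩⟩⟩,⟨150994944,⟨⟨3325184,0⟩,⟨110651136,0⟩⟩⟩,⟨251920384,⟨⟨0,4708224⟩,⟨234162240,0⟩⟩⟩,⟨419430400,⟨⟨2276864,0⟩,⟨0,130379520⟩⟩⟩,⟨764411904,⟨⟨0,254592⟩,⟨14455872,0⟩⟩⟩]⟩⟩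

theorem okCellEc : cellOK cellEc = true := by
  decide +kernel

end Vale.Agent.P237.All.Transport.Small.Wide
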