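import Vale.Agent.P237.All.Small.Wide.Cert

/-!
P237, every dimension, excess `k ≤ .8`: the constants of the cell, checked by the kernel
(`notes/P237h3/wide`).
-/

noncomputable section

namespace Vale.Agent.P237.All.Transport.Small.Wide

/-- The constants of the cell. -/
def cellEd : Cell :=
  ⟨⟨50331648,5033165,67109,1,⟨⟨2302505,0⟩,⟨60292659,0⟩⟩,⟨⟨33252392,0⟩,⟨0,365522856⟩⟩,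
    ⟨⟨⟨0,1486730⟩,⟨82537871,0⟩⟩,⟨⟨5173933,0⟩,⟨0,918946665⟩⟩,[⟨0,⟨⟨0,40977344⟩,⟨2752800512,0⟩⟩⟩,⟨6553600,⟨⟨56224960,0⟩,⟨0,3480344512⟩⟩⟩,⟨16777216,⟨⟨0,8338624⟩,⟨652234496,0⟩⟩⟩,⟨44302336,⟨⟨0,4082304⟩,⟨304970560,0⟩⟩⟩,⟨84934656,⟨⟨0,10080896⟩,⟨0,233041344⟩⟩⟩,⟨150994944,⟨⟨9300032,0⟩,⟨0,25686336⟩⟩⟩,⟨251920384,⟨⟨0,2147328⟩,⟨36260672,0⟩⟩⟩,⟨419430400,⟨⟨132160,0⟩,⟨0,8620864⟩⟩⟩,⟨764411904,⟨⟨0,30656⟩,⟨1426816,0⟩⟩⟩]⟩,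
    ⟨⟨⟨5182611,0⟩,⟨872249976,0⟩⟩,⟨⟨0,122005⟩,⟨28487666,0⟩⟩,[⟨0,⟨⟨31360640,0⟩,⟨0,3321558272⟩⟩⟩,⟨6553600,⟨⟨0,54883968⟩,⟨5604504192,0⟩⟩⟩,⟨16777216,⟨⟨30478528,0⟩,⟨0,2284877696⟩⟩⟩,⟨44302336,⟨⟨0,10790144⟩,⟨0,111614784⟩⟩⟩,⟨84934656,⟨⟨3650240,0⟩,⟨174926720,0⟩⟩⟩,⟨150994944,⟨⟨537024,0⟩,⟨0,49006208⟩⟩⟩,⟨251920384,⟨⟨0,140992⟩,⟨0,76136640⟩⟩⟩,⟨419430400,⟨⟨0,377600⟩,⟨86935936,0⟩⟩⟩,⟨764411904,⟨⟨166272,0⟩,⟨0,23173248⟩⟩⟩]⟩,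
    ⟨⟨⟨7205323,0⟩,⟨49917427,0⟩⟩,⟨⟨0,1370908⟩,⟨0,15510923⟩⟩,[⟨0,⟨⟨0,23974208⟩,⟨46973760,0⟩⟩⟩,⟨6553600,⟨⟨25669248,0⟩,⟨0,728126720⟩⟩⟩,⟨16777216,⟨⟨0,44299008⟩,⟨1677913728,0⟩⟩⟩,⟨44302336,⟨⟨128670016,0⟩,⟨0,1532605568⟩⟩⟩,⟨84934656,⟨⟨0,191507712⟩,⟨555609024,0⟩⟩⟩,⟨150994944,⟨⟨178158976,0⟩,⟨0,20171520⟩⟩⟩,⟨251920384,⟨⟨0,135540928⟩,⟨338880,0⟩⟩⟩,⟨419430400,⟨⟨85979840,0⟩,⟨67904,0⟩⟩⟩,⟨764411904,⟨⟨0,23156224⟩,⟨512,0⟩⟩⟩]⟩⟩,3690988,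
    ⟨⟨⟨1596801,0⟩,⟨0,121622653⟩⟩,⟨⟨0,19016417⟩,⟨373189428,0⟩⟩,[⟨0,⟨⟨21690112,0⟩,⟨0,1031553664⟩⟩⟩,⟨6553600,⟨⟨0,9243648⟩,⟨579528768,0⟩⟩⟩,⟨16777216,⟨⟨0,5883264⟩,⟨379312064,0⟩⟩⟩,⟨44302336,⟨⟨1251200,0⟩,⟨351545600,0⟩⟩⟩,⟨84934656,⟨⟨0,15465920⟩,⟨0,499152640⟩⟩⟩,⟨150994944,⟨⟨6793088,0⟩,⟨390387904,0⟩⟩⟩,⟨251920384,⟨⟨1625920,0⟩,⟨0,204726848⟩⟩⟩,⟨419430400,⟨⟨0,723968⟩,⟨31726336,0⟩⟩⟩,⟨764411904,⟨⟨0,43520⟩,⟨2932480,0⟩⟩⟩]⟩⟩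

theorem okCellEd : cellOK cellEd = true := by
  decide +kernel

end Vale.Agent.P237.All.Transport.Small.Wide
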