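import Vale.Agent.P237.All.Small.Wide.Cert

/-!
P237, every dimension, excess `k ≤ .8`: the constants of the cell, checked by the kernel
(`notes/P237h3/wide`).
-/

noncomputable section

namespace Vale.Agent.P237.All.Transport.Small.Wide

/-- The constants of the cell. -/
def cellEe : Cell :=
  ⟨⟨43620762,7381975,67109,1,⟨⟨1987216,0⟩,⟨100178434,0⟩⟩,⟨⟨36861423,0⟩,⟨0,629579627⟩⟩,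
    ⟨⟨⟨0,1779605⟩,⟨82998691,0⟩⟩,⟨⟨5478055,0⟩,⟨0,894915147⟩⟩,[⟨0,⟨⟨0,39933184⟩,⟨2601456256,0⟩⟩⟩,⟨6553600,⟨⟨54973696,0⟩,⟨0,3416851904⟩⟩⟩,⟨16777216,⟨⟨0,7404288⟩,⟨736039104,0⟩⟩⟩,⟨44302336,⟨⟨0,4850304⟩,⟨300380928,0⟩⟩⟩,⟨84934656,⟨⟨0,9923136⟩,⟨0,231796544⟩⟩⟩,⟨150994944,⟨⟨8885184,0⟩,⟨6347712,0⟩⟩⟩,⟨251920384,⟨⟨0,1549248⟩,⟨0,6776832⟩⟩⟩,⟨419430400,⟨⟨0,330816⟩,⟨18562880,0⟩⟩⟩,⟨764411904,⟨⟨132096,0⟩,⟨0,7361600⟩⟩⟩]⟩,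
    ⟨⟨⟨2954136,0⟩,⟨982541717,0⟩⟩,⟨⟨0,677051⟩,⟨78464648,0⟩⟩,[⟨0,⟨⟨26933632,0⟩,⟨0,2909811840⟩⟩⟩,⟨6553600,⟨⟨0,46317184⟩,⟨4991087744,0⟩⟩⟩,⟨16777216,⟨⟨26671872,0⟩,⟨0,2284637184⟩⟩⟩,⟨44302336,⟨⟨0,12103744⟩,⟨230348288,0⟩⟩⟩,⟨84934656,⟨⟨5478912,0⟩,⟨1558848,0⟩⟩⟩,⟨150994944,⟨⟨0,528064⟩,⟨0,17761024⟩⟩⟩,⟨251920384,⟨⟨0,24576⟩,⟨0,68137344⟩⟩⟩,⟨419430400,⟨⟨0,249984⟩,⟨79408960,0⟩⟩⟩,⟨764411904,⟨⟨139136,0⟩,⟨0,22056448⟩⟩⟩]⟩,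
    ⟨⟨⟨6972668,0⟩,⟨90118648,0⟩⟩,⟨⟨0,1399297⟩,⟨0,8663145⟩⟩,[⟨0,⟨⟨0,22061248⟩,⟨43762816,0⟩⟩⟩,⟨6553600,⟨⟨21935616,0⟩,⟨0,447327936⟩⟩⟩,⟨16777216,⟨⟨0,43190592⟩,⟨1446284288,0⟩⟩⟩,⟨44302336,⟨⟨130000768,0⟩,⟨0,1677773952⟩⟩⟩,⟨84934656,⟨⟨0,192110656⟩,⟨652298176,0⟩⟩⟩,⟨150994944,⟨⟨178143424,0⟩,⟨0,17645632⟩⟩⟩,⟨251920384,⟨⟨0,135540928⟩,⟨335872,0⟩⟩⟩,⟨419430400,⟨⟨85979840,0⟩,⟨65856,0⟩⟩⟩,⟨764411904,⟨⟨0,23156224⟩,⟨512,0⟩⟩⟩]⟩⟩,5033165,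
    ⟨⟨⟨1652422,0⟩,⟨0,135244326⟩⟩,⟨⟨0,20582290⟩,⟨429830066,0⟩⟩,[⟨0,⟨⟨18598976,0⟩,⟨0,953504064⟩⟩⟩,⟨6553600,⟨⟨1589760,0⟩,⟨53277696,0⟩⟩⟩,⟨16777216,⟨⟨0,15717888⟩,⟨917541760,0⟩⟩⟩,⟨44302336,⟨⟨3937792,0⟩,⟨308860928,0⟩⟩⟩,⟨84934656,⟨⟨0,15833984⟩,⟨0,571595968⟩⟩⟩,⟨150994944,⟨⟨6613888,0⟩,⟨410152320,0⟩⟩⟩,⟨251920384,⟨⟨1639808,0⟩,⟨0,204648064⟩⟩⟩,⟨419430400,⟨⟨0,869056⟩,⟨42188544,0⟩⟩⟩,⟨764411904,⟨⟨40704,0⟩,⟨0,2273152⟩⟩⟩]⟩⟩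

theorem okCellEe : cellOK cellEe = true := by
  decide +kernel

end Vale.Agent.P237.All.Transport.Small.Wide
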