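import Vale.Agent.P237.All.Small.Wide.Cert

/-!
P237, every dimension, excess `k ≤ .8`: the constants of the cell, checked by the kernel
(`notes/P237h3/wide`).
-/

noncomputable section

namespace Vale.Agent.P237.All.Transport.Small.Wide

/-- The constants of the cell. -/
def cellEf : Cell :=
  ⟨⟨36909875,9730785,67109,1,⟨⟨2112018,0⟩,⟨119273171,0⟩⟩,⟨⟨33648905,0⟩,⟨0,568931165⟩⟩,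
    ⟨⟨⟨0,225738⟩,⟨13962058,0⟩⟩,⟨⟨2259150,0⟩,⟨0,839724140⟩⟩,[⟨0,⟨⟨0,33724480⟩,⟨2425741632,0⟩⟩⟩,⟨6553600,⟨⟨45627968,0⟩,⟨0,2996105536⟩⟩⟩,⟨16777216,⟨⟨0,7755648⟩,⟨610830720,0⟩⟩⟩,⟨44302336,⟨⟨228672,0⟩,⟨224003200,0⟩⟩⟩,⟨84934656,⟨⟨0,10042304⟩,⟨0,416006976⟩⟩⟩,⟨150994944,⟨⟨7282176,0⟩,⟨162214144,0⟩⟩⟩,⟨251920384,⟨⟨0,1780224⟩,⟨0,1481536⟩⟩⟩,⟨419430400,⟨⟨187072,0⟩,⟨0,10486144⟩⟩⟩,⟨764411904,⟨⟨0,23232⟩,⟨1290496,0⟩⟩⟩]⟩,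
    ⟨⟨⟨908754,0⟩,⟨1040496093,0⟩⟩,⟨⟨0,351118⟩,⟨0,89648308⟩⟩,[⟨0,⟨⟨9633984,0⟩,⟨0,991124224⟩⟩⟩,⟨6553600,⟨⟨0,15858432⟩,⟨1860679936,0⟩⟩⟩,⟨16777216,⟨⟨11712256,0⟩,⟨0,965806592⟩⟩⟩,⟨44302336,⟨⟨0,9465600⟩,⟨85566144,0⟩⟩⟩,⟨84934656,⟨⟨4609408,0⟩,⟨51220096,0⟩⟩⟩,⟨150994944,⟨⟨0,571456⟩,⟨0,22062080⟩⟩⟩,⟨251920384,⟨⟨0,106880⟩,⟨0,71377344⟩⟩⟩,⟨419430400,⟨⟨0,19968⟩,⟨71782464,0⟩⟩⟩,⟨764411904,⟨⟨66688,0⟩,⟨0,18878400⟩⟩⟩]⟩,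
    ⟨⟨⟨4552045,0⟩,⟨410947923,0⟩⟩,⟨⟨0,1896403⟩,⟨58184070,0⟩⟩,[⟨0,⟨⟨0,25326848⟩,⟨585637568,0⟩⟩⟩,⟨6553600,⟨⟨24941952,0⟩,⟨0,670124480⟩⟩⟩,⟨16777216,⟨⟨0,40729344⟩,⟨835733440,0⟩⟩⟩,⟨44302336,⟨⟨127540288,0⟩,⟨0,1430776704⟩⟩⟩,⟨84934656,⟨⟨0,192122432⟩,⟨725686208,0⟩⟩⟩,⟨150994944,⟨⟨178414656,0⟩,⟨0,46659712⟩⟩⟩,⟨251920384,⟨⟨0,135541632⟩,⟨410048,0⟩⟩⟩,⟨419430400,⟨⟨85979584,0⟩,⟨92864,0⟩⟩⟩,⟨764411904,⟨⟨0,23156224⟩,⟨768,0⟩⟩⟩]⟩⟩,7381975,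
    ⟨⟨⟨2244830,0⟩,⟨0,144857167⟩⟩,⟨⟨0,14974877⟩,⟨49747853,0⟩⟩,[⟨0,⟨⟨9069824,0⟩,⟨0,299871296⟩⟩⟩,⟨6553600,⟨⟨1247360,0⟩,⟨54371776,0⟩⟩⟩,⟨16777216,⟨⟨0,7855616⟩,⟨298149056,0⟩⟩⟩,⟨44302336,⟨⟨6460416,0⟩,⟨371343616,0⟩⟩⟩,⟨84934656,⟨⟨0,14386944⟩,⟨0,891466688⟩⟩⟩,⟨150994944,⟨⟨4687232,0⟩,⟨677057920,0⟩⟩⟩,⟨251920384,⟨⟨1357376,0⟩,⟨0,241782400⟩⟩⟩,⟨419430400,⟨⟨0,584128⟩,⟨32447360,0⟩⟩⟩,⟨764411904,⟨⟨4480,0⟩,⟨0,249344⟩⟩⟩]⟩⟩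

theorem okCellEf : cellOK cellEf = true := by
  decide +kernel

end Vale.Agent.P237.All.Transport.Small.Wide
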