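import Vale.Agent.P237.All.Small.Wide.Cert

/-!
P237, every dimension, excess `k ≤ .8`: the constants of the cell, checked by the kernel
(`notes/P237h3/wide`).
-/

noncomputable section

namespace Vale.Agent.P237.All.Transport.Small.Wide

/-- The constants of the cell. -/
def cellEg : Cell :=
  ⟨⟨31876710,11744051,67109,1,⟨⟨2525270,0⟩,⟨118918417,0⟩⟩,⟨⟨29904180,0⟩,⟨0,487260097⟩⟩,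
    ⟨⟨⟨0,919274⟩,⟨22868109,0⟩⟩,⟨⟨0,11779114⟩,⟨0,33354485⟩⟩,[⟨0,⟨⟨15486976,0⟩,⟨0,559692352⟩⟩⟩,⟨6553600,⟨⟨0,22079872⟩,⟨1124278464,0⟩⟩⟩,⟨16777216,⟨⟨17605056,0⟩,⟨0,797550400⟩⟩⟩,⟨44302336,⟨⟨0,13021760⟩,⟨983456320,0⟩⟩⟩,⟨84934656,⟨⟨1638016,0⟩,⟨0,1340604800⟩⟩⟩,⟨150994944,⟨⟨0,359040⟩,⟨714689728,0⟩⟩⟩,⟨251920384,⟨⟨968256,0⟩,⟨0,119716672⟩⟩⟩,⟨419430400,⟨⟨0,236032⟩,⟨0,4948672⟩⟩⟩,⟨764411904,⟨⟨0,1600⟩,⟨88384,0⟩⟩⟩]⟩,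
    ⟨⟨⟨8336466,0⟩,⟨634952446,0⟩⟩,⟨⟨0,1224675⟩,⟨0,54901240⟩⟩,[⟨0,⟨⟨0,8221824⟩,⟨471369664,0⟩⟩⟩,⟨6553600,⟨⟨24902848,0⟩,⟨0,1128333504⟩⟩⟩,⟨16777216,⟨⟨0,17405440⟩,⟨766372288,0⟩⟩⟩,⟨44302336,⟨⟨0,2103872⟩,⟨0,76226496⟩⟩⟩,⟨84934656,⟨⟨4195008,0⟩,⟨0,45033408⟩⟩⟩,⟨150994944,⟨⟨0,1521280⟩,⟨25508864,0⟩⟩⟩,⟨251920384,⟨⟨0,232256⟩,⟨0,26899328⟩⟩⟩,⟨419430400,⟨⟨470464,0⟩,⟨18492672,0⟩⟩⟩,⟨764411904,⟨⟨0,83648⟩,⟨0,5250752⟩⟩⟩]⟩,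
    ⟨⟨⟨2990596,0⟩,⟨504673505,0⟩⟩,⟨⟨0,2116914⟩,⟨164747003,0⟩⟩,[⟨0,⟨⟨0,10671744⟩,⟨184751232,0⟩⟩⟩,⟨6553600,⟨⟨1189504,0⟩,⟨113693184,0⟩⟩⟩,⟨16777216,⟨⟨0,8398720⟩,⟨0,85776704⟩⟩⟩,⟨44302336,⟨⟨88670464,0⟩,⟨0,734656064⟩⟩⟩,⟨84934656,⟨⟨0,176410048⟩,⟨657000768,0⟩⟩⟩,⟨150994944,⟨⟨178255232,0⟩,⟨0,137309952⟩⟩⟩,⟨251920384,⟨⟨0,135437056⟩,⟨1980928,0⟩⟩⟩,⟨419430400,⟨⟨85948224,0⟩,⟨0,564928⟩⟩⟩,⟨764411904,⟨⟨0,23145856⟩,⟨881536,0⟩⟩⟩]⟩⟩,9730785,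
    ⟨⟨⟨0,1710343⟩,⟨57992527,0⟩⟩,⟨⟨0,10965678⟩,⟨0,203337530⟩⟩,[⟨0,⟨⟨9742592,0⟩,⟨0,227434816⟩⟩⟩,⟨6553600,⟨⟨0,12621568⟩,⟨633807808,0⟩⟩⟩,⟨16777216,⟨⟨8650176,0⟩,⟨0,275012352⟩⟩⟩,⟨44302336,⟨⟨12744000,0⟩,⟨0,383769984⟩⟩⟩,⟨84934656,⟨⟨0,38073664⟩,⟨552774976,0⟩⟩⟩,⟨150994944,⟨⟨25419648,0⟩,⟨0,474543808⟩⟩⟩,⟨251920384,⟨⟨0,6104768⟩,⟨198033728,0⟩⟩⟩,⟨419430400,⟨⟨184704,0⟩,⟨0,20584832⟩⟩⟩,⟨764411904,⟨⟨58880,0⟩,⟨0,3270720⟩⟩⟩]⟩⟩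

theorem okCellEg : cellOK cellEg = true := by
  decide +kernel

end Vale.Agent.P237.All.Transport.Small.Wide
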