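import Vale.Agent.P237.All.Small.Wide.Cert

/-!
P237, every dimension, excess `k ≤ .8`: the constants of the cell, checked by the kernel
(`notes/P237h3/wide`).
-/

noncomputable section

namespace Vale.Agent.P237.All.Transport.Small.Wide

/-- The constants of the cell. -/
def cellEh : Cell :=
  ⟨⟨30702305,13421773,67109,1,⟨⟨2790628,0⟩,⟨123518478,0⟩⟩,⟨⟨36380789,0⟩,⟨0,997833310⟩⟩,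
    ⟨⟨⟨0,293397⟩,⟨2328303,0⟩⟩,⟨⟨0,5665481⟩,⟨0,415098147⟩⟩,[⟨0,⟨⟨8706944,0⟩,⟨0,288130816⟩⟩⟩,⟨6553600,⟨⟨0,13233344⟩,⟨815952192,0⟩⟩⟩,⟨16777216,⟨⟨12623680,0⟩,⟨0,602978432⟩⟩⟩,⟨44302336,⟨⟨0,19452352⟩,⟨1530862976,0⟩⟩⟩,⟨84934656,⟨⟨15258688,0⟩,⟨0,2411065024⟩⟩⟩,⟨150994944,⟨⟨0,1564160⟩,⟨911328896,0⟩⟩⟩,⟨251920384,⟨⟨0,3349184⟩,⟨126553472,0⟩⟩⟩,⟨419430400,⟨⟨1003712,0⟩,⟨0,82210688⟩⟩⟩,⟨764411904,⟨⟨6016,0⟩,⟨0,312576⟩⟩⟩]⟩,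
    ⟨⟨⟨6805349,0⟩,⟨759456250,0⟩⟩,⟨⟨0,1470072⟩,⟨0,28308186⟩⟩,[⟨0,⟨⟨0,9641472⟩,⟨686770752,0⟩⟩⟩,⟨6553600,⟨⟨21371712,0⟩,⟨0,1221244224⟩⟩⟩,⟨16777216,⟨⟨0,9544896⟩,⟨485655104,0⟩⟩⟩,⟨44302336,⟨⟨0,4624000⟩,⟨67989376,0⟩⟩⟩,⟨84934656,⟨⟨1099264,0⟩,⟨115635008,0⟩⟩⟩,⟨150994944,⟨⟨2140928,0⟩,⟨0,147790080⟩⟩⟩,⟨251920384,⟨⟨334144,0⟩,⟨0,113008320⟩⟩⟩,⟨419430400,⟨⟨0,1645248⟩,⟨170960640,0⟩⟩⟩,⟨764411904,⟨⟨509568,0⟩,⟨0,44968256⟩⟩⟩]⟩,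
    ⟨⟨⟨3104597,0⟩,⟨661175738,0⟩⟩,⟨⟨0,2288863⟩,⟨190549466,0⟩⟩,[⟨0,⟨⟨13653632,0⟩,⟨0,1249270848⟩⟩⟩,⟨6553600,⟨⟨0,33678848⟩,⟨2369702528,0⟩⟩⟩,⟨16777216,⟨⟨0,20634880⟩,⟨455922368,0⟩⟩⟩,⟨44302336,⟨⟨130380416,0⟩,⟨0,3274843584⟩⟩⟩,⟨84934656,⟨⟨0,198248384⟩,⟨1997820032,0⟩⟩⟩,⟨150994944,⟨⟨181171072,0⟩,⟨0,301924032⟩⟩⟩,⟨251920384,⟨⟨0,135446336⟩,⟨2227904,0⟩⟩⟩,⟨419430400,⟨⟨85950464,0⟩,⟨0,478336⟩⟩⟩,⟨764411904,⟨⟨0,23147136⟩,⟨843968,0⟩⟩⟩]⟩⟩,11744051,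
    ⟨⟨⟨0,302398⟩,⟨563159,0⟩⟩,⟨⟨0,6563656⟩,⟨0,467708281⟩⟩,[⟨0,⟨⟨7893952,0⟩,⟨0,219942720⟩⟩⟩,⟨6553600,⟨⟨0,6635008⟩,⟨466215872,0⟩⟩⟩,⟨16777216,⟨⟨1222272,0⟩,⟨44078528,0⟩⟩⟩,⟨44302336,⟨⟨1581248,0⟩,⟨416333888,0⟩⟩⟩,⟨84934656,⟨⟨0,9106432⟩,⟨0,1320241088⟩⟩⟩,⟨150994944,⟨⟨6655680,0⟩,⟨683909568,0⟩⟩⟩,⟨251920384,⟨⟨0,1683648⟩,⟨0,51396160⟩⟩⟩,⟨419430400,⟨⟨56704,0⟩,⟨0,18031104⟩⟩⟩,⟨764411904,⟨⟨15232,0⟩,⟨0,926784⟩⟩⟩]⟩⟩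

theorem okCellEh : cellOK cellEh = true := by
  decide +kernel

end Vale.Agent.P237.All.Transport.Small.Wide
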