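import Vale.Agent.P237.All.Small.Wide.SoundPlus
import Vale.Agent.P237.All.Small.Large.SoundBudget
import Vale.Agent.P237.All.Small.Large.SoundCrude

/-!
P237, every dimension, excess `k ∈ [k₀, K]`: the segments of a slice bound the bracket up to the last
node; the facts on the constants.
-/

noncomputable section

open Real Set

namespace Vale.Agent.P237.All.Transport.Small.Wide

open Mid (Sg AF Pt XP rn)
open Large (Node Env Vals cst one nn tau tau_facts tauOf chainP chainK piFun segVal segPi InBox xOf)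

/-- The last node of a list of segments behind a node. -/
def endOf : Node → List Seg → Node
  | n, [] => n
  | _, s :: l => endOf s.n l

theorem segsOK_app {c : Cell} {tc hh : ℕ} {b : List Seg} :
    ∀ {a : List Seg} {n m : Node}, segsOK c tc hh n a = true → endOf n a = m →
      segsOK c tc hh m b = true → segsOK c tc hh n (a ++ b) = true
  | [], n, m, _, h1, h2 => by
    rw [endOf] at h1
    subst h1
    simpa using h2
  | s :: l, n, m, h0, h1, h2 => by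
    simp only [segsOK, Bool.and_eq_true] at h0
    simp only [List.cons_append, segsOK, Bool.and_eq_true]
    exact ⟨h0.1, segsOK_app h0.2 h1 h2⟩

/-- What the test of the constants gives at a place of the slice. -/
theorem sliceOK_sound {c : Cell} {tc hh p : ℕ} {T : ℝ} (hT : |T| ≤ 1) (hp : 29 ≤ p)
    (hτ : tauOf tc hh T = tau p) (h : sliceOK c tc hh = true) :
    0 < hh ∧ hh ≤ tc ∧ tc + hh ≤ 1677722 ∧ rn c.k0 < rn c.base.K ∧ 0 < rn c.k0 ∧ rn c.base.K ≤ 1 ∧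
      (c.base.co (tau p)).Ok p ∧ 1 ≤ (c.base.co (tau p)).b ∧ 0 ≤ (c.base.co (tau p)).G ∧
      0 ≤ 1 + (c.base.co (tau p)).e1 / ((p : ℝ) + 1) := by
  have hS : |(0 : ℝ)| ≤ 1 := by norm_num
  simp only [sliceOK, Large.sliceOK, Bool.and_eq_true] at h
  obtain ⟨⟨⟨⟨⟨⟨hh0, hK⟩, hhi⟩, he⟩, hk0⟩, hkc⟩, hel⟩ := h
  have hle : hh ≤ tc := by
    simp only [Large.withEnv, Bool.and_eq_true] at he
    exact Nat.le_of_ble_eq_true he.1
  obtain ⟨e, hev, hok⟩ := Large.withEnv_sound (S := 0) (T := T) hS hT he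
  obtain ⟨e', hev', hell⟩ := Large.withEnv_sound (S := 0) (T := T) hS hT hel
  rw [hτ] at hev hev'
  simp only [Large.envOK, Bool.and_eq_true] at hok
  obtain ⟨⟨⟨hG, hD⟩, hb⟩, hdef⟩ := hok
  have hb1 : 1 ≤ (c.base.co (tau p)).b := by
    have := Mid.rn_le (Nat.le_of_ble_eq_true hb)
    rw [Mid.rn_U] at this
    exact this
  have hG0 := Large.nn_le hS hT hG hev.G
  have hDf := Large.gaf_has hS hT c.base.D hev.t
  have hD0 := Large.nn_le hS hT hD hDf
  have hbf := Large.has_cst (S := (0 : ℝ)) (T := T) c.base.b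
  have h0 := Large.nn_le hS hT hdef (((hbf.mul hev.gc hS hT).mul (Large.has_one.sub hev.t) hS hT).sub
    ((hev.G.add ((hbf.mul hbf hS hT).mul hDf hS hT)).mul
      (Large.has_one.add (Large.has_ratio hS hT hev.t 2 1 one_pos)) hS hT))
  have h1 := Large.nn_le hS hT hell (Large.has_one.add ((Large.gaf_has hS hT c.base.e1 hev'.t).mul hev'.Eh hS hT))
  have hp0 : (0 : ℝ) < (p : ℝ) + 2 := by positivity
  refine ⟨Nat.le_of_ble_eq_true hh0, hle, Nat.le_of_ble_eq_true hhi,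
    div_lt_div_of_pos_right (Nat.cast_lt.2 (Nat.le_of_ble_eq_true hkc)) (by norm_num),
    div_pos (Nat.cast_pos.2 (Nat.le_of_ble_eq_true hk0)) (by norm_num),
    (Mid.rn_le (Nat.le_of_ble_eq_true hK)).trans_eq Mid.rn_U,
    ⟨by omega, by linarith, ⟨hD0, by simp only [Large.Co.G] at hG0; linarith⟩, ?_⟩, hb1, hG0, ?_⟩
  · have e1 : (1 : ℝ) - tau p = ((p : ℝ) + 1) / ((p : ℝ) + 2) := by rw [tau]; field_simp; ring
    have e2 : (1 : ℝ) + 2 * tau p = ((p : ℝ) + 4) / ((p : ℝ) + 2) := by rw [tau]; field_simp; ring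
    push_cast at h0
    simp only [Large.Cell.co] at h0 ⊢
    rw [e1, show (1 : ℝ) + 2 / 1 * tau p = 1 + 2 * tau p by ring, e2] at h0
    have h2 := mul_nonneg h0 hp0.le
    field_simp at h2
    linarith
  · refine h1.trans (le_of_eq ?_)
    simp only [Large.Cell.co]
    rw [(tau_facts p (y := 0)).1, tau]
    field_simp

theorem xOf_exists {a b : ℕ} {x : ℝ} (hab : a < b) (h2 : Nat.beq (Nat.mod (Nat.add a b) 2) 0 = true)
    (hx : x ∈ Icc (rn a) (rn b)) :
    ∃ S : ℝ, |S| ≤ 1 ∧ x = xOf a b S ∧ (1 + S) / 2 = (x - rn a) / (rn b - rn a) := by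
  have he : (a + b) % 2 = 0 := Nat.eq_of_beq_eq_true h2
  have m : ((Nat.div (Nat.add a b) 2 : ℕ) : ℝ) = ((a : ℝ) + b) / 2 := by
    rw [eq_div_iff two_ne_zero]
    have : (a + b) / 2 * 2 = a + b := by omega
    exact_mod_cast this
  have d : ((Nat.div (Nat.sub b a) 2 : ℕ) : ℝ) = ((b : ℝ) - a) / 2 := by
    rw [eq_div_iff two_ne_zero, ← Nat.cast_sub hab.le]
    have : (b - a) / 2 * 2 = b - a := by omega
    exact_mod_cast this
  have hd : (0 : ℝ) < (b : ℝ) - a := sub_pos.2 (Nat.cast_lt.2 hab)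
  obtain ⟨hx0, hx1⟩ := hx
  simp only [rn] at hx0 hx1
  refine ⟨2 * ((x * 16777216 - a) / ((b : ℝ) - a)) - 1, ?_, ?_, ?_⟩
  · rw [div_le_iff₀ (by norm_num)] at hx0
    rw [le_div_iff₀ (by norm_num)] at hx1
    have h0 : 0 ≤ (x * 16777216 - a) / ((b : ℝ) - a) := div_nonneg (by linarith) hd.le
    have h1 : (x * 16777216 - a) / ((b : ℝ) - a) ≤ 1 := (div_le_one hd).2 (by linarith)
    rw [abs_le]; constructor <;> linarith
  · rw [xOf, m, d]; field_simp; ring
  · simp only [rn]; field_simp; ring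

theorem parts_find {c : Cell} {tc hh : ℕ} {n0 n1 : Node} {v : ℝ} :
    ∀ {l : List Part} {lo : ℕ}, partsOK c tc hh n0 n1 l lo = true → (lo : ℝ) ≤ v → 0 < hh →
      v ≤ ((tc + hh : ℕ) : ℝ) → (lo < tc + hh ∨ ∃ q, q ∈ l ∧ True) →
      ∃ q, partOK c tc hh n0 n1 q = true ∧ ((Nat.sub q.tc q.hh : ℕ) : ℝ) ≤ v ∧ v ≤ ((q.tc + q.hh : ℕ) : ℝ)
  | [], lo, h, _, _, _, hne => by
    rw [partsOK] at h
    have := Nat.le_of_ble_eq_true h
    rcases hne with h1 | ⟨q, hq, -⟩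
    · simp only [Nat.add_eq] at this; omega
    · simp at hq
  | q :: l, lo, h, hlo, hh0, hv, _ => by
    simp only [partsOK, Bool.and_eq_true] at h
    obtain ⟨⟨hq0, hq⟩, hl⟩ := h
    rcases le_or_gt v ((q.tc + q.hh : ℕ) : ℝ) with h1 | h1
    · exact ⟨q, hq, (Nat.cast_le.2 (Nat.le_of_ble_eq_true hq0)).trans hlo, h1⟩
    · refine parts_find hl h1.le hh0 hv (Or.inl ?_)
      have : ((q.tc + q.hh : ℕ) : ℝ) < ((tc + hh : ℕ) : ℝ) := h1.trans_le hv
      exact Nat.cast_lt.1 this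

theorem mix_le {s a b Z : ℝ} (hs : s ∈ Icc (0 : ℝ) 1) (ha : a ≤ Z) (hb : b ≤ Z) : (1 - s) * a + s * b ≤ Z := by
  have := mul_le_mul_of_nonneg_left ha (sub_nonneg.2 hs.2)
  have := mul_le_mul_of_nonneg_left hb hs.1
  linarith

/-- The bound that the cell has to give at a point. -/
def PointLe (c : Cell) (p : ℕ) (τ k c2 lam y t r F : ℝ) : Prop :=
  (y ≤ t → Large.total p (c.base.co τ) (c.mixR k τ) (c.mixD k τ) (c.base.Vp.val τ) (c.base.Vp.der τ)
      c2 lam y t r ≤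
    semi y ^ (p + 1) * majZero p ((c.base.co τ).G / ((p : ℝ) + 1)) ((c.base.co τ).D / ((p : ℝ) + 1)) c2 y +
      k * tau p ^ 3 * F) ∧
  (t ≤ y → Large.total p (c.base.co τ) (c.mixR k τ) (c.mixD k τ) (c.base.Vm.val τ) (c.base.Vm.der τ)
      c2 lam y t r ≤
    semi y ^ (p + 1) * majZero p ((c.base.co τ).G / ((p : ℝ) + 1)) ((c.base.co τ).D / ((p : ℝ) + 1)) c2 y +
      k * tau p ^ 3 * F)

theorem part_sound {c : Cell} {tc hh p : ℕ} {T x k y t r lam u : ℝ} {n0 n1 : Node} {q : Part}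
    (hT : |T| ≤ 1) (hhh : 0 < hh) (hu : u = (1 + T) / 2) (hτ : tauOf tc hh T = tau p) (hp : 29 ≤ p)
    (hok : (c.base.co (tau p)).Ok p) (hb : 1 ≤ (c.base.co (tau p)).b) (hk : 0 < k) (hk0 : rn c.k0 ≤ k)
    (hkK : k ≤ rn c.base.K) (hK : rn c.base.K ≤ 1) (hkc : rn c.k0 < rn c.base.K)
    (hkl : exp (-(5 / 4 * √((p : ℝ) + 1))) / 5 ≤ k) (hzc : 0 < c.base.zk → exp (-rn c.base.zk) / 5 ≤ k)
    (hpt : Pt p k y t r lam) (hfwd : mass p semi t ≤ lam ^ p * mass p semi y) (hx : x ^ 2 = XP p y)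
    (hab : n0.x < n1.x) (hxI : x ∈ Icc (rn n0.x) (rn n1.x))
    (hq : ((Nat.sub q.tc q.hh : ℕ) : ℝ) ≤ tau p * 16777216 ∧ tau p * 16777216 ≤ ((q.tc + q.hh : ℕ) : ℝ))
    (h : partOK c tc hh n0 n1 q = true) (c2 : ℝ) :
    PointLe c p (tau p) k c2 lam y t r
      (semi y ^ (p + 1) * segPi n0 n1 ((x - rn n0.x) / (rn n1.x - rn n0.x)) u (kPos c k) +
        rn c.base.dl / (1 + x ^ 2)) := by
  rw [partOK] at h
  have hwe := h
  simp only [Large.withEnv, Bool.and_eq_true] at hwe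
  have hqle : q.hh ≤ q.tc := Nat.le_of_ble_eq_true hwe.1
  set v := tau p * 16777216 with hvd
  obtain ⟨hq0, hq1⟩ := hq
  rw [Nat.sub_eq, Nat.cast_sub hqle] at hq0
  rw [Nat.cast_add] at hq1
  -- the place in the part
  obtain ⟨T', hT', hT'e⟩ : ∃ T' : ℝ, |T'| ≤ 1 ∧ (q.hh : ℝ) * T' = v - q.tc := by
    rcases Nat.eq_zero_or_pos q.hh with h0 | h0
    · refine ⟨0, by norm_num, ?_⟩
      rw [h0, Nat.cast_zero] at hq0 hq1 ⊢
      linarith
    · have h0' : (0 : ℝ) < q.hh := Nat.cast_pos.2 h0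
      refine ⟨(v - q.tc) / q.hh, ?_, mul_div_cancel₀ _ h0'.ne'⟩
      rw [abs_le]
      constructor
      · rw [le_div_iff₀ h0']; linarith
      · rw [div_le_one h0']; linarith
  have hτ' : tauOf q.tc q.hh T' = tau p := by rw [tauOf, hT'e, hvd]; ring
  have huI : u ∈ Icc (0 : ℝ) 1 := hu ▸ Large.unit_mem hT
  obtain ⟨S, hS, hxe, hSa⟩ : ∃ S : ℝ, |S| ≤ 1 ∧ x = xOf n0.x n1.x S ∧
      (1 + S) / 2 = (x - rn n0.x) / (rn n1.x - rn n0.x) := by
    refine xOf_exists hab ?_ hxI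
    obtain ⟨e, -, hv⟩ := Large.withEnv_sound (S := 0) (T := T') (by norm_num) hT' h
    simp only [Large.withVals, AF.force_eq, Bool.and_eq_true] at hv
    exact hv.1.1.1.1.2
  obtain ⟨e, he, hv⟩ := Large.withEnv_sound (S := S) hS hT' h
  rw [hτ'] at he
  obtain ⟨vv, hvv, hb'⟩ := Large.withVals_sound hS hT' he hxe hxI hv
  obtain ⟨ww, hww, hb'⟩ := withTop_sound hS hT' he hvv hxI hb'
  have B : InBox c.base e vv S T' (tau p) x k p y t r lam :=
    ⟨hS, hT', he, hvv, rfl, hx, (Mid.rn_nonneg _).trans hxI.1, hp, hok, hb, hk, hkK, hK, hpt⟩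
  have hwh : (Nat.beq q.tc tc && Nat.beq q.hh hh) = true → u = (1 + T') / 2 := fun hw => by
    rw [Bool.and_eq_true] at hw
    have e1 := Nat.eq_of_beq_eq_true hw.1
    have e2 := Nat.eq_of_beq_eq_true hw.2
    have h1 : (hh : ℝ) * T = (hh : ℝ) * T' := by
      rw [← e2, hT'e, e1, hvd, ← hτ, tauOf, e2]; ring
    rw [hu, mul_left_cancel₀ (Nat.cast_ne_zero.2 hhh.ne') h1]
  have hpos : 0 ≤ rn c.base.dl / (1 + x ^ 2) := div_nonneg (Mid.rn_nonneg _) (by positivity)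
  have hkt : 0 ≤ k * tau p ^ 3 := mul_nonneg hk.le (pow_nonneg (Large.tau_pos p).le 3)
  rw [← hSa]
  cases hbody : q.body with
  | full mi pl =>
    rw [hbody, bodyOK, Bool.and_eq_true] at hb'
    have key : ∀ {A Z P : ℝ}, A ≤ semi y ^ (p + 1) * (Z + k * tau p ^ 3 * P) →
        A ≤ semi y ^ (p + 1) * Z + k * tau p ^ 3 * (semi y ^ (p + 1) * P + rn c.base.dl / (1 + x ^ 2)) :=
      fun hA => by nlinarith only [hA, mul_nonneg hkt hpos]
    exact ⟨fun hyt => key (plusOK_sound B hww hk0 hkc hyt hfwd huI hwh hb'.2 c2),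
      fun hty => key (minusOK_sound B hww hk0 hkc hty hxI.1 huI hwh hb'.1 c2)⟩
  | crude cap zm iy zk =>
    rw [hbody, bodyOK, Bool.and_eq_true] at hb'
    have htl : rn (Nat.sub q.tc q.hh) ≤ tau p := by
      rw [rn, Nat.sub_eq, Nat.cast_sub hqle, div_le_iff₀ (by norm_num)]; linarith
    obtain ⟨hm0, hp0⟩ := Large.crudeOK_sound B htl hkl hzc hb'.1 c2
    obtain ⟨hm1, hp1⟩ := Large.crudeOK_sound (InBox_top B hww) htl hkl hzc hb'.2 c2
    obtain ⟨⟨hs0, hs1⟩, -⟩ := kPos_facts hkc hk0 hkK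
    have hseg : 0 ≤ segPi n0 n1 ((1 + S) / 2) u (kPos c k) := by
      obtain ⟨hS0, hS1⟩ := Large.unit_mem hS
      have hn : ∀ kk, 0 ≤ segVal n0 n1 kk ((1 + S) / 2) u := fun kk =>
        add_nonneg (mul_nonneg (sub_nonneg.2 hS1) (n0.val_nonneg huI)) (mul_nonneg hS0 (n1.val_nonneg huI))
      exact add_nonneg (mul_nonneg (sub_nonneg.2 hs1) (hn _)) (mul_nonneg hs0 (hn _))
    have key : ∀ {A Z : ℝ}, A ≤ Z + k * tau p ^ 3 * (rn c.base.dl / (1 + x ^ 2)) →
        A ≤ Z + k * tau p ^ 3 * (semi y ^ (p + 1) * segPi n0 n1 ((1 + S) / 2) u (kPos c k) +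
          rn c.base.dl / (1 + x ^ 2)) := fun hA => by
      nlinarith only [hA, mul_nonneg hkt (mul_nonneg (pow_nonneg (show (0 : ℝ) ≤ semi y from Real.sqrt_nonneg _)
        (p + 1)) hseg)]
    exact ⟨fun hyt => key ((le_of_eq (total_mix ..)).trans (mix_le ⟨hs0, hs1⟩ (hp0 hyt) (hp1 hyt))),
      fun hty => key ((le_of_eq (total_mix ..)).trans (mix_le ⟨hs0, hs1⟩ (hm0 hty) (hm1 hty)))⟩

/-- The bound at every point up to the last node of the segments. -/
theorem segs_sound {c : Cell} {tc hh p : ℕ} {T x k y t r lam u : ℝ} {last : Node}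
    (hT : |T| ≤ 1) (hhh : 0 < hh) (hle : hh ≤ tc) (hu : u = (1 + T) / 2) (hτ : tauOf tc hh T = tau p)
    (hp : 29 ≤ p) (hok : (c.base.co (tau p)).Ok p) (hb : 1 ≤ (c.base.co (tau p)).b) (hk : 0 < k)
    (hk0 : rn c.k0 ≤ k) (hkK : k ≤ rn c.base.K) (hK : rn c.base.K ≤ 1) (hkc : rn c.k0 < rn c.base.K)
    (hkl : exp (-(5 / 4 * √((p : ℝ) + 1))) / 5 ≤ k) (hzc : 0 < c.base.zk → exp (-rn c.base.zk) / 5 ≤ k)
    (hpt : Pt p k y t r lam) (hfwd : mass p semi t ≤ lam ^ p * mass p semi y) (hx : x ^ 2 = XP p y)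
    (c2 : ℝ) : ∀ {n : Node} {l : List Seg}, segsOK c tc hh n l = true → rn n.x < x →
      x ≤ rn (endOf n l).x →
      PointLe c p (tau p) k c2 lam y t r
        (semi y ^ (p + 1) * chainK u (kPos c k) n (l.map Seg.n ++ [last]) x + rn c.base.dl / (1 + x ^ 2))
  | n, [], _, h0, h1 => absurd h1 (not_le.2 h0)
  | n, s :: l, h, h0, h1 => by
    simp only [segsOK, Bool.and_eq_true] at h
    obtain ⟨⟨hn, hps⟩, hl⟩ := h
    have hab : n.x < s.n.x := Nat.le_of_ble_eq_true hn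
    rcases le_or_gt x (rn s.n.x) with hx1 | hx1
    · have hv1 : tau p * 16777216 = (tc : ℝ) + hh * T := by rw [← hτ, tauOf]; ring
      obtain ⟨a1, a2⟩ := abs_le.1 hT
      have := mul_le_mul_of_nonneg_left a1 (Nat.cast_nonneg (α := ℝ) hh)
      have := mul_le_mul_of_nonneg_left a2 (Nat.cast_nonneg (α := ℝ) hh)
      obtain ⟨q, hq, hq0, hq1⟩ := parts_find (v := tau p * 16777216) hps
        (by rw [Nat.sub_eq, Nat.cast_sub hle]; linarith) hhh (by push_cast; linarith)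
        (Or.inl (by simp only [Nat.sub_eq]; omega))
      have hps' := part_sound hT hhh hu hτ hp hok hb hk hk0 hkK hK hkc hkl hzc hpt hfwd hx hab
        ⟨h0.le, hx1⟩ ⟨hq0, hq1⟩ hq c2
      have e : ∀ kk, chainP kk u n ((s :: l).map Seg.n ++ [last]) x =
          segVal n s.n kk ((x - rn n.x) / (rn s.n.x - rn n.x)) u := fun kk => by
        have hd : rn s.n.x - rn n.x ≠ 0 := (sub_pos.2 (h0.trans_le hx1)).ne'
        simp only [List.map_cons, List.cons_append, chainP, if_pos hx1, segVal]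
        field_simp
        ring
      simpa only [chainK, segPi, e] using hps'
    · have e : ∀ kk, chainP kk u n ((s :: l).map Seg.n ++ [last]) x =
          chainP kk u s.n (l.map Seg.n ++ [last]) x := fun kk => by
        simp only [List.map_cons, List.cons_append, chainP, if_neg (not_le.2 hx1)]
      have := segs_sound (last := last) hT hhh hle hu hτ hp hok hb hk hk0 hkK hK hkc hkl hzc hpt hfwd hx c2 hl hx1 h1
      simpa only [chainK, e] using this

end Vale.Agent.P237.All.Transport.Small.Wide
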