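import Vale.Agent.P237.All.Small.Wide.Core

/-!
P237, every dimension, excess `k ∈ [k₀, K]`: the test of the left side of a box bounds the bracket there.
-/

noncomputable section

open Real Set

namespace Vale.Agent.P237.All.Transport.Small.Wide

open Mid (Sg AF Pt XP epsP rn)
open Large

variable {c : Cell} {e : Env} {v w : Vals} {S T τ x k : ℝ} {p : ℕ} {y t r lam : ℝ}

set_option maxHeartbeats 800000 in
theorem minusOK_sound (B : InBox c.base e v S T τ x k p y t r lam) (hw : ValsHas c.cK w S T τ x) (hk0 : rn c.k0 ≤ k)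
    (hkc : rn c.k0 < rn c.base.K) (hty : t ≤ y) {xa : ℕ} {n0 n1 : Node}
    {whole : Bool} {d : Minus} (hxa : rn xa ≤ x) {u : ℝ} (hu : u ∈ Icc (0 : ℝ) 1)
    (hwh : whole = true → u = (1 + T) / 2) (h : minusOK c e v w xa n0 n1 whole d = true) (c2 : ℝ) :
    total p (c.base.co τ) (c.mixR k τ) (c.mixD k τ) (c.base.Vm.val τ) (c.base.Vm.der τ) c2 lam y t r ≤
      semi y ^ (p + 1) * (majZero p ((c.base.co τ).G / ((p : ℝ) + 1)) ((c.base.co τ).D / ((p : ℝ) + 1)) c2 y +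
        k * tau p ^ 3 * segPi n0 n1 ((1 + S) / 2) u (kPos c k)) := by
  have hS := B.hS
  have hT := B.hT
  have he := B.env
  have hv := B.vals
  have hp1 : 1 ≤ p := by linarith [B.hp]
  have hk := B.hk
  have hK0 : 0 < rn c.base.K := hk.trans_le B.hkK
  have hτ0 := B.τ0
  have hot : 0 < 1 - τ := he.h1
  have hSx := hv.hS
  have hx2 : 0 < x ^ 2 := pow_pos B.x1 2
  have hε := eps_eq B.hτ
  have hε0 := eps_nonneg p
  have hXy : x ^ 2 * τ = y ^ 2 := by rw [B.hx, B.hτ, (tau_facts p (y := y)).2.2.2]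
  rw [minusOK] at h
  simp only [withMinus, AF.force_eq] at h
  have hWf := has_one.add he.eb
  obtain ⟨-, iW, hiW, h⟩ := withInv_sound hS hT h hWf
  obtain ⟨rho, hrho, h⟩ := withRho_sound hS hT hWf h
  obtain ⟨hkap0, ik, hik, h⟩ := withInv_sound hS hT h (has_lin' d.kap)
  simp only [Bool.and_eq_true] at h
  obtain ⟨⟨⟨⟨⟨hkp, hM0⟩, hMK⟩, hc0⟩, hc1⟩, h⟩ := h
  -- the band behind
  set ψ := (t - y) / (k * tau p * y) with hψd
  have hkτy : 0 < k * tau p * y := mul_pos (mul_pos hk (tau_pos p)) B.pt.hy.1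
  have hθ : t - y = k * tau p * y * ψ := by rw [hψd, mul_div_cancel₀ _ hkτy.ne']
  have hψ0 : ψ ≤ 0 := div_nonpos_of_nonpos_of_nonneg (by linarith) hkτy.le
  have hA := psi_behind B.pt B.hp hk (B.hkK.trans B.hK) hθ (x0 := 0) (den := x ^ 2) le_rfl
    (by rw [zero_pow two_ne_zero, ← B.hx]; positivity) hx2
    (by rw [← B.hx]; simp) (by rw [← B.hx, ← B.hτ])
  have hXψ : -((1 - x ^ 2 * τ) * (1 / (1 - τ))) ≤ x ^ 2 * ψ := by
    refine le_trans (le_of_eq ?_) (mul_le_mul_of_nonneg_left hA hx2.le)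
    rw [mul_neg, mul_div_cancel₀ _ hx2.ne', ← div_eq_mul_one_div]
  have hz : y * (t - y) ∈ Icc (-(rn c.base.K * τ ^ 2 * ((1 - x ^ 2 * τ) * (1 / (1 - τ))))) 0 := by
    have e1 : y * (t - y) = k * τ ^ 2 * (x ^ 2 * ψ) := by
      rw [hθ, ← B.hτ]; linear_combination -(k * τ * ψ) * hXy
    refine ⟨?_, by rw [e1]; exact mul_nonpos_of_nonneg_of_nonpos (by positivity) (mul_nonpos_of_nonneg_of_nonpos hx2.le hψ0)⟩
    rw [e1, neg_le]
    have h1 : 0 ≤ (1 - x ^ 2 * τ) * (1 / (1 - τ)) := by positivity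
    calc -(k * τ ^ 2 * (x ^ 2 * ψ)) = k * τ ^ 2 * -(x ^ 2 * ψ) := by ring
      _ ≤ rn c.base.K * τ ^ 2 * ((1 - x ^ 2 * τ) * (1 / (1 - τ))) :=
          mul_le_mul (mul_le_mul_of_nonneg_right B.hkK (sq_nonneg τ)) (by linarith)
            (neg_nonneg.2 (mul_nonpos_of_nonneg_of_nonpos hx2.le hψ0)) (by positivity)
  -- the forms
  have hZl := he.Kt2.mul (hv.Sv.mul he.i1 hS hT) hS hT
  have hkpf := has_cast (hv.kp0.sub (he.gcb.mul hZl hS hT))
    (v := (c.base.co τ).kp τ (x ^ 2) (-(rn c.base.K * τ ^ 2 * ((1 - x ^ 2 * τ) * (1 / (1 - τ))))))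
    (by simp only [Co.kp]; ring)
  have hkwf := has_cast (hv.kw0.sub (he.cth.mul hZl hS hT))
    (v := (c.base.co τ).kw τ (x ^ 2) (-(rn c.base.K * τ ^ 2 * ((1 - x ^ 2 * τ) * (1 / (1 - τ))))))
    (by simp only [Co.kw]; ring)
  set ν := linVal d.nu S T with hνd
  have hnu : d.nu.af.Has S T ν := has_lin' _
  set Kn := rn c.base.K * rn (nuUp d.nu) with hKnd
  set dR := rn (posHi (w.R.sub v.R)) with hdRd
  have hdR := le_posHi hS hT (hw.R.sub hv.R)
  have hMb := (hv.R.add (has_cst (posHi (w.R.sub v.R)))).add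
    ((has_cst (S := S) (T := T) c.base.K).mul (has_cst (nuUp d.nu)) hS hT)
  have hM0f := hv.R.sub ((has_cst c.k0).mul hnu hS hT)
  have hMKf := hw.R.sub ((has_cst c.base.K).mul hnu hS hT)
  have htM := he.t.mul hMb hS hT
  obtain ⟨hs, hks⟩ := kPos_facts hkc hk0 B.hkK
  set Rk := (1 - kPos c k) * c.base.R.val τ (x ^ 2) + kPos c k * c.R1.val τ (x ^ 2) with hRkd
  obtain ⟨hM, hMbb⟩ : 0 ≤ Rk - k * ν ∧ Rk - k * ν ≤ c.base.R.val τ (x ^ 2) + dR + Kn :=
    mult_bound hS hT hk.le hs hks B.hkK (nn_le hS hT hM0 hM0f) (nn_le hS hT hMK hMKf) (Mid.rn_nonneg _) hdR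
  have eR : c.mixR k τ (x ^ 2) = Rk := rfl
  have hkp0 := nn_le hS hT hkp hkpf
  set W := 1 + rn c.base.K * (τ / (1 - τ)) with hWd
  have hW1 : 1 ≤ W := le_add_of_nonneg_right (by rw [hε]; positivity)
  set κ := linVal d.kap S T with hκd
  obtain ⟨kw, hkw, hkw0, hW2, hlow⟩ :=
    kw_sel (τ := τ) (X := x ^ 2) (Co' := c.base.co τ)
      (P := fun kw => 0 ≤ kw ∧ κ * W ≤
        numUp p ((c.base.co τ).kp τ (x ^ 2) (-(rn c.base.K * τ ^ 2 * ((1 - x ^ 2 * τ) * (1 / (1 - τ)))))) kw W -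
          τ * (c.base.R.val τ (x ^ 2) + dR + Kn) * rhoW W + 0 ∧
        κ ≤ numLow p ((c.base.co τ).kp τ (x ^ 2) (-(rn c.base.K * τ ^ 2 * ((1 - x ^ 2 * τ) * (1 / (1 - τ)))))) kw -
          τ * (c.base.R.val τ (x ^ 2) + dR + Kn)) hz
      (kapOK_sound hS hT he B.hτ hp1 (has_lin' d.kap) hkpf hkwf
        (by linarith) hiW hrho htM htM has_zero hc1)
      (kapOK_sound hS hT he B.hτ hp1 (has_lin' d.kap) hkpf hv.kw0
        (by linarith) hiW hrho htM htM has_zero hc0)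
  have hqf := has_one.sub (((hWf.sub has_one).mul ((has_one.sub he.t).mul he.i2 hS hT) hS hT))
  have hWε : 0 ≤ rn c.base.K * (τ / (1 - τ)) := by rw [hε]; positivity
  obtain ⟨hq0, hq1⟩ := qc_facts hS hT hqf (sub_le_self _ (mul_nonneg (by linarith)
    (mul_nonneg hot.le (one_div_nonneg.2 he.h2.le))))
  -- on `t ≤ y` the ridge gives `w ≤ W`
  have hwW : (r ^ p)⁻¹ ≤ W := by
    have hy := B.pt.hy
    have hsy := semi_pos (t := y) ⟨by linarith [hy.1], hy.2⟩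
    have h1 : semi y ≤ semi t := by
      rw [semi, semi]
      exact Real.sqrt_le_sqrt (by nlinarith [B.pt.ht.1, hy.1, hty])
    have h2 : 1 ≤ lam * r := by
      refine le_of_mul_le_mul_right ?_ hsy
      have := B.pt.ridge
      linarith
    have hr := B.pt.hr
    have h3 : (r ^ p)⁻¹ ≤ lam ^ p := by
      rw [inv_le_iff_one_le_mul₀ (pow_pos hr p), ← mul_pow]; exact one_le_pow₀ h2
    have := lam_pow_le B.pt hp1 hk.le (B.hkK.trans B.hK)
    have := mul_le_mul_of_nonneg_right B.hkK hε0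
    rw [hWd, hε]
    linarith
  have hridge := ridge_behind B.pt hk hθ hψ0
  rw [← B.hτ, ← B.hx] at hridge
  have hM' : 0 ≤ Rk - k * ν := hM
  have hρ := rhoW_nonneg hW1
  set qc := rn ((one.sub (((one.add e.eb).sub one).mul ((one.sub e.t).mul e.i2))).low.posPart) with hqcd
  have hside := side_le (R := c.mixR k τ) (R' := c.mixD k τ) (v := c.base.Vm.val τ) (v' := c.base.Vm.der τ)
    (c2 := c2) (W := W) (μ := 0) (cl := 0) (ν := ν) (κ := κ) (kw := kw)
    (kp := (c.base.co τ).kp τ (x ^ 2) (-(rn c.base.K * τ ^ 2 * ((1 - x ^ 2 * τ) * (1 / (1 - τ))))))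
    (qc := qc)
    (a := x ^ 2 * ((1 - 2 * τ) / (1 - x ^ 2 * τ)))
    (be := (1 - 2 * τ) * (x ^ 2 * τ / (1 - x ^ 2 * τ) * (1 / 2) + (x ^ 2 * τ / (1 - x ^ 2 * τ)) ^ 2))
    B.hok B.pt hk hθ
    (by
      have := kp_mono (p := p) (X := x ^ 2) B.hb B.hok.hD.1 (by rw [← B.hτ]; exact hot.le) hz.1
      rw [← B.hτ] at this
      rw [← B.hτ, ← B.hx]; exact this)
    hkp0 (by rw [← B.hτ, ← B.hx]; exact hkw) hkw0 hkap0 (by rw [← B.hx, eR]; exact hM') le_rfl (Or.inl rfl)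
    le_rfl (Or.inl rfl)
    (fun _ => by
      refine ⟨hwW, ?_, ?_, ?_⟩ <;> (try simp only [← B.hτ]) <;> (try simp only [← B.hx, eR])
      · exact hridge
      · have := mul_le_mul_of_nonneg_right (mul_le_mul_of_nonneg_left hMbb hτ0.le) hρ
        simp only [mul_zero, zero_div, add_zero, zero_mul] at hW2 ⊢
        linarith
      · refine hq0.trans (le_of_eq ?_)
        have : (1 - τ) / (1 - 2 * τ) = ((p : ℝ) + 1) / p := by
          rw [B.hτ, (tau_facts p (y := y)).1, (tau_facts p (y := y)).2.1]; field_simp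
        rw [← this]; congr 1; ring)
    (fun _ => ⟨hq1, Or.inl ⟨by simp only [← B.hτ]; exact hridge, by
      have := mul_le_mul_of_nonneg_left hMbb hτ0.le
      rw [← B.hτ, ← B.hx, eR]; linarith⟩⟩)
  refine hside.trans (mul_le_mul_of_nonneg_left (add_le_add le_rfl (mul_le_mul_of_nonneg_left ?_
    (mul_nonneg hk.le (pow_nonneg (tau_pos p).le 3)))) (pow_nonneg (Real.sqrt_nonneg _) _))
  simp only [ridgeB, lamC_eq, coefL, ← B.hτ, ← B.hx]
  set C := (c.base.co τ).C τ (x ^ 2) (c.base.Vm.val τ (x ^ 2))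
  set al := (1 - 2 * τ) / (1 - x ^ 2 * τ)
  set be := (1 - 2 * τ) * (x ^ 2 * τ / (1 - x ^ 2 * τ) * (1 / 2) + (x ^ 2 * τ / (1 - x ^ 2 * τ)) ^ 2)
    with hbed
  have hbe0 : 0 ≤ be := mul_nonneg he.h2.le (by positivity)
  set base := be * (c.base.R.val τ (x ^ 2) + dR + Kn) +
    (c.base.co τ).Q τ (x ^ 2) (c.base.Vm.val τ (x ^ 2)) (c.base.Vm.der τ (x ^ 2)) qc with hbased
  have hu' := hv.Xt.mul hv.iS hS hT
  have hbef := has_cast ((has_one.sub (has_ratio hS hT he.t 2 1 one_pos)).mul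
    ((has_ratio hS hT hu' 1 2 two_pos).add (hu'.mul hu' hS hT)) hS hT) (v := be)
    (by rw [hbed]; push_cast; ring)
  have hbasef := has_cast (((hbef.mul hMb hS hT).add hv.Qm).sub ((he.bgt.mul (has_cst
    (one.sub (((one.add e.eb).sub one).mul ((one.sub e.t).mul e.i2))).low.posPart) hS hT).mul hv.X hS hT))
    (v := base) (by rw [hbased, hqcd, hKnd, hdRd]; simp only [Co.Q]; ring)
  have hsplit := bracket_split (R0 := c.base.R.val τ (x ^ 2)) (R1 := c.R1.val τ (x ^ 2)) (ν := ν)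
    (L0 := (c.base.co τ).L τ (x ^ 2) (c.base.R.val τ (x ^ 2)) (c.base.R.der τ (x ^ 2)))
    (L1 := (c.base.co τ).L τ (x ^ 2) (c.R1.val τ (x ^ 2)) (c.R1.der τ (x ^ 2))) (al := al)
    (eL := (1 - 2 * τ) * (1 / (1 - τ)) * (1 / (1 - τ))) (base := base) (C := C) (ik := κ⁻¹) (X := x ^ 2)
    (ψ := ψ) hks
  have hpi : (1 - kPos c k) * endVal (rn c.k0) (c.base.R.val τ (x ^ 2)) ν
        ((c.base.co τ).L τ (x ^ 2) (c.base.R.val τ (x ^ 2)) (c.base.R.der τ (x ^ 2))) al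
        ((1 - 2 * τ) * (1 / (1 - τ)) * (1 / (1 - τ))) base C κ⁻¹ (x ^ 2) ψ +
      kPos c k * endVal (rn c.base.K) (c.R1.val τ (x ^ 2)) ν
        ((c.base.co τ).L τ (x ^ 2) (c.R1.val τ (x ^ 2)) (c.R1.der τ (x ^ 2))) al
        ((1 - 2 * τ) * (1 / (1 - τ)) * (1 / (1 - τ))) base C κ⁻¹ (x ^ 2) ψ ≤
      segPi n0 n1 ((1 + S) / 2) u (kPos c k) := by
    cases hd : d.first with
    | true =>
      rw [hd, cond_true] at h
      exact endsOK_sound (r := ⟨_, _, _, _, _⟩) hS hT he hv hw hM0f hMKf hik hv.a0 hbasef hv.Cm hnu has_zero hu hwh hs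
        (Or.inl ⟨rfl, rfl⟩) h
    | false =>
      rw [hd, cond_false] at h
      have hSi := hv.Sv.mul he.i1 hS hT
      obtain ⟨-, i, hi, h⟩ := withInv_sound hS hT h
        ((((has_cst xa).mul (has_cst xa) hS hT).add ((has_cst xa).mul (has_num (n := 313) (d := 100) hS hT
          (by norm_num)) hS hT)).add (has_num (n := 201) (d := 50) hS hT (by norm_num)))
      have hf := ((has_cst (S := S) (T := T) xa).mul ((has_cst xa).add (has_num (n := 313) (d := 100) hS hT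
        (by norm_num))) hS hT).mul hi hS hT
      obtain ⟨hden, iden, hiden, h⟩ := withInv_sound hS hT h (hv.X.add (hv.Sv.mul hf hS hT))
      have hP := (hSi.mul hiden hS hT).neg
      refine endsOK_sound (r := ⟨_, _, _, _, _⟩) hS hT he hv hw hM0f hMKf hik hv.a0 hbasef hv.Cm hnu hP hu hwh hs
        (Or.inr ⟨btw_neg hψ0 ?_, ?_⟩) h
      · exact psi_behind B.pt B.hp hk (B.hkK.trans B.hK) hθ (x0 := rn xa) (Mid.rn_nonneg xa)
          (by rw [← B.hx]; exact pow_le_pow_left₀ (Mid.rn_nonneg xa) hxa 2) hden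
          (by rw [← B.hx, ← B.hτ]; push_cast; exact le_of_eq (by ring))
          (by rw [← B.hx, ← B.hτ, div_eq_mul_inv _ (x ^ 2 + _), div_eq_mul_one_div])
      · simp only [SignOf, cond_true, neg_nonpos]
        exact mul_nonneg (mul_nonneg hSx.le (one_div_nonneg.2 hot.le)) (inv_nonneg.2 hden.le)
  have hb2 : k * be * (Rk - k * ν) * ψ ^ 2 ≤
      k * be * (c.base.R.val τ (x ^ 2) + dR + Kn) * ψ ^ 2 :=
    mul_le_mul_of_nonneg_right (mul_le_mul_of_nonneg_left hMbb (mul_nonneg hk.le hbe0)) (sq_nonneg ψ)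
  rw [hbased] at hsplit hpi
  simp only [eR]
  rw [show c.mixD k τ (x ^ 2) = (1 - kPos c k) * c.base.R.der τ (x ^ 2) + kPos c k * c.R1.der τ (x ^ 2) from rfl,
    show Rk = (1 - kPos c k) * c.base.R.val τ (x ^ 2) + kPos c k * c.R1.val τ (x ^ 2) from hRkd, L_mix]
  rw [hRkd] at hb2
  rw [show (ν + (C - 0) * ψ) ^ 2 / (4 * κ) = (ν + C * ψ) ^ 2 * κ⁻¹ / 4 by ring]
  linarith

end Vale.Agent.P237.All.Transport.Small.Wide
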