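import Vale.Agent.P237.All.Small.Wide.SoundMinus

/-!
P237, every dimension, excess `k ∈ [k₀, K]`: the tests of the right side of a box, with the band and in
the tail, bound the bracket there.
-/

noncomputable section

open Real Set

namespace Vale.Agent.P237.All.Transport.Small.Wide

open Mid (Sg AF Pt XP epsP rn)
open Large

variable {c : Cell} {e : Env} {v w : Vals} {S T τ x k : ℝ} {p : ℕ} {y t r lam : ℝ}

set_option maxHeartbeats 800000 in
/-- The band side. -/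
theorem plusBand_sound (B : InBox c.base e v S T τ x k p y t r lam) (hw : ValsHas c.cK w S T τ x) (hk0 : rn c.k0 ≤ k)
    (hkc : rn c.k0 < rn c.base.K) (hyt : y ≤ t)
    (hfwd : mass p semi t ≤ lam ^ p * mass p semi y) {cap : CapK} {hbk : HbK} {psiL kapL nuL : Large.Lin} {m0 m1 : EndK}
    {n0 n1 : Node} {whole : Bool} {u : ℝ} (hu : u ∈ Icc (0 : ℝ) 1)
    (hwh : whole = true → u = (1 + T) / 2)
    (h : plusOK c e v w n0 n1 whole (.band cap hbk psiL kapL nuL m0 m1) = true) (c2 : ℝ) :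
    total p (c.base.co τ) (c.mixR k τ) (c.mixD k τ) (c.base.Vp.val τ) (c.base.Vp.der τ) c2 lam y t r ≤
      semi y ^ (p + 1) * (majZero p ((c.base.co τ).G / ((p : ℝ) + 1)) ((c.base.co τ).D / ((p : ℝ) + 1)) c2 y +
        k * tau p ^ 3 * segPi n0 n1 ((1 + S) / 2) u (kPos c k)) := by
  have hS := B.hS
  have hT := B.hT
  have he := B.env
  have hv := B.vals
  have hp1 : 1 ≤ p := by linarith [B.hp]
  have hk := B.hk
  have hK0 : 0 < rn c.base.K := hk.trans_le B.hkK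
  have hτ0 := B.τ0
  have hot : 0 < 1 - τ := he.h1
  have hSx := hv.hS
  have hXy : x ^ 2 * τ = y ^ 2 := by rw [B.hx, B.hτ, (tau_facts p (y := y)).2.2.2]
  simp only [plusOK, AF.force_eq] at h
  have hps := has_lin' (S := S) (T := T) psiL
  set psv := linVal psiL S T
  obtain ⟨hb, hbv, hhb, hH, h⟩ := withHb_sound hS hT he hv B.hτ B.hx B.hx0 B.pt.hy h
  rw [Bool.and_eq_true] at h
  set ψ := (t - y) / (k * tau p * y) with hψd
  have hkτy : 0 < k * tau p * y := mul_pos (mul_pos hk (tau_pos p)) B.pt.hy.1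
  have hθ : t - y = k * tau p * y * ψ := by rw [hψd, mul_div_cancel₀ _ hkτy.ne']
  have hψ0 : 0 ≤ ψ := div_nonneg (by linarith) hkτy.le
  obtain ⟨hps0, hψ1⟩ :=
    bandOK_sound hS hT he hv B.hτ B.hx B.pt hp1 hk B.hkK B.hK hθ hfwd hps hhb hH h.1
  obtain ⟨Wf, mX, mW, W, c0, hWf, -, -, -, hW1, hwW, h⟩ :=
    withCap_sound hS hT he hv B.hτ B.hx B.hx0 B.pt hp1 hk.le B.hkK B.hK h.2
  simp only [withPlus, AF.force_eq] at h
  obtain ⟨-, iW, hiW, h⟩ := withInv_sound hS hT h hWf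
  obtain ⟨rho, hrho, h⟩ := withRho_sound hS hT hWf h
  obtain ⟨hkap0, ik, hik, h⟩ := withInv_sound hS hT h (has_lin' kapL)
  set κ := linVal kapL S T with hκd
  simp only [Bool.and_eq_true] at h
  obtain ⟨⟨⟨⟨⟨hkp, hM0⟩, hMK⟩, hc0⟩, hc1⟩, h⟩ := h
  have hz : y * (t - y) ∈ Icc 0 (rn c.base.K * τ ^ 2 * (x ^ 2 * psv)) := by
    have e1 : y * (t - y) = k * τ ^ 2 * (x ^ 2 * ψ) := by
      rw [hθ, ← B.hτ]; linear_combination -(k * τ * ψ) * hXy
    refine ⟨by rw [e1]; positivity, ?_⟩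
    rw [e1]
    exact mul_le_mul (mul_le_mul_of_nonneg_right B.hkK (sq_nonneg τ))
      (mul_le_mul_of_nonneg_left hψ1 (sq_nonneg x)) (by positivity) (by positivity)
  have hzh := he.Kt2.mul (hv.X.mul hps hS hT) hS hT
  have hkwf := has_cast (hv.kw0.add (he.cth.mul hzh hS hT))
    (v := (c.base.co τ).kw τ (x ^ 2) (rn c.base.K * τ ^ 2 * (x ^ 2 * psv))) (by simp only [Co.kw]; ring)
  set ν := linVal nuL S T with hνd
  have hnu : nuL.af.Has S T ν := has_lin' _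
  set Kn := rn c.base.K * rn (nuUp nuL) with hKnd
  set dR := rn (posHi (w.R.sub v.R)) with hdRd
  have hdR := le_posHi hS hT (hw.R.sub hv.R)
  have hMb := (hv.R.add (has_cst (posHi (w.R.sub v.R)))).add
    ((has_cst (S := S) (T := T) c.base.K).mul (has_cst (nuUp nuL)) hS hT)
  have hM0f := hv.R.sub ((has_cst c.k0).mul hnu hS hT)
  have hMKf := hw.R.sub ((has_cst c.base.K).mul hnu hS hT)
  have htM := he.t.mul hMb hS hT
  obtain ⟨hs, hks⟩ := kPos_facts hkc hk0 B.hkK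
  set Rk := (1 - kPos c k) * c.base.R.val τ (x ^ 2) + kPos c k * c.R1.val τ (x ^ 2) with hRkd
  obtain ⟨hM, hMbb⟩ : 0 ≤ Rk - k * ν ∧ Rk - k * ν ≤ c.base.R.val τ (x ^ 2) + dR + Kn :=
    mult_bound hS hT hk.le hs hks B.hkK (nn_le hS hT hM0 hM0f) (nn_le hS hT hMK hMKf) (Mid.rn_nonneg _) hdR
  have eR : c.mixR k τ (x ^ 2) = Rk := rfl
  have hkp0 := nn_le hS hT hkp hv.kp0
  obtain ⟨kw, hkw, hkw0, hκW, hκl⟩ :=
    kw_sel (τ := τ) (X := x ^ 2) (Co' := c.base.co τ)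
      (P := fun kw => 0 ≤ kw ∧
        κ * W ≤ numUp p ((c.base.co τ).kp τ (x ^ 2) 0) kw W - τ * (c.base.R.val τ (x ^ 2) + dR + Kn) * rhoW W + 0 ∧
        κ ≤ numLow p ((c.base.co τ).kp τ (x ^ 2) 0) kw - 0) hz
      (kapOK_sound hS hT he B.hτ hp1 (has_lin' kapL) hv.kp0 hv.kw0 (by linarith) hiW hrho htM has_zero
        has_zero hc0)
      (kapOK_sound hS hT he B.hτ hp1 (has_lin' kapL) hv.kp0 hkwf (by linarith) hiW hrho htM has_zero
        has_zero hc1)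
  have hqf := has_one.sub ((hWf.sub has_one).mul ((has_one.sub he.t).mul he.i2 hS hT) hS hT)
  obtain ⟨hq0, hq1⟩ := qc_facts hS hT hqf (sub_le_self _ (mul_nonneg (by linarith)
    (mul_nonneg hot.le (one_div_nonneg.2 he.h2.le))))
  set qc := rn (one.sub ((Wf.sub one).mul ((one.sub e.t).mul e.i2))).low.posPart with hqcd
  have hridge := ridge_ahead B.pt hp1 hk hθ hψ0 hwW hW1
  rw [← B.hx] at hridge
  simp only [← B.hτ] at hridge
  set al := (1 - 2 * τ + 2 * τ * (W - 1)) / (1 - x ^ 2 * τ) with hald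
  set be := x ^ 2 * τ / (1 - x ^ 2 * τ) * ((1 - 2 * τ + 2 * τ * (W - 1)) / 2) with hbed
  have hl2 : 0 ≤ 1 - 2 * τ + 2 * τ * (W - 1) := by
    have := mul_nonneg hτ0.le (show 0 ≤ W - 1 by linarith)
    linarith [he.h2]
  have hbe0 : 0 ≤ be := by positivity
  have hρ := rhoW_nonneg hW1
  have hB0 : 0 ≤ ridgeB p (x ^ 2 * al) be k ψ := by
    have : 0 ≤ lamC p := by unfold lamC; positivity
    unfold ridgeB; positivity
  have hside := side_le (R := c.mixR k τ) (R' := c.mixD k τ) (v := c.base.Vp.val τ) (v' := c.base.Vp.der τ)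
    (c2 := c2) (W := W) (μ := 0) (cl := 0) (ν := ν) (κ := κ) (kw := kw)
    (kp := (c.base.co τ).kp τ (x ^ 2) 0) (qc := qc) (a := x ^ 2 * al) (be := be)
    B.hok B.pt hk hθ
    (by
      have := kp_mono (p := p) (X := x ^ 2) B.hb B.hok.hD.1 (by rw [← B.hτ]; exact hot.le) hz.1
      rw [← B.hτ] at this
      rw [← B.hτ, ← B.hx]; exact this)
    hkp0 (by rw [← B.hτ, ← B.hx]; exact hkw) hkw0 hkap0 (by rw [← B.hx, eR]; exact hM) le_rfl (Or.inl rfl)
    le_rfl (Or.inl rfl)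
    (fun _ => by
      refine ⟨hwW, ?_, ?_, ?_⟩ <;> (try simp only [← B.hτ]) <;> (try simp only [← B.hx, eR])
      · exact hridge
      · have := mul_le_mul_of_nonneg_right (mul_le_mul_of_nonneg_left hMbb hτ0.le) hρ
        simp only [mul_zero, zero_div, add_zero, zero_mul] at hκW ⊢
        linarith
      · refine hq0.trans (le_of_eq ?_)
        rw [← qc_ratio B]; congr 1; ring)
    (fun _ => ⟨hq1, Or.inr ⟨hB0, by linarith⟩⟩)
  refine hside.trans (mul_le_mul_of_nonneg_left (add_le_add le_rfl (mul_le_mul_of_nonneg_left ?_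
    (mul_nonneg hk.le (pow_nonneg (tau_pos p).le 3)))) (pow_nonneg (Real.sqrt_nonneg _) _))
  simp only [ridgeB, lamC_eq, coefL, ← B.hτ, ← B.hx]
  set C := (c.base.co τ).C τ (x ^ 2) (c.base.Vp.val τ (x ^ 2)) with hCd
  set base := be * (c.base.R.val τ (x ^ 2) + dR + Kn) +
    (c.base.co τ).Q τ (x ^ 2) (c.base.Vp.val τ (x ^ 2)) (c.base.Vp.der τ (x ^ 2)) qc with hbased
  have hl2f := has_ratio hS hT (he.t.mul (hWf.sub has_one) hS hT) 2 1 one_pos
  have hbef := has_cast (((has_one.sub (has_ratio hS hT he.t 2 1 one_pos)).add hl2f).mul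
    (has_ratio hS hT (hv.Xt.mul hv.iS hS hT) 1 2 two_pos) hS hT) (v := be)
    (by rw [hbed]; push_cast; ring)
  have half := has_cast (hv.a0.add (hl2f.mul hv.iS hS hT)) (v := al) (by rw [hald]; push_cast; ring)
  have hbasef := has_cast (((hbef.mul hMb hS hT).add hv.Qp).sub ((he.bgt.mul (has_cst
    (one.sub ((Wf.sub one).mul ((one.sub e.t).mul e.i2))).low.posPart) hS hT).mul hv.X hS hT))
    (v := base) (by rw [hbased, hqcd, hKnd, hdRd]; simp only [Co.Q]; ring)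
  have hsplit := bracket_split (R0 := c.base.R.val τ (x ^ 2)) (R1 := c.R1.val τ (x ^ 2)) (ν := ν)
    (L0 := (c.base.co τ).L τ (x ^ 2) (c.base.R.val τ (x ^ 2)) (c.base.R.der τ (x ^ 2)))
    (L1 := (c.base.co τ).L τ (x ^ 2) (c.R1.val τ (x ^ 2)) (c.R1.der τ (x ^ 2))) (al := al)
    (eL := (1 - 2 * τ) * (1 / (1 - τ)) * (1 / (1 - τ))) (base := base) (C := C) (ik := κ⁻¹) (X := x ^ 2)
    (ψ := ψ) hks
  have hpi := endsOK_sound (r := ⟨_, _, _, _, _⟩) (neg := false) hS hT he hv hw hM0f hMKf hik half hbasef hv.Cp hnu hps hu hwh hs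
    (Or.inr ⟨btw_pos hψ0 hψ1, (hps0 : SignOf false psv)⟩) h
  have hbb : k * be * (Rk - k * ν) * ψ ^ 2 ≤
      k * be * (c.base.R.val τ (x ^ 2) + dR + Kn) * ψ ^ 2 :=
    mul_le_mul_of_nonneg_right (mul_le_mul_of_nonneg_left hMbb (mul_nonneg hk.le hbe0)) (sq_nonneg ψ)
  rw [show (ν + (C - 0) * ψ) ^ 2 / (4 * κ) = (ν + C * ψ) ^ 2 * κ⁻¹ / 4 by ring]
  rw [hbased] at hsplit hpi
  simp only [eR]
  rw [show c.mixD k τ (x ^ 2) = (1 - kPos c k) * c.base.R.der τ (x ^ 2) + kPos c k * c.R1.der τ (x ^ 2) from rfl,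
    show Rk = (1 - kPos c k) * c.base.R.val τ (x ^ 2) + kPos c k * c.R1.val τ (x ^ 2) from hRkd, L_mix]
  rw [hRkd] at hbb
  simp only [Cell.cK, hCd] at hsplit hpi ⊢
  linarith

/-- The tail side. -/
theorem tailEnd_sound {c : Large.Cell} (B : InBox c e v S T τ x k p y t r lam) (hyt : y ≤ t)
    {mu z : ℕ} {kapL clL : Large.Lin} {n0 n1 : Node} {whole kk : Bool} {u : ℝ}
    (hu : u ∈ Icc (0 : ℝ) 1) (hwh : whole = true → u = (1 + T) / 2)
    {Wf mX mW : AF} {W c0 : ℝ} (hWf : Wf.Has S T W) (hc00 : 0 < c0) (hmX : mX.Has S T (c0 * x ^ 2))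
    (hmW : mW.Has S T (c0 * ((W - 1) / τ))) (hW1 : 1 ≤ W) (hwW : (r ^ p)⁻¹ ≤ W)
    (h : tailEnd e v n0 n1 whole kk Wf mX mW mu z kapL clL = true) (c2 : ℝ) :
    total p (c.co τ) (c.R.val τ) (c.R.der τ) (c.Vp.val τ) (c.Vp.der τ) c2 lam y t r ≤
      semi y ^ (p + 1) * (majZero p ((c.co τ).G / ((p : ℝ) + 1)) ((c.co τ).D / ((p : ℝ) + 1)) c2 y +
        k * tau p ^ 3 * segVal n0 n1 kk ((1 + S) / 2) u) := by
  have hS := B.hS
  have hT := B.hT
  have he := B.env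
  have hv := B.vals
  have hp1 : 1 ≤ p := by linarith [B.hp]
  have hk := B.hk
  have hτ0 := B.τ0
  have hot : 0 < 1 - τ := he.h1
  have hSx := hv.hS
  have hXy : x ^ 2 * τ = y ^ 2 := by rw [B.hx, B.hτ, (tau_facts p (y := y)).2.2.2]
  simp only [tailEnd, AF.force_eq] at h
  obtain ⟨-, iW, hiW, h⟩ := withInv_sound hS hT h hWf
  obtain ⟨rho, hrho, h⟩ := withRho_sound hS hT hWf h
  rw [Bool.and_eq_true] at h
  obtain ⟨hzc, h⟩ := h
  have htmu := he.t.mul (has_cst mu) hS hT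
  obtain ⟨a1f, ha1, h⟩ :=
    withMu_sound hS hT hWf htmu (fun h0 => by simp [h0, rn]) h
  obtain ⟨hkap0, ik, hik, h⟩ := withInv_sound hS hT h (has_lin kapL)
  set κ := (kapL.c.v + kapL.s.v * S + kapL.t.v * T) / Mid.U with hκd
  have hclf := has_lin (S := S) (T := T) clL
  set cl := (clL.c.v + clL.s.v * S + clL.t.v * T) / Mid.U with hcld
  simp only [Bool.and_eq_true] at h
  obtain ⟨⟨⟨⟨⟨hcl, hkp⟩, hR⟩, hc0⟩, hc1⟩, ⟨hlin, hsq⟩, hb0⟩ := h
  have hcl0 := nn_le hS hT hcl hclf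
  have hR0 := nn_le hS hT hR hv.R
  have hkp0 := nn_le hS hT hkp hv.kp0
  have hμ := Mid.rn_nonneg mu
  set ψ := (t - y) / (k * tau p * y) with hψd
  have hkτy : 0 < k * tau p * y := mul_pos (mul_pos hk (tau_pos p)) B.pt.hy.1
  have hθ : t - y = k * tau p * y * ψ := by rw [hψd, mul_div_cancel₀ _ hkτy.ne']
  have hψ0 : 0 ≤ ψ := div_nonneg (by linarith) hkτy.le
  have hz : y * (t - y) ∈ Icc 0 (rn z) :=
    ⟨mul_nonneg B.pt.hy.1.le (by linarith), tail_z hS hT hv hXy B.pt.hy B.pt.ht hzc⟩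
  have hkwf := has_cast (hv.kw0.add (he.cth.mul (has_cst z) hS hT))
    (v := (c.co τ).kw τ (x ^ 2) (rn z)) (by simp only [Co.kw]; ring)
  have hMf := hv.R.add (has_cst mu)
  have htM := he.t.mul hMf hS hT
  obtain ⟨kw, hkw, hkw0, hκW, hκl⟩ :=
    kw_sel (τ := τ) (X := x ^ 2) (Co' := c.co τ)
      (P := fun kw => 0 ≤ kw ∧
        κ * W ≤ numUp p ((c.co τ).kp τ (x ^ 2) 0) kw W - τ * (c.R.val τ (x ^ 2) + rn mu) * rhoW W +
          τ * rn mu / (W - 1) * W ∧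
        κ ≤ numLow p ((c.co τ).kp τ (x ^ 2) 0) kw - 0) hz
      (kapOK_sound hS hT he B.hτ hp1 (has_lin kapL) hv.kp0 hv.kw0 (by linarith) hiW hrho htM has_zero
        ha1 hc0)
      (kapOK_sound hS hT he B.hτ hp1 (has_lin kapL) hv.kp0 hkwf (by linarith) hiW hrho htM has_zero
        ha1 hc1)
  have hqf := has_one.sub ((hWf.sub has_one).mul ((has_one.sub he.t).mul he.i2 hS hT) hS hT)
  obtain ⟨hq0, hq1⟩ := qc_facts hS hT hqf (sub_le_self _ (mul_nonneg (by linarith)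
    (mul_nonneg hot.le (one_div_nonneg.2 he.h2.le))))
  set qc := rn (one.sub ((Wf.sub one).mul ((one.sub e.t).mul e.i2))).low.posPart with hqcd
  have hridge := ridge_ahead B.pt hp1 hk hθ hψ0 hwW hW1
  rw [← B.hx] at hridge
  simp only [← B.hτ] at hridge
  set al := (1 - 2 * τ + 2 * τ * (W - 1)) / (1 - x ^ 2 * τ) with hald
  set be := x ^ 2 * τ / (1 - x ^ 2 * τ) * ((1 - 2 * τ + 2 * τ * (W - 1)) / 2) with hbed
  have hl2 : 0 ≤ 1 - 2 * τ + 2 * τ * (W - 1) := by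
    have := mul_nonneg hτ0.le (show 0 ≤ W - 1 by linarith)
    linarith [he.h2]
  have hbe0 : 0 ≤ be := by positivity
  have hB0 : 0 ≤ ridgeB p (x ^ 2 * al) be k ψ := by
    have : 0 ≤ lamC p := by unfold lamC; positivity
    unfold ridgeB; positivity
  have hside := side_le (R := c.R.val τ) (R' := c.R.der τ) (v := c.Vp.val τ) (v' := c.Vp.der τ)
    (c2 := c2) (W := W) (μ := rn mu) (cl := cl) (ν := 0) (κ := κ) (kw := kw)
    (kp := (c.co τ).kp τ (x ^ 2) 0) (qc := qc) (a := x ^ 2 * al) (be := be)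
    B.hok B.pt hk hθ
    (by
      have := kp_mono (p := p) (X := x ^ 2) B.hb B.hok.hD.1 (by rw [← B.hτ]; exact hot.le) hz.1
      rw [← B.hτ] at this
      rw [← B.hτ, ← B.hx]; exact this)
    hkp0 (by rw [← B.hτ, ← B.hx]; exact hkw) hkw0 hkap0
    (by rw [← B.hx, mul_zero, sub_zero]; exact hR0) hμ (Or.inr hB0)
    hcl0 (Or.inr ⟨hψ0, hW1⟩)
    (fun _ => by
      refine ⟨hwW, ?_, ?_, ?_⟩ <;> (try simp only [← B.hτ]) <;> (try simp only [← B.hx])
      · exact hridge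
      · simp only [mul_zero, sub_zero] at hκW ⊢
        exact hκW
      · refine hq0.trans (le_of_eq ?_)
        rw [← qc_ratio B]; congr 1; ring)
    (fun _ => ⟨hq1, Or.inr ⟨hB0, by linarith⟩⟩)
  refine hside.trans (mul_le_mul_of_nonneg_left (add_le_add le_rfl (mul_le_mul_of_nonneg_left ?_
    (mul_nonneg hk.le (pow_nonneg (tau_pos p).le 3)))) (pow_nonneg (Real.sqrt_nonneg _) _))
  simp only [ridgeB, lamC_eq, coefL, ← B.hτ, ← B.hx]
  set L := (c.co τ).L τ (x ^ 2) (c.R.val τ (x ^ 2)) (c.R.der τ (x ^ 2))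
  set C := (c.co τ).C τ (x ^ 2) (c.Vp.val τ (x ^ 2))
  set M := c.R.val τ (x ^ 2) + rn mu with hMd
  set base := be * M + (c.co τ).Q τ (x ^ 2) (c.Vp.val τ (x ^ 2)) (c.Vp.der τ (x ^ 2)) qc with hbased
  have hl2f := has_ratio hS hT (he.t.mul (hWf.sub has_one) hS hT) 2 1 one_pos
  have hbef := has_cast (((has_one.sub (has_ratio hS hT he.t 2 1 one_pos)).add hl2f).mul
    (has_ratio hS hT (hv.Xt.mul hv.iS hS hT) 1 2 two_pos) hS hT) (v := be)
    (by rw [hbed]; push_cast; ring)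
  have half := has_cast (hv.a0.add (hl2f.mul hv.iS hS hT)) (v := al) (by rw [hald]; push_cast; ring)
  have hbasef := has_cast (((hbef.mul hMf hS hT).add hv.Qp).sub ((he.bgt.mul (has_cst
    (one.sub ((Wf.sub one).mul ((one.sub e.t).mul e.i2))).low.posPart) hS hT).mul hv.X hS hT))
    (v := base) (by rw [hbased, hqcd, hMd]; simp only [Co.Q]; ring)
  -- the coefficient of `ψ`
  have hlf := hv.L.add (half.mul hMf hS hT)
  have h1' : x ^ 2 * (L + al * M) + cl * ((W - 1) / τ) ≤ 0 := by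
    rw [Bool.or_eq_true, Bool.and_eq_true] at hlin
    rcases hlin with ⟨hz', hn⟩ | hlin
    · rw [Lin.isZero, Nat.beq_eq, Nat.add_eq, Nat.add_eq] at hz'
      have z1 := par_abs_zero (show clL.c.abs' = 0 by omega)
      have z2 := par_abs_zero (show clL.s.abs' = 0 by omega)
      have z3 := par_abs_zero (show clL.t.abs' = 0 by omega)
      have e0 : cl = 0 := by rw [hcld, z1, z2, z3]; simp
      rw [e0, zero_mul, add_zero]
      exact mul_nonpos_of_nonneg_of_nonpos (sq_nonneg x) (np_le hS hT hn hlf)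
    have h1 := np_le hS hT hlin ((hmX.mul hlf hS hT).add (hclf.mul hmW hS hT))
    refine nonpos_of_mul_nonpos_right ?_ hc00
    rw [mul_add]; linarith
  -- the coefficient of `ψ ^ 2`
  have hdC := hv.Cp.sub hclf
  have h2 := np_le hS hT hsq (hbasef.add (has_ratio hS hT ((hdC.mul hdC hS hT).mul hik hS hT) 1 4
    (by norm_num)))
  push_cast at h2
  have t1 := mul_nonpos_of_nonpos_of_nonneg h1' hψ0
  have t2 := mul_nonpos_of_nonpos_of_nonneg h2 (mul_nonneg hk.le (sq_nonneg ψ))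
  -- the constant
  have hMe := hMf.mul he.eL hS hT
  have p0 := below_sound hS hT hMe has_zero hu hwh hb0
  rw [add_zero] at p0
  rw [show (0 + (C - cl) * ψ) ^ 2 / (4 * κ) = ((C - cl) * (C - cl) * κ⁻¹ / 4) * ψ ^ 2 by ring]
  simp only [hbased] at t2 ⊢
  rw [hMd] at *
  linarith

/-- The two ends of the tail side. -/
theorem plusTail_sound (B : InBox c.base e v S T τ x k p y t r lam) (hw : ValsHas c.cK w S T τ x)
    (hk0 : rn c.k0 ≤ k) (hkc : rn c.k0 < rn c.base.K) (hyt : y ≤ t) {cap : CapK} {mu0 z0 mu1 z1 : ℕ}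
    {kap0 cl0 kap1 cl1 : Large.Lin} {n0 n1 : Node} {whole : Bool} {u : ℝ} (hu : u ∈ Icc (0 : ℝ) 1)
    (hwh : whole = true → u = (1 + T) / 2)
    (h : plusOK c e v w n0 n1 whole (.tail cap mu0 z0 kap0 cl0 mu1 z1 kap1 cl1) = true) (c2 : ℝ) :
    total p (c.base.co τ) (c.mixR k τ) (c.mixD k τ) (c.base.Vp.val τ) (c.base.Vp.der τ) c2 lam y t r ≤
      semi y ^ (p + 1) * (majZero p ((c.base.co τ).G / ((p : ℝ) + 1)) ((c.base.co τ).D / ((p : ℝ) + 1)) c2 y +
        k * tau p ^ 3 * segPi n0 n1 ((1 + S) / 2) u (kPos c k)) := by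
  rw [plusOK] at h
  have B1 : InBox c.cK e w S T τ x k p y t r lam := InBox_top B hw
  obtain ⟨Wf, mX, mW, W, c0, hWf, hc00, hmX, hmW, hW1, hwW, h⟩ :=
    withCap_sound B.hS B.hT B.env B.vals B.hτ B.hx B.hx0 B.pt (by linarith [B.hp]) B.hk.le B.hkK B.hK h
  rw [Bool.and_eq_true] at h
  obtain ⟨h0, h1⟩ := h
  obtain ⟨⟨hs0, hs1⟩, -⟩ := kPos_facts hkc hk0 B.hkK
  have a0 := mul_le_mul_of_nonneg_left (tailEnd_sound B hyt hu hwh hWf hc00 hmX hmW hW1 hwW h0 c2) (sub_nonneg.2 hs1)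
  have a1 := mul_le_mul_of_nonneg_left (tailEnd_sound B1 hyt hu hwh hWf hc00 hmX hmW hW1 hwW h1 c2) hs0
  refine (le_of_eq (total_mix p _ _ _ _ _ _ _ _ _ _ _ _ (kPos c k))).trans ((add_le_add a0 a1).trans (le_of_eq ?_))
  simp only [segPi, Cell.cK, Large.Cell.co]; ring

/-- The right side. -/
theorem plusOK_sound (B : InBox c.base e v S T τ x k p y t r lam) (hw : ValsHas c.cK w S T τ x) (hk0 : rn c.k0 ≤ k)
    (hkc : rn c.k0 < rn c.base.K) (hyt : y ≤ t)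
    (hfwd : mass p semi t ≤ lam ^ p * mass p semi y) {n0 n1 : Node} {whole : Bool} {pl : Plus} {u : ℝ}
    (hu : u ∈ Icc (0 : ℝ) 1) (hwh : whole = true → u = (1 + T) / 2)
    (h : plusOK c e v w n0 n1 whole pl = true) (c2 : ℝ) :
    total p (c.base.co τ) (c.mixR k τ) (c.mixD k τ) (c.base.Vp.val τ) (c.base.Vp.der τ) c2 lam y t r ≤
      semi y ^ (p + 1) * (majZero p ((c.base.co τ).G / ((p : ℝ) + 1)) ((c.base.co τ).D / ((p : ℝ) + 1)) c2 y +
        k * tau p ^ 3 * segPi n0 n1 ((1 + S) / 2) u (kPos c k)) := by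
  cases pl with
  | band cap hb psi kap nu m0 m1 => exact plusBand_sound B hw hk0 hkc hyt hfwd hu hwh h c2
  | tail cap mu0 z0 kap0 cl0 mu1 z1 kap1 cl1 => exact plusTail_sound B hw hk0 hkc hyt hu hwh h c2

end Vale.Agent.P237.All.Transport.Small.Wide
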